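import Vale.Agent.P239.F.Base

/-! Depth of superlevel sets of harmonic functions. -/

namespace Vale.Agent.P239.S

open Filter Set
open Vale.Agent.P239 Vale.Agent.P239.F

variable {G : Type*} [Group G] {S : Finset G}

/-- Harnack inequality for one step. -/
theorem harnack_one (h : G → ℝ) (h0 : ∀ x, 0 ≤ h x)
    (hh : ∀ x, ∑ s ∈ S, (h (x * s) - h x) = 0) (x : G) {s : G} (hs : s ∈ S) :
    h (x * s) ≤ S.card * h x := by
  have h1 := hh x
  rw [Finset.sum_sub_distrib, Finset.sum_const, nsmul_eq_mul] at h1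
  have h2 : h (x * s) ≤ ∑ s ∈ S, h (x * s) :=
    Finset.single_le_sum (f := fun s => h (x * s)) (fun _ _ => h0 _) hs
  linarith

/-- Harnack inequality. -/
theorem harnack (hS : Subgroup.closure (S : Set G) = ⊤) (hsym : ∀ s ∈ S, s⁻¹ ∈ S) (g : G) :
    ∃ C : ℝ, 0 < C ∧ ∀ h : G → ℝ, (∀ x, 0 ≤ h x) → (∀ x, ∑ s ∈ S, (h (x * s) - h x) = 0) →
      ∀ x, h (x * g) ≤ C * h x := by
  have hg : g ∈ Subgroup.closure (S : Set G) := by rw [hS]; trivial
  induction hg using Subgroup.closure_induction_right with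
  | one => exact ⟨1, one_pos, fun h _ _ x => by simp⟩
  | mul_right g _ s hs ih =>
    obtain ⟨C, hC, hC'⟩ := ih
    have hc : (0 : ℝ) < S.card := by
      have := Finset.card_pos.2 ⟨s, hs⟩; exact_mod_cast this
    refine ⟨S.card * C, by positivity, fun h h0 hh x => ?_⟩
    have h1 := harnack_one h h0 hh (x * g) hs
    have h2 := hC' h h0 hh x
    rw [← mul_assoc]
    nlinarith
  | mul_inv_cancel g _ s hs ih =>
    obtain ⟨C, hC, hC'⟩ := ih
    have hc : (0 : ℝ) < S.card := by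
      have := Finset.card_pos.2 ⟨s, hs⟩; exact_mod_cast this
    refine ⟨S.card * C, by positivity, fun h h0 hh x => ?_⟩
    have h1 := harnack_one h h0 hh (x * g) (hsym s hs)
    have h2 := hC' h h0 hh x
    rw [← mul_assoc]
    nlinarith

theorem harnack_finset (hS : Subgroup.closure (S : Set G) = ⊤) (hsym : ∀ s ∈ S, s⁻¹ ∈ S)
    (F : Finset G) :
    ∃ C : ℝ, 0 < C ∧ ∀ h : G → ℝ, (∀ x, 0 ≤ h x) → (∀ x, ∑ s ∈ S, (h (x * s) - h x) = 0) →
      ∀ x, ∀ f ∈ F, h (x * f) ≤ C * h x := by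
  classical
  induction F using Finset.induction_on with
  | empty => exact ⟨1, one_pos, fun _ _ _ _ f hf => absurd hf (Finset.notMem_empty _)⟩
  | insert g F _ ih =>
    obtain ⟨C, hC, hC'⟩ := ih
    obtain ⟨D, hD, hD'⟩ := harnack hS hsym g
    refine ⟨C + D, by positivity, fun h h0 hh x f hf => ?_⟩
    rcases Finset.mem_insert.1 hf with rfl | hf
    · have := hD' h h0 hh x
      nlinarith [h0 x]
    · have := hC' h h0 hh x f hf
      nlinarith [h0 x]

theorem forall_of_adj (hS : Subgroup.closure (S : Set G) = ⊤) {p : G → Prop} {x : G} (hx : p x)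
    (h : ∀ a b, Adj S a b → p a → p b) (y : G) : p y := by
  have hg : x⁻¹ * y ∈ Subgroup.closure (S : Set G) := by rw [hS]; trivial
  have key : ∀ g ∈ Subgroup.closure (S : Set G), p (x * g) := by
    intro g hg
    induction hg using Subgroup.closure_induction_right with
    | one => rwa [mul_one]
    | mul_right g _ s hs ih => exact h _ _ ⟨s, hs, Or.inl (mul_assoc _ _ _).symm⟩ ih
    | mul_inv_cancel g _ s hs ih =>
      refine h _ _ ⟨s, hs, Or.inr ?_⟩ ih
      rw [mul_assoc, inv_mul_cancel_right]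
  have := key _ hg
  rwa [mul_inv_cancel_left] at this

/-- Components of superlevel sets of harmonic functions are infinite. -/
theorem comp_infinite [Infinite G] (hS : Subgroup.closure (S : Set G) = ⊤)
    (hsym : ∀ s ∈ S, s⁻¹ ∈ S) (h : G → ℝ) (hh : ∀ x, ∑ s ∈ S, (h (x * s) - h x) = 0) {t : ℝ}
    {x : G} (hx : t < h x) : {y | Con S {u | t < h u} x y}.Infinite := by
  intro hfin
  set K : Set G := {y | Con S {u | t < h u} x y} with hK
  have hxK : x ∈ K := Relation.ReflTransGen.refl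
  have hKt : ∀ y ∈ K, t < h y := by
    intro y hy
    induction hy with
    | refl => exact hx
    | tail _ h1 _ => exact h1.2.1
  obtain ⟨m, hm, hmax⟩ := Set.exists_max_image K h hfin ⟨x, hxK⟩
  have hstep : ∀ a b, Adj S a b → (a ∈ K ∧ h a = h m) → (b ∈ K ∧ h b = h m) := by
    rintro a b hab ⟨ha, ham⟩
    have hle : ∀ s ∈ S, h (a * s) - h a ≤ 0 := by
      intro s hs
      by_cases hst : t < h (a * s)
      · have : a * s ∈ K := Relation.ReflTransGen.tail ha ⟨hKt a ha, hst, s, hs, Or.inl rfl⟩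
        have := hmax _ this
        linarith
      · have := hKt a ha
        push Not at hst
        linarith
    have heq : ∀ s ∈ S, h (a * s) - h a = 0 := (Finset.sum_eq_zero_iff_of_nonpos hle).1 (hh a)
    have hb : h b = h a := by
      obtain ⟨s, hs, rfl | rfl⟩ := hab
      · have := heq s hs; linarith
      · have := heq _ (hsym s hs)
        rw [mul_inv_cancel_right] at this; linarith
    refine ⟨Relation.ReflTransGen.tail ha ⟨hKt a ha, ?_, hab⟩, hb.trans ham⟩
    change t < h b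
    rw [hb]; exact hKt a ha
  have hall : ∀ y, y ∈ K ∧ h y = h m := forall_of_adj hS ⟨hm, rfl⟩ hstep
  have : K = Set.univ := Set.eq_univ_of_forall fun y => (hall y).1
  rw [this] at hfin
  exact Set.infinite_univ hfin

/-- Connected pieces of `K`. -/
theorem con_comp {A : Set G} {x : G} {y z : G} (hy : Con S A x y) (hz : Con S A x z) :
    Con S {w | Con S A x w} y z := by
  have key : ∀ w, Con S A x w → Con S {w | Con S A x w} x w := by
    intro w hw
    induction hw with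
    | refl => exact Relation.ReflTransGen.refl
    | tail h1 h2 ih => exact ih.tail ⟨h1, h1.tail h2, h2.2.2⟩
  exact (key y hy).symm.trans (key z hz)

/-- Depth: if a harmonic function with values in `[0, 1]` comes close to `1`, then `{1/2 < φ}`
contains infinite connected sets together with their `F`-neighbourhoods. -/
theorem depth [Infinite G] (hS : Subgroup.closure (S : Set G) = ⊤) (hsym : ∀ s ∈ S, s⁻¹ ∈ S)
    (φ : G → ℝ) (h1 : ∀ x, φ x ≤ 1) (hh : ∀ x, ∑ s ∈ S, (φ (x * s) - φ x) = 0)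
    (hsup : ∀ ε > 0, ∃ x, 1 - ε < φ x) (F : Finset G) :
    ∃ K : Set G, K.Infinite ∧ (∀ x ∈ K, ∀ y ∈ K, Con S K x y) ∧
      ∀ x ∈ K, ∀ f ∈ F, 1 / 2 < φ (x * f) := by
  obtain ⟨C, hC, hC'⟩ := harnack_finset hS hsym F
  obtain ⟨x, hx⟩ := hsup (1 / (2 * C)) (by positivity)
  refine ⟨{y | Con S {u | 1 - 1 / (2 * C) < φ u} x y}, comp_infinite hS hsym φ hh hx,
    fun y hy z hz => con_comp hy hz, fun y hy f hf => ?_⟩
  have hy' : 1 - 1 / (2 * C) < φ y := by
    induction hy with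
    | refl => exact hx
    | tail _ h _ => exact h.2.1
  have h2 := hC' (fun x => 1 - φ x) (fun x => by linarith [h1 x]) (fun x => by
    have := hh x
    rw [← neg_eq_zero, ← Finset.sum_neg_distrib]
    rw [← this]
    exact Finset.sum_congr rfl fun s _ => by ring) y f hf
  have h3 : C * (1 - φ y) < 1 / 2 := by
    have : 1 - φ y < 1 / (2 * C) := by linarith
    calc C * (1 - φ y) < C * (1 / (2 * C)) := mul_lt_mul_of_pos_left this hC
      _ = 1 / 2 := by field_simp
  linarith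

/-- Depth of the complement of an increasing union of canonical sets. -/
theorem depth_compl [Infinite G] (hS : Subgroup.closure (S : Set G) = ⊤) (hsym : ∀ s ∈ S, s⁻¹ ∈ S)
    (φ : ℕ → G → ℝ) (h0 : ∀ k x, 0 ≤ φ k x) (h1 : ∀ k x, φ k x ≤ 1)
    (hh : ∀ k x, ∑ s ∈ S, (φ k (x * s) - φ k x) = 0) (hm : ∀ x, Monotone fun k => φ k x)
    {y : G} (hy : ∀ k, φ k y ≤ 1 / 2)
    (hdom : ∀ (k : ℕ) (h : G → ℝ) (M : ℝ), (∀ x, ∑ s ∈ S, (h (x * s) - h x) = 0) →
      (∀ x, 0 ≤ h x) → (∀ x, h x ≤ M) → (∀ x, h x ≤ 1 - φ k x) → ∀ x, h x ≤ M * (1 - φ k x))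
    (F : Finset G) :
    ∃ K : Set G, K.Infinite ∧ (∀ x ∈ K, ∀ y ∈ K, Con S K x y) ∧
      ∀ x ∈ K, ∀ f ∈ F, ∀ k, φ k (x * f) ≤ 1 / 2 := by
  have hbdd : ∀ x, BddAbove (Set.range fun k => φ k x) := fun x =>
    ⟨1, by rintro _ ⟨k, rfl⟩; exact h1 k x⟩
  have hlim : ∀ x, Tendsto (fun k => φ k x) atTop (nhds (⨆ k, φ k x)) := fun x =>
    tendsto_atTop_ciSup (hm x) (hbdd x)
  set ψ : G → ℝ := fun x => 1 - ⨆ k, φ k x with hψ
  have hψle : ∀ k x, ψ x ≤ 1 - φ k x := fun k x => by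
    have := le_ciSup (hbdd x) k
    simp only [hψ]; linarith
  have hψ0 : ∀ x, 0 ≤ ψ x := fun x => by
    have : (⨆ k, φ k x) ≤ 1 := ciSup_le fun k => h1 k x
    simp only [hψ]; linarith
  have hψ1 : ∀ x, ψ x ≤ 1 := fun x => (hψle 0 x).trans (by linarith [h0 0 x])
  have hψh : ∀ x, ∑ s ∈ S, (ψ (x * s) - ψ x) = 0 := by
    intro x
    have t1 : Tendsto (fun k => ∑ s ∈ S, (φ k (x * s) - φ k x)) atTop
        (nhds (∑ s ∈ S, ((⨆ k, φ k (x * s)) - ⨆ k, φ k x))) :=
      tendsto_finsetSum _ fun s _ => (hlim (x * s)).sub (hlim x)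
    simp only [hh] at t1
    have t2 := tendsto_nhds_unique t1 tendsto_const_nhds
    rw [← neg_eq_zero, ← Finset.sum_neg_distrib]
    rw [← t2]
    exact Finset.sum_congr rfl fun s _ => by simp only [hψ]; ring
  set M : ℝ := ⨆ x, ψ x with hM
  have hMb : BddAbove (Set.range ψ) := ⟨1, by rintro _ ⟨x, rfl⟩; exact hψ1 x⟩
  have hle : ∀ x, ψ x ≤ M := fun x => le_ciSup hMb x
  have hkey : ∀ x, ψ x ≤ M * ψ x := by
    intro x
    have t : Tendsto (fun k => M * (1 - φ k x)) atTop (nhds (M * ψ x)) :=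
      (tendsto_const_nhds.sub (hlim x)).const_mul M
    exact ge_of_tendsto' t fun k => hdom k ψ M hψh hψ0 hle (hψle k) x
  have hψy : 1 / 2 ≤ ψ y := by
    have : (⨆ k, φ k y) ≤ 1 / 2 := ciSup_le hy
    simp only [hψ]; linarith
  have hM1 : 1 ≤ M := by
    have := hkey y
    nlinarith
  have hsup : ∀ ε > 0, ∃ x, 1 - ε < ψ x := by
    intro ε hε
    exact exists_lt_of_lt_ciSup (show 1 - ε < M by linarith)
  obtain ⟨K, hK, hK', hK''⟩ := depth hS hsym ψ hψ1 hψh hsup F
  refine ⟨K, hK, hK', fun x hx f hf k => ?_⟩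
  have := hK'' x hx f hf
  have := hψle k (x * f)
  linarith

end Vale.Agent.P239.S
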