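import Vale.Agent.P239.F.Base

/-! Caps for the singular part of a pair of nested sets (the only use of `H^1` and `H^2`). -/

namespace Vale.Agent.P239.S

open Filter Set
open scoped Pointwise
open Vale.Agent.P239 Vale.Agent.P239.F

variable {G : Type*} [Group G]

/-- middle vertices of triangles meeting `U`, `V \ U` and the complement of `V` -/
def Sing (T : Finset G) (U V : Set G) : Set G :=
  {m | m ∈ V ∧ m ∉ U ∧ ∃ a ∈ U, ∃ b, b ∉ V ∧ m⁻¹ * a ∈ T ∧ m⁻¹ * b ∈ T ∧ a⁻¹ * b ∈ T}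

/-- closed 2-cochains at scale `T` -/
def Coc (T : Finset G) (b : G → G → G → ZMod 2) : Prop :=
  ∀ x y z w, x⁻¹ * y ∈ T → x⁻¹ * z ∈ T → x⁻¹ * w ∈ T → y⁻¹ * z ∈ T → y⁻¹ * w ∈ T →
      z⁻¹ * w ∈ T → b y z w + b x z w + b x y w + b x y z = 0

omit [Group G] in
theorem finite_cochains (F : Finset G) :
    {z : G → G → G → ZMod 2 | ∀ x y w, z x y w ≠ 0 → x ∈ F ∧ y ∈ F ∧ w ∈ F}.Finite := by
  classical
  refine Set.Finite.of_finite_image (f := fun (z : G → G → G → ZMod 2) (t : F × F × F) =>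
    z t.1 t.2.1 t.2.2) (Set.toFinite _) ?_
  · intro z hz z' hz' h
    funext x y w
    by_cases hm : x ∈ F ∧ y ∈ F ∧ w ∈ F
    · exact congrFun h (⟨x, hm.1⟩, ⟨y, hm.2.1⟩, ⟨w, hm.2.2⟩)
    · have h1 : z x y w = 0 := by
        by_contra h0; exact hm (hz _ _ _ h0)
      have h2 : z' x y w = 0 := by
        by_contra h0; exact hm (hz' _ _ _ h0)
      rw [h1, h2]

theorem unif_cap {S T : Finset G} (h2 : H2Fill S T) (F : Finset G) :
    ∃ F' : Finset G, ∀ z : G → G → G → ZMod 2,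
      (∀ x y w, z x y w ≠ 0 → x ∈ F ∧ y ∈ F ∧ w ∈ F) → Coc T z →
      ∃ c : G → G → ZMod 2, (∀ x y, c x y ≠ 0 → x ∈ F' ∧ y ∈ F') ∧
        ∀ x y w, x⁻¹ * y ∈ S → y⁻¹ * w ∈ S → x⁻¹ * w ∈ S → z x y w = c x y + c y w + c x w := by
  classical
  have key : ∀ z : G → G → G → ZMod 2, ∃ Fz : Finset G,
      (∀ x y w, z x y w ≠ 0 → x ∈ F ∧ y ∈ F ∧ w ∈ F) → Coc T z →
      ∃ c : G → G → ZMod 2, (∀ x y, c x y ≠ 0 → x ∈ Fz ∧ y ∈ Fz) ∧
        ∀ x y w, x⁻¹ * y ∈ S → y⁻¹ * w ∈ S → x⁻¹ * w ∈ S →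
          z x y w = c x y + c y w + c x w := by
    intro z
    by_cases hz : (∀ x y w, z x y w ≠ 0 → x ∈ F ∧ y ∈ F ∧ w ∈ F) ∧ Coc T z
    · obtain ⟨c, hc, hc'⟩ := h2 z (by
        refine ((F ×ˢ F ×ˢ F).finite_toSet).subset ?_
        rintro ⟨x, y, w⟩ h
        simpa using hz.1 x y w h) hz.2
      refine ⟨hc.toFinset.image Prod.fst ∪ hc.toFinset.image Prod.snd, fun _ _ => ⟨c, ?_, hc'⟩⟩
      intro x y hxy
      have hm : (x, y) ∈ hc.toFinset := by rw [Set.Finite.mem_toFinset]; exact hxy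
      exact ⟨Finset.mem_union_left _ (Finset.mem_image.2 ⟨_, hm, rfl⟩),
        Finset.mem_union_right _ (Finset.mem_image.2 ⟨_, hm, rfl⟩)⟩
    · exact ⟨∅, fun h1 h2 => absurd ⟨h1, h2⟩ hz⟩
  choose Fz hFz using key
  refine ⟨(finite_cochains F).toFinset.biUnion Fz, fun z hz1 hz3 => ?_⟩
  obtain ⟨c, hc, hc'⟩ := hFz z hz1 hz3
  refine ⟨c, fun x y hxy => ?_, hc'⟩
  have hm : z ∈ (finite_cochains F).toFinset := by
    rw [Set.Finite.mem_toFinset]; exact hz1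
  exact ⟨Finset.mem_biUnion.2 ⟨z, hm, (hc x y hxy).1⟩, Finset.mem_biUnion.2 ⟨z, hm, (hc x y hxy).2⟩⟩

open Classical in
/-- the 1-cochain of edges crossing both `U ⊆ V` -/
noncomputable def KK (U V : Set G) (x y : G) : ZMod 2 :=
  if (x ∈ U ∧ y ∉ V) ∨ (y ∈ U ∧ x ∉ V) then 1 else 0

/-- its coboundary -/
noncomputable def dK (U V : Set G) (x y w : G) : ZMod 2 := KK U V x y + KK U V y w + KK U V x w

omit [Group G] in
theorem KK_eq_one {U V : Set G} {x y : G} :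
    KK U V x y = 1 ↔ (x ∈ U ∧ y ∉ V) ∨ (y ∈ U ∧ x ∉ V) := by
  unfold KK
  split_ifs with h
  · simp [h]
  · simp [h]

theorem add_self2 (a : ZMod 2) : a + a = 0 := by revert a; decide

omit [Group G] in
theorem dK_ne {U V : Set G} (h : U ⊆ V) {x y w : G} (hd : dK U V x y w ≠ 0) :
    (x ∈ V ∧ x ∉ U ∧ ((y ∈ U ∧ w ∉ V) ∨ (w ∈ U ∧ y ∉ V))) ∨
    (y ∈ V ∧ y ∉ U ∧ ((x ∈ U ∧ w ∉ V) ∨ (w ∈ U ∧ x ∉ V))) ∨
    (w ∈ V ∧ w ∉ U ∧ ((x ∈ U ∧ y ∉ V) ∨ (y ∈ U ∧ x ∉ V))) := by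
  have hx := @h x
  have hy := @h y
  have hw := @h w
  have h11 : (1 : ZMod 2) + 1 = 0 := by decide
  by_contra hcon
  apply hd
  unfold dK KK
  by_cases hxU : x ∈ U <;> by_cases hxV : x ∈ V <;> by_cases hyU : y ∈ U <;>
    by_cases hyV : y ∈ V <;> by_cases hwU : w ∈ U <;> by_cases hwV : w ∈ V <;>
    simp_all

omit [Group G] in
theorem dK_coc (U V : Set G) (x y z w : G) :
    dK U V y z w + dK U V x z w + dK U V x y w + dK U V x y z = 0 := by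
  unfold dK
  linear_combination add_self2 (KK U V y z) + add_self2 (KK U V z w) + add_self2 (KK U V y w) +
    add_self2 (KK U V x z) + add_self2 (KK U V x w) + add_self2 (KK U V x y)

/-- the set of pairwise close elements -/
def AllClose (T : Finset G) (Q : Set G) : Prop := ∀ u ∈ Q, ∀ v ∈ Q, u⁻¹ * v ∈ T

theorem allClose3 {T : Finset G} (h1 : (1 : G) ∈ T) (hs : ∀ s ∈ T, s⁻¹ ∈ T) {x y w : G}
    (hxy : x⁻¹ * y ∈ T) (hxw : x⁻¹ * w ∈ T) (hyw : y⁻¹ * w ∈ T) :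
    AllClose T {x, y, w} := by
  have f : ∀ {a b : G}, a⁻¹ * b ∈ T → b⁻¹ * a ∈ T := fun {a b} h => by
    have := hs _ h; rwa [mul_inv_rev, inv_inv] at this
  rintro u (rfl | rfl | rfl) v (rfl | rfl | rfl) <;>
    first | (rw [inv_mul_cancel]; exact h1) | assumption | (apply f; assumption)

theorem allClose4 {T : Finset G} (h1 : (1 : G) ∈ T) (hs : ∀ s ∈ T, s⁻¹ ∈ T) {x y z w : G}
    (hxy : x⁻¹ * y ∈ T) (hxz : x⁻¹ * z ∈ T) (hxw : x⁻¹ * w ∈ T) (hyz : y⁻¹ * z ∈ T)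
    (hyw : y⁻¹ * w ∈ T) (hzw : z⁻¹ * w ∈ T) :
    AllClose T {x, y, z, w} := by
  have f : ∀ {a b : G}, a⁻¹ * b ∈ T → b⁻¹ * a ∈ T := fun {a b} h => by
    have := hs _ h; rwa [mul_inv_rev, inv_inv] at this
  rintro u (rfl | rfl | rfl | rfl) v (rfl | rfl | rfl | rfl) <;>
    first | (rw [inv_mul_cancel]; exact h1) | assumption | (apply f; assumption)

/-- the middle vertex of a singular triangle -/
theorem exists_mid {T : Finset G} {U V : Set G} (h : U ⊆ V) {Q : Set G} (hQ : AllClose T Q)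
    {x y w : G} (hx : x ∈ Q) (hy : y ∈ Q) (hw : w ∈ Q) (hd : dK U V x y w ≠ 0) :
    ∃ m, (m = x ∨ m = y ∨ m = w) ∧ m ∈ Sing T U V ∧
      ∀ v, (v = x ∨ v = y ∨ v = w) → v ∈ V → v ∉ U → v = m := by
  rcases dK_ne h hd with ⟨h1, h2, h3 | h3⟩ | ⟨h1, h2, h3 | h3⟩ | ⟨h1, h2, h3 | h3⟩
  · refine ⟨x, by simp, ⟨h1, h2, y, h3.1, w, h3.2, hQ _ hx _ hy, hQ _ hx _ hw, hQ _ hy _ hw⟩, ?_⟩
    rintro v (rfl | rfl | rfl) hv hv'
    · rfl
    · exact absurd h3.1 hv'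
    · exact absurd hv h3.2
  · refine ⟨x, by simp, ⟨h1, h2, w, h3.1, y, h3.2, hQ _ hx _ hw, hQ _ hx _ hy, hQ _ hw _ hy⟩, ?_⟩
    rintro v (rfl | rfl | rfl) hv hv'
    · rfl
    · exact absurd hv h3.2
    · exact absurd h3.1 hv'
  · refine ⟨y, by simp, ⟨h1, h2, x, h3.1, w, h3.2, hQ _ hy _ hx, hQ _ hy _ hw, hQ _ hx _ hw⟩, ?_⟩
    rintro v (rfl | rfl | rfl) hv hv'
    · exact absurd h3.1 hv'
    · rfl
    · exact absurd hv h3.2
  · refine ⟨y, by simp, ⟨h1, h2, w, h3.1, x, h3.2, hQ _ hy _ hw, hQ _ hy _ hx, hQ _ hw _ hx⟩, ?_⟩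
    rintro v (rfl | rfl | rfl) hv hv'
    · exact absurd hv h3.2
    · rfl
    · exact absurd h3.1 hv'
  · refine ⟨w, by simp, ⟨h1, h2, x, h3.1, y, h3.2, hQ _ hw _ hx, hQ _ hw _ hy, hQ _ hx _ hy⟩, ?_⟩
    rintro v (rfl | rfl | rfl) hv hv'
    · exact absurd h3.1 hv'
    · exact absurd hv h3.2
    · rfl
  · refine ⟨w, by simp, ⟨h1, h2, y, h3.1, x, h3.2, hQ _ hw _ hy, hQ _ hw _ hx, hQ _ hy _ hx⟩, ?_⟩
    rintro v (rfl | rfl | rfl) hv hv'
    · exact absurd hv h3.2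
    · exact absurd h3.1 hv'
    · rfl

/-- a union of clusters -/
def ClosedIn (T : Finset G) (U V D : Set G) : Prop :=
  D ⊆ Sing T U V ∧ ∀ m ∈ D, ∀ m' ∈ Sing T U V, m⁻¹ * m' ∈ T → m' ∈ D

theorem touch {T : Finset G} {U V D : Set G} (h : U ⊆ V) (hD : ClosedIn T U V D) {Q : Set G}
    (hQ : AllClose T Q) {x y w x' y' w' : G} (hx : x ∈ Q) (hy : y ∈ Q) (hw : w ∈ Q)
    (hx' : x' ∈ Q) (hy' : y' ∈ Q) (hw' : w' ∈ Q) (hd : dK U V x y w ≠ 0)
    (hd' : dK U V x' y' w' ≠ 0) (ht : x ∈ D ∨ y ∈ D ∨ w ∈ D) : x' ∈ D ∨ y' ∈ D ∨ w' ∈ D := by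
  obtain ⟨m, hm, hmS, hmu⟩ := exists_mid h hQ hx hy hw hd
  obtain ⟨m', hm', hmS', -⟩ := exists_mid h hQ hx' hy' hw' hd'
  have hmD : m ∈ D := by
    rcases ht with ht | ht | ht
    · rwa [← hmu x (by simp) (hD.1 ht).1 (hD.1 ht).2.1]
    · rwa [← hmu y (by simp) (hD.1 ht).1 (hD.1 ht).2.1]
    · rwa [← hmu w (by simp) (hD.1 ht).1 (hD.1 ht).2.1]
  have hmQ : m ∈ Q := by rcases hm with rfl | rfl | rfl <;> assumption
  have hmQ' : m' ∈ Q := by rcases hm' with rfl | rfl | rfl <;> assumption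
  have := hD.2 m hmD m' hmS' (hQ _ hmQ _ hmQ')
  rcases hm' with rfl | rfl | rfl <;> simp [this]

open Classical in
/-- the part of the singular cochain near `D` -/
noncomputable def zD (T : Finset G) (U V D : Set G) (x y w : G) : ZMod 2 :=
  if (x⁻¹ * y ∈ T ∧ x⁻¹ * w ∈ T ∧ y⁻¹ * w ∈ T) ∧ (x ∈ D ∨ y ∈ D ∨ w ∈ D) then dK U V x y w else 0

theorem zD_coc {T : Finset G} {U V D : Set G} (h : U ⊆ V) (hD : ClosedIn T U V D)
    (h1 : (1 : G) ∈ T) (hs : ∀ s ∈ T, s⁻¹ ∈ T) : Coc T (zD T U V D) := by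
  intro x y z w hxy hxz hxw hyz hyw hzw
  have hQ := allClose4 h1 hs hxy hxz hxw hyz hyw hzw
  have hx : x ∈ ({x, y, z, w} : Set G) := by simp
  have hy : y ∈ ({x, y, z, w} : Set G) := by simp
  have hz : z ∈ ({x, y, z, w} : Set G) := by simp
  have hw : w ∈ ({x, y, z, w} : Set G) := by simp
  have hdd := dK_coc U V x y z w
  -- a face which is singular and touches
  by_cases hex : (dK U V y z w ≠ 0 ∧ (y ∈ D ∨ z ∈ D ∨ w ∈ D)) ∨
      (dK U V x z w ≠ 0 ∧ (x ∈ D ∨ z ∈ D ∨ w ∈ D)) ∨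
      (dK U V x y w ≠ 0 ∧ (x ∈ D ∨ y ∈ D ∨ w ∈ D)) ∨
      (dK U V x y z ≠ 0 ∧ (x ∈ D ∨ y ∈ D ∨ z ∈ D))
  · have key : ∀ x' y' w' : G, x' ∈ ({x, y, z, w} : Set G) → y' ∈ ({x, y, z, w} : Set G) →
        w' ∈ ({x, y, z, w} : Set G) → dK U V x' y' w' ≠ 0 → (x' ∈ D ∨ y' ∈ D ∨ w' ∈ D) := by
      intro x' y' w' hx' hy' hw' hd'
      rcases hex with ⟨e1, e2⟩ | ⟨e1, e2⟩ | ⟨e1, e2⟩ | ⟨e1, e2⟩
      · exact touch h hD hQ hy hz hw hx' hy' hw' e1 hd' e2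
      · exact touch h hD hQ hx hz hw hx' hy' hw' e1 hd' e2
      · exact touch h hD hQ hx hy hw hx' hy' hw' e1 hd' e2
      · exact touch h hD hQ hx hy hz hx' hy' hw' e1 hd' e2
    have e : ∀ x' y' w' : G, x' ∈ ({x, y, z, w} : Set G) → y' ∈ ({x, y, z, w} : Set G) →
        w' ∈ ({x, y, z, w} : Set G) → x'⁻¹ * y' ∈ T → x'⁻¹ * w' ∈ T → y'⁻¹ * w' ∈ T →
        zD T U V D x' y' w' = dK U V x' y' w' := by
      intro x' y' w' hx' hy' hw' a1 a2 a3
      unfold zD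
      split_ifs with hc
      · rfl
      · by_contra h0
        exact hc ⟨⟨a1, a2, a3⟩, key x' y' w' hx' hy' hw' (Ne.symm h0)⟩
    rw [e y z w hy hz hw hyz hyw hzw, e x z w hx hz hw hxz hxw hzw, e x y w hx hy hw hxy hxw hyw,
      e x y z hx hy hz hxy hxz hyz]
    exact hdd
  · push Not at hex
    obtain ⟨k1, k2, k3, k4⟩ := hex
    have e : ∀ x' y' w' : G, (dK U V x' y' w' ≠ 0 → ¬ (x' ∈ D ∨ y' ∈ D ∨ w' ∈ D)) →
        zD T U V D x' y' w' = 0 := by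
      intro x' y' w' hk
      unfold zD
      split_ifs with hc
      · by_contra h0
        exact hk h0 hc.2
      · rfl
    rw [e y z w (fun h => by have := k1 h; tauto), e x z w (fun h => by have := k2 h; tauto),
      e x y w (fun h => by have := k3 h; tauto), e x y z (fun h => by have := k4 h; tauto)]
    norm_num

/-- the cluster of `m` -/
def Comp (T : Finset G) (U V : Set G) (m : G) : Set G :=
  {m' | Relation.ReflTransGen (fun a b => a ∈ Sing T U V ∧ b ∈ Sing T U V ∧ a⁻¹ * b ∈ T) m m'}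

theorem comp_closed {T : Finset G} {U V : Set G} {m : G} (hm : m ∈ Sing T U V) :
    ClosedIn T U V (Comp T U V m) := by
  have hsub : Comp T U V m ⊆ Sing T U V := by
    intro m' h
    induction h with
    | refl => exact hm
    | tail _ h _ => exact h.2.1
  refine ⟨hsub, fun a ha b hb hab => ?_⟩
  exact Relation.ReflTransGen.tail ha ⟨hsub ha, hb, hab⟩

theorem comp_subset {T : Finset G} {U V D : Set G} (hD : ClosedIn T U V D) {m : G} (hm : m ∈ D) :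
    Comp T U V m ⊆ D := by
  intro m' h
  induction h with
  | refl => exact hm
  | tail _ h ih => exact hD.2 _ ih _ h.2.1 h.2.2

theorem diff_closed {T : Finset G} {U V D : Set G} (hs : ∀ s ∈ T, s⁻¹ ∈ T)
    (hD : ClosedIn T U V D) {m : G} (hm : m ∈ D) :
    ClosedIn T U V (D \ Comp T U V m) := by
  refine ⟨fun x hx => hD.1 hx.1, fun a ha b hb hab => ⟨hD.2 _ ha.1 _ hb hab, fun hbc => ha.2 ?_⟩⟩
  refine (comp_closed (hD.1 hm)).2 b hbc a (hD.1 ha.1) ?_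
  have := hs _ hab
  rwa [mul_inv_rev, inv_inv] at this

theorem zD_split {T : Finset G} {U V D : Set G} (h : U ⊆ V) (h1 : (1 : G) ∈ T)
    (hs : ∀ s ∈ T, s⁻¹ ∈ T) (hD : ClosedIn T U V D) {m : G} (hm : m ∈ D) (x y w : G) :
    zD T U V D x y w = zD T U V (Comp T U V m) x y w + zD T U V (D \ Comp T U V m) x y w := by
  by_cases hd : dK U V x y w = 0
  · unfold zD; simp [hd]
  by_cases hT : x⁻¹ * y ∈ T ∧ x⁻¹ * w ∈ T ∧ y⁻¹ * w ∈ T
  swap
  · unfold zD; simp [hT]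
  have hQ := allClose3 h1 hs hT.1 hT.2.1 hT.2.2
  obtain ⟨n, hn, hnS, hnu⟩ := exists_mid h hQ (by simp) (by simp) (by simp) hd
  have hmem : ∀ E : Set G, E ⊆ Sing T U V → ((x ∈ E ∨ y ∈ E ∨ w ∈ E) ↔ n ∈ E) := by
    intro E hE
    constructor
    · rintro (ht | ht | ht)
      · rwa [← hnu x (by simp) (hE ht).1 (hE ht).2.1]
      · rwa [← hnu y (by simp) (hE ht).1 (hE ht).2.1]
      · rwa [← hnu w (by simp) (hE ht).1 (hE ht).2.1]
    · intro hnE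
      rcases hn with rfl | rfl | rfl <;> simp [hnE]
  have hC : Comp T U V m ⊆ D := comp_subset hD hm
  have val : ∀ E : Set G, E ⊆ Sing T U V →
      (n ∈ E → zD T U V E x y w = dK U V x y w) ∧ (n ∉ E → zD T U V E x y w = 0) := by
    intro E hE
    constructor
    · intro hn
      unfold zD
      rw [if_pos ⟨hT, (hmem E hE).2 hn⟩]
    · intro hn
      unfold zD
      rw [if_neg (fun hc => hn ((hmem E hE).1 hc.2))]
  have v1 := val D hD.1
  have v2 := val (Comp T U V m) (hC.trans hD.1)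
  have v3 := val (D \ Comp T U V m) (fun z hz => hD.1 hz.1)
  by_cases hnD : n ∈ D
  · by_cases hnC : n ∈ Comp T U V m
    · rw [v1.1 hnD, v2.1 hnC, v3.2 (fun hc => hc.2 hnC), add_zero]
    · rw [v1.1 hnD, v2.2 hnC, v3.1 ⟨hnD, hnC⟩, zero_add]
  · have hnC : n ∉ Comp T U V m := fun hc => hnD (hC hc)
    rw [v1.2 hnD, v2.2 hnC, v3.2 (fun hc => hnD hc.1), add_zero]

open Classical in
/-- Capping a union of clusters of bounded size. -/
theorem cap_closed {S T : Finset G} (h1 : (1 : G) ∈ T) (hs : ∀ s ∈ T, s⁻¹ ∈ T)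
    (h2 : H2Fill S T) (B : Finset G) :
    ∃ F : Finset G, ∀ U V : Set G, U ⊆ V →
      (∀ m ∈ Sing T U V, ∀ m' ∈ Comp T U V m, m⁻¹ * m' ∈ B) →
      ∀ n : ℕ, ∀ D : Set G, D.Finite → D.ncard ≤ n → ClosedIn T U V D →
      ∃ c : G → G → ZMod 2, (∀ x y, c x y ≠ 0 → ∃ m ∈ D, m⁻¹ * x ∈ F ∧ m⁻¹ * y ∈ F) ∧
        ∀ x y w, x⁻¹ * y ∈ S → y⁻¹ * w ∈ S → x⁻¹ * w ∈ S →
          zD T U V D x y w = c x y + c y w + c x w := by
  obtain ⟨F, hF⟩ := unif_cap h2 ((B ×ˢ T).image fun p => p.1 * p.2)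
  refine ⟨F, fun U V hUV hB n => ?_⟩
  induction n with
  | zero =>
    intro D hfin hn hD
    have hE : D = ∅ := by
      rcases Set.eq_empty_or_nonempty D with h | h
      · exact h
      · exact absurd hn (by have := (Set.ncard_pos hfin).2 h; omega)
    subst hE
    refine ⟨fun _ _ => 0, fun x y h => absurd rfl h, fun x y w _ _ _ => ?_⟩
    unfold zD; simp
  | succ n ih =>
    intro D hfin hn hD
    rcases Set.eq_empty_or_nonempty D with hE | ⟨m, hm⟩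
    · subst hE
      refine ⟨fun _ _ => 0, fun x y h => absurd rfl h, fun x y w _ _ _ => ?_⟩
      unfold zD; simp
    have hmS := hD.1 hm
    have hmm : m ∈ Comp T U V m := Relation.ReflTransGen.refl
    have hsub : D \ Comp T U V m ⊂ D :=
      ⟨fun x hx => hx.1, fun h => (h hm).2 hmm⟩
    obtain ⟨c, hc, hc'⟩ := ih (D \ Comp T U V m) (hfin.subset hsub.1)
      (by have := Set.ncard_lt_ncard hsub hfin; omega) (diff_closed hs hD hm)
    -- the cluster of `m`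
    have hCc := comp_closed hmS
    have hcoc := zD_coc hUV hCc h1 hs
    obtain ⟨c₁, hc₁, hc₁'⟩ := hF (fun x y w => zD T U V (Comp T U V m) (m * x) (m * y) (m * w))
      (by
        intro x y w h0
        have hc0 : ((m * x)⁻¹ * (m * y) ∈ T ∧ (m * x)⁻¹ * (m * w) ∈ T ∧ (m * y)⁻¹ * (m * w) ∈ T) ∧
            (m * x ∈ Comp T U V m ∨ m * y ∈ Comp T U V m ∨ m * w ∈ Comp T U V m) := by
          by_contra hc0
          exact h0 (if_neg hc0)
        have hQ := allClose3 h1 hs hc0.1.1 hc0.1.2.1 hc0.1.2.2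
        obtain ⟨k, hk, hkC⟩ : ∃ k ∈ ({m * x, m * y, m * w} : Set G), k ∈ Comp T U V m := by
          rcases hc0.2 with h | h | h
          · exact ⟨_, by simp, h⟩
          · exact ⟨_, by simp, h⟩
          · exact ⟨_, by simp, h⟩
        have hkB := hB m hmS k hkC
        have fin : ∀ u, m * u ∈ ({m * x, m * y, m * w} : Set G) →
            u ∈ (B ×ˢ T).image fun p => p.1 * p.2 := by
          intro u hu
          refine Finset.mem_image.2 ⟨(m⁻¹ * k, k⁻¹ * (m * u)), ?_, ?_⟩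
          · exact Finset.mem_product.2 ⟨hkB, hQ _ hk _ hu⟩
          · simp [mul_assoc]
        exact ⟨fin x (by simp), fin y (by simp), fin w (by simp)⟩)
      (by
        intro x y z w hxy hxz hxw hyz hyw hzw
        have e : ∀ {a b : G}, a⁻¹ * b ∈ T → (m * a)⁻¹ * (m * b) ∈ T := by
          intro a b h; rwa [mul_inv_rev, mul_assoc, inv_mul_cancel_left]
        exact hcoc _ _ _ _ (e hxy) (e hxz) (e hxw) (e hyz) (e hyw) (e hzw))
    refine ⟨fun x y => c₁ (m⁻¹ * x) (m⁻¹ * y) + c x y, fun x y h => ?_, fun x y w a1 a2 a3 => ?_⟩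
    · by_cases h0 : c x y = 0
      · have : c₁ (m⁻¹ * x) (m⁻¹ * y) ≠ 0 := by
          intro h'; apply h; simp only [h', h0]; rfl
        exact ⟨m, hm, hc₁ _ _ this⟩
      · obtain ⟨k, hk, hk'⟩ := hc x y h0
        exact ⟨k, hk.1, hk'⟩
    · have e : ∀ {a b : G}, a⁻¹ * b ∈ S → (m⁻¹ * a)⁻¹ * (m⁻¹ * b) ∈ S := by
        intro a b h; rwa [mul_inv_rev, inv_inv, mul_assoc, mul_inv_cancel_left]
      have k1 := hc₁' (m⁻¹ * x) (m⁻¹ * y) (m⁻¹ * w) (e a1) (e a2) (e a3)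
      have k2 := hc' x y w a1 a2 a3
      simp only [mul_inv_cancel_left] at k1
      rw [zD_split hUV h1 hs hD hm, k1, k2]
      ring

theorem sing_finite {T : Finset G} {U V : Set G}
    (hov : {x | x ∈ U ∧ ∃ y, y ∉ V ∧ x⁻¹ * y ∈ T}.Finite) : (Sing T U V).Finite := by
  classical
  refine (hov.mul (T.finite_toSet.image (fun t => t⁻¹))).subset ?_
  rintro m ⟨-, -, a, ha, b, hb, h1, h2, h3⟩
  refine Set.mem_mul.2 ⟨a, ⟨ha, b, hb, h3⟩, (m⁻¹ * a)⁻¹, ⟨_, h1, rfl⟩, ?_⟩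
  rw [mul_inv_rev, inv_inv, mul_inv_cancel_left]

theorem zmod2_cases (a : ZMod 2) : a = 0 ∨ a = 1 := by revert a; decide

/-- The only use of `H^1` and `H^2` in the discreteness theorem. -/
theorem cap {S T : Finset G} (h1 : (1 : G) ∈ T) (hsS : ∀ s ∈ S, s⁻¹ ∈ S) (hs : ∀ s ∈ T, s⁻¹ ∈ T)
    (hST : S ⊆ T) (hone : OneEnded S) (hex : H1Ex S) (h2 : H2Fill S T) (B : Finset G) :
    ∃ F : Finset G, ∀ U V : Set G, U ⊆ V →
      {x | x ∈ U ∧ ∃ y, y ∉ V ∧ x⁻¹ * y ∈ T}.Finite →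
      (∀ m m', Relation.ReflTransGen
        (fun a b => a ∈ Sing T U V ∧ b ∈ Sing T U V ∧ a⁻¹ * b ∈ T) m m' → m⁻¹ * m' ∈ B) →
      ∃ E : Set G, E.Finite ∧ ∀ x y, x⁻¹ * y ∈ S → (∀ f ∈ F, x * f ∉ Sing T U V) →
        (¬ (x ∈ E ↔ y ∈ E) ↔ ((x ∈ U ∧ y ∉ V) ∨ (y ∈ U ∧ x ∉ V))) := by
  classical
  obtain ⟨F, hF⟩ := cap_closed (S := S) h1 hs h2 B
  refine ⟨F.image (fun f => f⁻¹), fun U V hUV hov hB => ?_⟩
  have hfin := sing_finite hov
  have hcl : ClosedIn T U V (Sing T U V) := ⟨Subset.rfl, fun _ _ m' hm' _ => hm'⟩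
  obtain ⟨c, hc, hc'⟩ := hF U V hUV (fun m _ m' hm' => hB m m' hm') _ (Sing T U V) hfin le_rfl hcl
  have hz : ∀ x y w, x⁻¹ * y ∈ S → y⁻¹ * w ∈ S → x⁻¹ * w ∈ S →
      dK U V x y w = c x y + c y w + c x w := by
    intro x y w a1 a2 a3
    rw [← hc' x y w a1 a2 a3]
    unfold zD
    by_cases hd : dK U V x y w = 0
    · simp [hd]
    rw [if_pos]
    have hQ := allClose3 h1 hs (hST a1) (hST a3) (hST a2)
    obtain ⟨m, hm, hmS, -⟩ := exists_mid hUV hQ (by simp) (by simp) (by simp) hd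
    refine ⟨⟨hST a1, hST a3, hST a2⟩, ?_⟩
    rcases hm with rfl | rfl | rfl <;> simp [hmS]
  obtain ⟨g, hg⟩ := hex (fun x y => KK U V x y + c x y) (by
    intro x y w a1 a2 a3
    have := hz x y w a1 a2 a3
    unfold dK at this
    linear_combination this + add_self2 (c x y) + add_self2 (c y w) - add_self2 (KK U V x w))
  -- the boundary of `{g = 1}` is finite
  have hbd : {x | ∃ y, Adj S x y ∧ ¬ (x ∈ {u | g u = 1} ↔ y ∈ {u | g u = 1})}.Finite := by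
    have hfs : {x | ∃ y, x⁻¹ * y ∈ S ∧ (KK U V x y ≠ 0 ∨ c x y ≠ 0)}.Finite := by
      have f1 : {x | x ∈ U ∧ ∃ y, y ∉ V ∧ x⁻¹ * y ∈ T}.Finite := hov
      have f2 : ({x | x ∈ U ∧ ∃ y, y ∉ V ∧ x⁻¹ * y ∈ T} * (S : Set G)).Finite :=
        f1.mul S.finite_toSet
      have f3 : ((Sing T U V) * (F : Set G)).Finite := hfin.mul F.finite_toSet
      refine ((f1.union f2).union f3).subset ?_
      rintro x ⟨y, hxy, h | h⟩
      · left
        have h' : (x ∈ U ∧ y ∉ V) ∨ (y ∈ U ∧ x ∉ V) :=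
          KK_eq_one.1 ((zmod2_cases _).resolve_left h)
        have hyx : y⁻¹ * x ∈ S := by
          have := hsS _ hxy; rwa [mul_inv_rev, inv_inv] at this
        rcases h' with h' | h'
        · exact Or.inl ⟨h'.1, y, h'.2, hST hxy⟩
        · refine Or.inr (Set.mem_mul.2 ⟨y, ⟨h'.1, x, h'.2, hST hyx⟩, y⁻¹ * x, hyx, ?_⟩)
          rw [mul_inv_cancel_left]
      · right
        obtain ⟨m, hm, hmx, -⟩ := hc x y h
        exact Set.mem_mul.2 ⟨m, hm, m⁻¹ * x, hmx, by rw [mul_inv_cancel_left]⟩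
    refine hfs.subset ?_
    rintro x ⟨y, hxy, hne⟩
    have hxy' : x⁻¹ * y ∈ S := by
      obtain ⟨s, hs', rfl | rfl⟩ := hxy
      · rwa [inv_mul_cancel_left]
      · rw [mul_inv_rev, mul_assoc, inv_mul_cancel, mul_one]; exact hsS _ hs'
    refine ⟨y, hxy', ?_⟩
    by_contra hcon
    push Not at hcon
    have := hg x y hxy'
    simp only [hcon.1, hcon.2, add_zero] at this
    apply hne
    simp only [Set.mem_ofPred_eq]
    have e : g x = g y := by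
      have h3 : g x + g y + g y = 0 + g y := by rw [← this]
      rw [add_assoc, add_self2, add_zero, zero_add] at h3
      exact h3
    rw [e]
  have hE : ∃ E : Set G, E.Finite ∧ ∀ x y, (¬ (x ∈ E ↔ y ∈ E)) ↔ g x + g y = 1 := by
    have base : ∀ x y, (¬ (g x = 1 ↔ g y = 1)) ↔ g x + g y = 1 := by
      intro x y
      have h11 : (1 : ZMod 2) + 1 = 0 := by decide
      rcases zmod2_cases (g x) with e1 | e1 <;> rcases zmod2_cases (g y) with e2 | e2 <;>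
        simp [e1, e2, h11]
    rcases hone _ hbd with h | h
    · exact ⟨_, h, base⟩
    · refine ⟨_, h, fun x y => ?_⟩
      rw [← base x y]
      simp only [Set.mem_compl_iff, Set.mem_ofPred_eq]
      tauto
  obtain ⟨E, hEf, hE⟩ := hE
  refine ⟨E, hEf, fun x y hxy hfar => ?_⟩
  have hc0 : c x y = 0 := by
    by_contra h
    obtain ⟨m, hm, hmx, -⟩ := hc x y h
    refine hfar (m⁻¹ * x)⁻¹ (Finset.mem_image.2 ⟨_, hmx, rfl⟩) ?_
    rw [mul_inv_rev, inv_inv, mul_inv_cancel_left]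
    exact hm
  rw [hE x y, ← hg x y hxy, hc0, add_zero, KK_eq_one]

end Vale.Agent.P239.S
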