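import Vale.Agent.P239.S.DiscCore
import Vale.Agent.P239.AHPot

/-!
# P239, Module B: the centres of one-point cuts are discrete

`CutFam` = (T1)-(T6), `DeepFam` = (T7), `CapProp` = (CAP).
-/

set_option autoImplicit false
set_option linter.unusedSectionVars false
set_option linter.unusedVariables false

open scoped Pointwise
open Set Filter
open Vale.Agent.P239 (Adj Con)

namespace Vale.Agent.P239S

variable {G : Type*} [Group G] {Q : Type*} [MulAction G Q]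

/-- singular set of the pair `U ⊆ V` -/
def Sing (R : Finset G) (U V : Set G) : Set G :=
  {m | m ∈ V ∧ m ∉ U ∧ ∃ a ∈ U, ∃ b, b ∉ V ∧ m⁻¹ * a ∈ R ∧ m⁻¹ * b ∈ R ∧ a⁻¹ * b ∈ R}

/-- (CAP) -/
def CapProp (S R : Finset G) : Prop :=
  ∀ B : Finset G, ∃ F : Finset G, ∀ U V : Set G, U ⊆ V →
    {x | x ∈ U ∧ ∃ y, y ∉ V ∧ x⁻¹ * y ∈ R}.Finite →
    (∀ m m', Relation.ReflTransGen
      (fun a b => a ∈ Sing R U V ∧ b ∈ Sing R U V ∧ a⁻¹ * b ∈ R) m m' → m⁻¹ * m' ∈ B) →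
    ∃ E : Set G, E.Finite ∧ ∀ x y, x⁻¹ * y ∈ S → (∀ f ∈ F, x * f ∉ Sing R U V) →
      (¬ (x ∈ E ↔ y ∈ E) ↔ ((x ∈ U ∧ y ∉ V) ∨ (y ∈ U ∧ x ∉ V)))

/-- (T7) -/
structure DeepFam (S : Finset G) (T : Set (Set G × Q)) : Prop where
  deep1 : ∀ (U : Set G) (c : Q), (U, c) ∈ T → ∀ F : Finset G, ∃ K : Set G, K.Infinite ∧
    (∀ x ∈ K, ∀ y ∈ K, Con S K x y) ∧ ∀ x ∈ K, ∀ f ∈ F, x * f ∈ U
  deep2 : ∀ (U : ℕ → Set G) (c : ℕ → Q), (∀ n, (U n, c n) ∈ T) → Function.Injective c →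
    (∀ n, U n ⊆ U (n + 1)) → (∃ y, ∀ n, y ∉ U n) → ∀ F : Finset G, ∃ K : Set G, K.Infinite ∧
    (∀ x ∈ K, ∀ y ∈ K, Con S K x y) ∧ ∀ x ∈ K, ∀ f ∈ F, ∀ n, x * f ∉ U n

variable {S R : Finset G} {T : Set (Set G × Q)}

theorem not_mem_of_con {K E : Set G} (hsymS : ∀ s ∈ S, s⁻¹ ∈ S) (hK : K.Infinite) (hE : E.Finite)
    (hcon : ∀ x ∈ K, ∀ y ∈ K, Con S K x y)
    (h : ∀ x ∈ K, ∀ y ∈ K, x⁻¹ * y ∈ S → (x ∈ E ↔ y ∈ E)) : ∀ x ∈ K, x ∉ E := by
  intro x hx hxE
  apply hK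
  refine hE.subset fun y hy => ?_
  have := hcon x hx y hy
  clear hy
  induction this with
  | refl => exact hxE
  | tail _ h2 ih =>
    obtain ⟨h3, h4, s, hs, h5 | h5⟩ := h2
    · refine (h _ h3 _ h4 ?_).1 ih
      rw [h5, inv_mul_cancel_left]
      exact hs
    · refine (h _ h4 _ h3 ?_).2 ih
      rw [h5, inv_mul_cancel_left]
      exact hs

theorem caseA (hcap : CapProp S R) (hsymS : ∀ s ∈ S, s⁻¹ ∈ S)
    (hgen : Subgroup.closure (S : Set G) = ⊤)
    (hT : CutFam (R : Set G) T) (hD : DeepFam S T) {U : ℕ → Set G} {c : ℕ → Q}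
    (hU : ∀ n, (U n, c n) ∈ T) (hc : Function.Injective c) (hmono : Monotone U)
    {y : G} (hy : ∀ n, y ∉ U n) (B : Finset G)
    (hB : ∀ n m m', Relation.ReflTransGen
      (fun a b => a ∈ Sing R (U n) (⋃ n, U n) ∧ b ∈ Sing R (U n) (⋃ n, U n) ∧ a⁻¹ * b ∈ R) m m' →
        m⁻¹ * m' ∈ B) : False := by
  classical
  obtain ⟨F, hF⟩ := hcap B
  set W : Set G := ⋃ n, U n with hW
  have hsub : ∀ n, U n ⊆ W := fun n => subset_iUnion U n
  have hov : ∀ n, {x | x ∈ U n ∧ ∃ y, y ∉ W ∧ x⁻¹ * y ∈ R}.Finite := by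
    intro n
    refine (hT.fin (U n) (U (n + 1)) _ _ (hU n) (hU (n + 1)) (hc.ne (by omega))).subset ?_
    rintro x ⟨hx, b, hb, hxb⟩
    exact ⟨hx, hmono (Nat.le_succ n) hx, b, hxb, fun h => hb (hsub _ h), fun h => hb (hsub _ h)⟩
  choose E hEfin hE using fun n => hF (U n) W (hsub n) (hov n) (hB n)
  obtain ⟨K1, hK1inf, hK1con, hK1⟩ := hD.deep1 (U 0) (c 0) (hU 0) (insert 1 F)
  obtain ⟨K2, hK2inf, hK2con, hK2⟩ := hD.deep2 U c hU hc (fun n => hmono (Nat.le_succ n)) ⟨y, hy⟩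
    (insert 1 F)
  have hK1' : ∀ x ∈ K1, x ∈ U 0 := fun x hx => by simpa using hK1 x hx 1 (by simp)
  have hK2' : ∀ x ∈ K2, x ∉ W := fun x hx => by
    rw [hW, mem_iUnion, not_exists]
    exact fun n => by simpa using hK2 x hx 1 (by simp) n
  have e1 : ∀ n, ∀ x ∈ K1, x ∉ E n := by
    intro n
    refine not_mem_of_con hsymS hK1inf (hEfin n) hK1con fun x hx y hy hxy => ?_
    have h1 := hE n x y hxy fun f hf hs => hs.2.1 (hmono (Nat.zero_le n) (hK1 x hx f (by simp [hf])))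
    have h2 : x ∈ W := hsub 0 (hK1' x hx)
    have h3 : y ∈ W := hsub 0 (hK1' y hy)
    tauto
  have e2 : ∀ n, ∀ x ∈ K2, x ∉ E n := by
    intro n
    refine not_mem_of_con hsymS hK2inf (hEfin n) hK2con fun x hx y hy hxy => ?_
    have h1 := hE n x y hxy fun f hf hs => by
      obtain ⟨i, hi⟩ := mem_iUnion.1 hs.1
      exact hK2 x hx f (by simp [hf]) i hi
    have h2 : x ∉ U n := fun h => hK2' x hx (hsub n h)
    have h3 : y ∉ U n := fun h => hK2' y hy (hsub n h)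
    tauto
  have hev : ∀ g : G, ∀ᶠ n in atTop, g ∈ W → g ∈ U n := by
    intro g
    by_cases hg : g ∈ W
    · obtain ⟨i, hi⟩ := mem_iUnion.1 hg
      filter_upwards [eventually_ge_atTop i] with n hn _
      exact hmono hn hi
    · exact Eventually.of_forall fun n h => absurd h hg
  have hstep : ∀ x y : G, x⁻¹ * y ∈ S → (∀ᶠ n in atTop, ¬ (x ∈ E n ↔ x ∈ W)) →
      ∀ᶠ n in atTop, ¬ (y ∈ E n ↔ y ∈ W) := by
    intro x y hxy hx
    have hfar : ∀ᶠ n in atTop, ∀ f ∈ F, x * f ∉ Sing R (U n) W := by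
      rw [Filter.eventually_all_finset]
      intro f hf
      filter_upwards [hev (x * f)] with n hn hs
      exact hs.2.1 (hn hs.1)
    filter_upwards [hx, hfar, hev x, hev y] with n h1 h2 h3 h4
    have h5 := hE n x y hxy h2
    have h6 : x ∈ U n → x ∈ W := fun h => hsub n h
    have h7 : y ∈ U n → y ∈ W := fun h => hsub n h
    tauto
  have hall : ∀ g : G, ∀ x : G, (∀ᶠ n in atTop, ¬ (x ∈ E n ↔ x ∈ W)) ↔
      ∀ᶠ n in atTop, ¬ (x * g ∈ E n ↔ x * g ∈ W) := by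
    intro g
    have hg : g ∈ Subgroup.closure (S : Set G) := by rw [hgen]; trivial
    induction hg using Subgroup.closure_induction with
    | mem s hs =>
      intro x
      constructor
      · exact hstep x (x * s) (by rw [inv_mul_cancel_left]; exact hs)
      · refine hstep (x * s) x ?_
        have : (x * s)⁻¹ * x = s⁻¹ := by group
        rw [this]
        exact hsymS s hs
    | one => intro x; simp
    | mul a b _ _ iha ihb =>
      intro x
      rw [iha x, ihb (x * a), mul_assoc]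
    | inv a _ iha =>
      intro x
      rw [iha (x * a⁻¹), inv_mul_cancel_right]
  obtain ⟨a, ha⟩ := hK1inf.nonempty
  obtain ⟨b, hb⟩ := hK2inf.nonempty
  have hPa : ∀ᶠ n in atTop, ¬ (a ∈ E n ↔ a ∈ W) := Eventually.of_forall fun n h =>
    e1 n a ha (h.2 (hsub 0 (hK1' a ha)))
  have hPb := (hall (a⁻¹ * b) a).1 hPa
  rw [mul_inv_cancel_left] at hPb
  obtain ⟨n, hn⟩ := hPb.exists
  exact hn ⟨fun h => absurd h (e2 n b hb), fun h => absurd h (hK2' b hb)⟩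

theorem crossing {r : G → G → Prop} {P : G → Prop} {a b : G} (h : Relation.ReflTransGen r a b)
    (ha : P a) (hb : ¬ P b) : ∃ u v, r u v ∧ P u ∧ ¬ P v := by
  induction h with
  | refl => exact absurd ha hb
  | @tail u v h1 h2 ih =>
    by_cases hP : P u
    · exact ⟨u, v, h2, hP, hb⟩
    · exact ih hP

section ball

open scoped Classical in
/-- balls -/
noncomputable def bl (R : Finset G) (k : ℕ) : Finset G := R ^ k

theorem one_mem_bl (h1 : (1 : G) ∈ R) (k : ℕ) : (1 : G) ∈ bl R k := by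
  classical
  unfold bl
  exact Finset.one_mem_pow h1

theorem bl_mono (h1 : (1 : G) ∈ R) {j k : ℕ} (h : j ≤ k) : bl R j ⊆ bl R k := by
  classical
  unfold bl
  exact Finset.pow_subset_pow_right h1 h

theorem mul_mem_bl {k : ℕ} {a b : G} (ha : a ∈ bl R k) (hb : b ∈ R) : a * b ∈ bl R (k + 1) := by
  classical
  unfold bl at *
  rw [pow_succ]
  exact Finset.mul_mem_mul ha hb

theorem inv_mem_bl (hsymR : ∀ s ∈ R, s⁻¹ ∈ R) (k : ℕ) : ∀ a ∈ bl R k, a⁻¹ ∈ bl R k := by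
  classical
  unfold bl
  induction k with
  | zero =>
    intro a hk
    rw [pow_zero, Finset.mem_one] at hk
    rw [pow_zero, Finset.mem_one, hk, inv_one]
  | succ n ih =>
    intro a hk
    rw [pow_succ, Finset.mem_mul] at hk
    obtain ⟨u, hu, v, hv, rfl⟩ := hk
    rw [pow_succ', mul_inv_rev]
    exact Finset.mul_mem_mul (hsymR v hv) (ih u hu)

theorem bl_exhaust (hsymR : ∀ s ∈ R, s⁻¹ ∈ R) (hgen : Subgroup.closure (R : Set G) = ⊤)
    (g : G) : ∃ k, g ∈ bl R k := by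
  classical
  have hg : g ∈ Subgroup.closure (R : Set G) := by rw [hgen]; trivial
  induction hg using Subgroup.closure_induction with
  | mem s hs => exact ⟨1, by unfold bl; rw [pow_one]; exact hs⟩
  | one => exact ⟨0, by unfold bl; rw [pow_zero]; simp⟩
  | mul a b _ _ iha ihb =>
    obtain ⟨k, hk⟩ := iha
    obtain ⟨l, hl⟩ := ihb
    refine ⟨k + l, ?_⟩
    unfold bl at *
    rw [pow_add]
    exact Finset.mul_mem_mul hk hl
  | inv a _ iha =>
    obtain ⟨k, hk⟩ := iha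
    exact ⟨k, inv_mem_bl hsymR k a hk⟩

end ball

theorem caseB (hsymR : ∀ s ∈ R, s⁻¹ ∈ R) (h1R : (1 : G) ∈ R)
    (hgen : Subgroup.closure (R : Set G) = ⊤)
    (htf : ∀ g : G, g ≠ 1 → ∀ n : ℕ, n ≠ 0 → g ^ n ≠ 1)
    (hT : CutFam (R : Set G) T) {U : ℕ → Set G} {c : ℕ → Q}
    (hU : ∀ n, (U n, c n) ∈ T) (hc : Function.Injective c) (hmono : Monotone U)
    (hB : ∀ B : Finset G, ∃ n m m', Relation.ReflTransGen
      (fun a b => a ∈ Sing R (U n) (⋃ n, U n) ∧ b ∈ Sing R (U n) (⋃ n, U n) ∧ a⁻¹ * b ∈ R) m m' ∧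
        m⁻¹ * m' ∉ B) : False := by
  classical
  set W : Set G := ⋃ n, U n with hW
  have hsub : ∀ n, U n ⊆ W := fun n => subset_iUnion U n
  choose n m m' hmm hout using fun k : ℕ => hB (bl R k)
  -- the annuli
  have hann : ∀ j k : ℕ, j ≤ k → ∃ t ∈ ((bl R (j + 1)) ×ˢ (R ×ˢ R) : Finset (G × G × G)),
      t.1 ∉ bl R j ∧ t.2.1⁻¹ * t.2.2 ∈ R ∧ m k * t.1 ∈ W ∧ m k * t.1 ∉ U (n k) ∧
        m k * (t.1 * t.2.1) ∈ U (n k) ∧ m k * (t.1 * t.2.2) ∉ W := by
    intro j k hjk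
    obtain ⟨u, v, ⟨hu, hv, huv⟩, hPu, hPv⟩ := crossing (P := fun u => (m k)⁻¹ * u ∈ bl R j) (hmm k)
      (by rw [inv_mul_cancel]; exact one_mem_bl h1R j) (fun h => hout k (bl_mono h1R hjk h))
    obtain ⟨hv1, hv2, a, ha, b, hb, hva, hvb, hab⟩ := hv
    have e1 : m k * ((m k)⁻¹ * v) = v := mul_inv_cancel_left _ _
    have e2 : m k * ((m k)⁻¹ * v * (v⁻¹ * a)) = a := by group
    have e3 : m k * ((m k)⁻¹ * v * (v⁻¹ * b)) = b := by group
    have e4 : (v⁻¹ * a)⁻¹ * (v⁻¹ * b) = a⁻¹ * b := by group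
    have e5 : (m k)⁻¹ * v = ((m k)⁻¹ * u) * (u⁻¹ * v) := by group
    refine ⟨((m k)⁻¹ * v, v⁻¹ * a, v⁻¹ * b), ?_, hPv, ?_, ?_, ?_, ?_, ?_⟩
    · simp only [Finset.mem_product]
      refine ⟨?_, hva, hvb⟩
      rw [e5]
      exact mul_mem_bl hPu huv
    · show (v⁻¹ * a)⁻¹ * (v⁻¹ * b) ∈ R
      rw [e4]; exact hab
    · show m k * ((m k)⁻¹ * v) ∈ W
      rw [e1]; exact hv1
    · show m k * ((m k)⁻¹ * v) ∉ U (n k)
      rw [e1]; exact hv2
    · show m k * ((m k)⁻¹ * v * (v⁻¹ * a)) ∈ U (n k)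
      rw [e2]; exact ha
    · show m k * ((m k)⁻¹ * v * (v⁻¹ * b)) ∉ W
      rw [e3]; exact hb
  set F : Ultrafilter ℕ := Filter.hyperfilter ℕ with hFdef
  have hFtop : (F : Filter ℕ) ≤ atTop := Nat.hyperfilter_le_atTop
  have hann' : ∀ j : ℕ, ∃ t ∈ (((bl R (j + 1)) ×ˢ (R ×ˢ R) : Finset (G × G × G)) : Set (G × G × G)),
      ∀ᶠ k in (F : Filter ℕ), t.1 ∉ bl R j ∧ t.2.1⁻¹ * t.2.2 ∈ R ∧ m k * t.1 ∈ W ∧
        m k * t.1 ∉ U (n k) ∧ m k * (t.1 * t.2.1) ∈ U (n k) ∧ m k * (t.1 * t.2.2) ∉ W := by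
    intro j
    rw [← Ultrafilter.eventually_exists_mem_iff (Finset.finite_toSet _)]
    filter_upwards [hFtop (eventually_ge_atTop j)] with k hk
    exact hann j k hk
  choose τ hτ1 hτ2 using hann'
  have hinj : Function.Injective fun j => (τ j).1 := by
    have key : ∀ i j, i < j → (τ i).1 ≠ (τ j).1 := by
      intro i j hij heq
      have h1 : (τ i).1 ∈ bl R (i + 1) := (Finset.mem_product.1 (hτ1 i)).1
      obtain ⟨k, hk⟩ := (hτ2 j).exists
      exact hk.1 (heq ▸ bl_mono h1R hij h1)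
    intro i j hij
    by_contra hne
    rcases lt_or_gt_of_ne hne with h | h
    · exact key i j h hij
    · exact key j i h hij.symm
  -- the outer families
  have hl : ∀ k : ℕ, ∃ l, n k < l ∧ ∀ x ∈ bl R k, m k * x ∈ W → m k * x ∈ U l := by
    intro k
    have h2 : ∀ᶠ l in atTop, ∀ x ∈ bl R k, m k * x ∈ W → m k * x ∈ U l := by
      rw [Filter.eventually_all_finset]
      intro x _
      by_cases hg : m k * x ∈ W
      · obtain ⟨i, hi⟩ := mem_iUnion.1 hg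
        filter_upwards [eventually_ge_atTop i] with n hn _
        exact hmono hn hi
      · exact Eventually.of_forall fun n h => absurd h hg
    exact ((eventually_gt_atTop (n k)).and h2).exists
  choose l hl1 hl2 using hl
  have hLim : ∀ (l' : ℕ → ℕ), (∀ k, l k ≤ l' k) → ∀ x, (x ∈ Lim F (fun k => (m k)⁻¹ • U (l' k)) ↔
      ∀ᶠ k in (F : Filter ℕ), m k * x ∈ W) := by
    intro l' hl' x
    obtain ⟨k0, hk0⟩ := bl_exhaust hsymR hgen x
    have hx : ∀ᶠ k in (F : Filter ℕ), x ∈ bl R k := by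
      filter_upwards [hFtop (eventually_ge_atTop k0)] with k hk
      exact bl_mono h1R hk hk0
    constructor
    · intro h
      have h' : ∀ᶠ k in (F : Filter ℕ), x ∈ (m k)⁻¹ • U (l' k) := h
      filter_upwards [h'] with k hk
      exact hsub _ (mem_inv_smul.1 hk)
    · intro h
      change ∀ᶠ k in (F : Filter ℕ), x ∈ (m k)⁻¹ • U (l' k)
      filter_upwards [h, hx] with k hk hk'
      exact mem_inv_smul.2 (hmono (hl' k) (hl2 k x hk' hk))
  have hP1 : PF T (fun k => (m k)⁻¹ • U (n k)) (fun k => (m k)⁻¹ • U (l k))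
      (fun k => (m k)⁻¹ • c (n k)) (fun k => (m k)⁻¹ • c (l k)) :=
    ⟨fun k => hT.smul _ _ _ (hU _), fun k => hT.smul _ _ _ (hU _), fun k =>
      smul_set_mono (hmono (hl1 k).le)⟩
  have hP2 : PF T (fun k => (m k)⁻¹ • U (n k)) (fun k => (m k)⁻¹ • U (l k + 1))
      (fun k => (m k)⁻¹ • c (n k)) (fun k => (m k)⁻¹ • c (l k + 1)) :=
    ⟨fun k => hT.smul _ _ _ (hU _), fun k => hT.smul _ _ _ (hU _), fun k =>
      smul_set_mono (hmono ((hl1 k).le.trans (Nat.le_succ _)))⟩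
  have hLeq : Lim F (fun k => (m k)⁻¹ • U (l k)) = Lim F (fun k => (m k)⁻¹ • U (l k + 1)) := by
    ext x
    rw [hLim l (fun k => le_rfl) x, hLim (fun k => l k + 1) (fun k => Nat.le_succ _) x]
  have hne : ∀ (k : ℕ) (i j : ℕ), i ≠ j → (m k)⁻¹ • c i ≠ (m k)⁻¹ • c j := by
    intro k i j hij h
    exact hij (hc (MulAction.injective _ h))
  have hcore : ∀ a : G × G, {t : G | a.1⁻¹ * a.2 ∈ R ∧
      t ∈ II F (fun k => (m k)⁻¹ • U (n k)) (fun k => (m k)⁻¹ • U (l k)) a.1 a.2 1}.Finite := by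
    intro a
    by_cases ha : a.1⁻¹ * a.2 ∈ R
    · refine (core hT (fun x hx => hsymR x hx) htf F hP1 hP2 hLeq (fun k => hne k _ _ (hl1 k).ne)
        (fun k => hne k _ _ ((hl1 k).trans (Nat.lt_succ_self _)).ne)
        (fun k => hne k _ _ (Nat.lt_succ_self _).ne) (p := a.1) (q := a.2) (z := 1) ha).subset ?_
      exact fun t ht => ht.2
    · refine Set.finite_empty.subset fun t ht => absurd ht.1 ha
  have hfin : (⋃ a ∈ ((R ×ˢ R : Finset (G × G)) : Set (G × G)), {t : G | a.1⁻¹ * a.2 ∈ R ∧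
      t ∈ II F (fun k => (m k)⁻¹ • U (n k)) (fun k => (m k)⁻¹ • U (l k)) a.1 a.2 1}).Finite :=
    (Finset.finite_toSet _).biUnion fun a _ => hcore a
  refine Set.infinite_range_of_injective hinj (hfin.subset ?_)
  rintro _ ⟨j, rfl⟩
  simp only [mem_iUnion]
  refine ⟨(τ j).2, Finset.mem_coe.2 (Finset.mem_product.1 (hτ1 j)).2, ?_, ?_⟩
  · obtain ⟨k, hk⟩ := (hτ2 j).exists
    exact hk.2.1
  · refine ⟨?_, ?_, ?_, ?_⟩
    · change ∀ᶠ k in (F : Filter ℕ), (τ j).1 * (τ j).2.1 ∈ (m k)⁻¹ • U (n k)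
      filter_upwards [hτ2 j] with k hk
      exact mem_inv_smul.2 hk.2.2.2.2.1
    · intro h
      rw [hLim l (fun k => le_rfl)] at h
      obtain ⟨k, hk1, hk2⟩ := (h.and (hτ2 j)).exists
      exact hk2.2.2.2.2.2 hk1
    · rw [mul_one, hLim l (fun k => le_rfl)]
      filter_upwards [hτ2 j] with k hk
      exact hk.2.2.1
    · rw [mul_one, notMem_Lim]
      filter_upwards [hτ2 j] with k hk
      exact fun h => hk.2.2.2.1 (mem_inv_smul.1 h)

theorem mono_false (hcap : CapProp S R) (hsymS : ∀ s ∈ S, s⁻¹ ∈ S)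
    (hgen : Subgroup.closure (S : Set G) = ⊤) (hSR : S ⊆ R)
    (hsymR : ∀ s ∈ R, s⁻¹ ∈ R) (h1R : (1 : G) ∈ R)
    (htf : ∀ g : G, g ≠ 1 → ∀ n : ℕ, n ≠ 0 → g ^ n ≠ 1)
    (hT : CutFam (R : Set G) T) (hD : DeepFam S T) {U : ℕ → Set G} {c : ℕ → Q}
    (hU : ∀ n, (U n, c n) ∈ T) (hc : Function.Injective c) (hmono : Monotone U)
    {y : G} (hy : ∀ n, y ∉ U n) : False := by
  by_cases hB : ∀ B : Finset G, ∃ n m m', Relation.ReflTransGen
      (fun a b => a ∈ Sing R (U n) (⋃ n, U n) ∧ b ∈ Sing R (U n) (⋃ n, U n) ∧ a⁻¹ * b ∈ R) m m' ∧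
        m⁻¹ * m' ∉ B
  · refine caseB hsymR h1R ?_ htf hT hU hc hmono hB
    rw [eq_top_iff, ← hgen]
    exact Subgroup.closure_mono (by exact_mod_cast hSR)
  · push Not at hB
    obtain ⟨B, hB⟩ := hB
    exact caseA hcap hsymS hgen hT hD hU hc hmono hy B hB

/-- **Module B**: only finitely many centres separate two given vertices. -/
theorem discrete (hcap : CapProp S R) (hsymS : ∀ s ∈ S, s⁻¹ ∈ S)
    (hgen : Subgroup.closure (S : Set G) = ⊤) (hSR : S ⊆ R)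
    (hsymR : ∀ s ∈ R, s⁻¹ ∈ R) (h1R : (1 : G) ∈ R)
    (htf : ∀ g : G, g ≠ 1 → ∀ n : ℕ, n ≠ 0 → g ^ n ≠ 1)
    (hT : CutFam (R : Set G) T) (hD : DeepFam S T) (x y : G) :
    {c : Q | ∃ U : Set G, (U, c) ∈ T ∧ x ∈ U ∧ y ∉ U}.Finite := by
  by_contra hinf
  have hinf' : {c : Q | ∃ U : Set G, (U, c) ∈ T ∧ x ∈ U ∧ y ∉ U}.Infinite := hinf
  set e := hinf'.natEmbedding
  have he : ∀ n, ∃ U : Set G, (U, (e n : Q)) ∈ T ∧ x ∈ U ∧ y ∉ U := fun n => (e n).2
  choose U hU hx hy using he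
  have hinj : Function.Injective fun n => (e n : Q) := Subtype.val_injective.comp e.injective
  have : IsTrans (Set G) (fun a b => a ⊆ b) := ⟨fun _ _ _ h1 h2 => h1.trans h2⟩
  obtain ⟨g, hg | hg⟩ := exists_increasing_or_nonincreasing_subseq (fun a b : Set G => a ⊆ b) U
  · refine mono_false hcap hsymS hgen hSR hsymR h1R htf hT hD (U := fun n => U (g n))
      (c := fun n => (e (g n) : Q)) (fun n => hU _) (hinj.comp g.injective) ?_ (y := y)
      (fun n => hy _)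
    intro i j hij
    rcases hij.lt_or_eq with h | h
    · exact hg i j h
    · rw [h]
  · refine mono_false hcap hsymS hgen hSR hsymR h1R htf hT hD (U := fun n => (U (g n))ᶜ)
      (c := fun n => (e (g n) : Q)) (fun n => hT.compl _ _ (hU _)) (hinj.comp g.injective) ?_
      (y := x) (fun n h => h (hx _))
    intro i j hij
    rcases hij.lt_or_eq with h | h
    · have hne : (e (g i) : Q) ≠ (e (g j) : Q) := fun h' => h.ne (g.injective (hinj h'))
      rcases hT.comp (hU (g i)) (hU (g j)) hne (hx _) (hx _) (hy _) (hy _) with h' | h'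
      · exact absurd h' (hg i j h)
      · exact compl_subset_compl.2 h'
    · rw [h]

end Vale.Agent.P239S
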