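import Vale.Agent.P239.S.M_Sup

/-!
Module M, block M15: from the space to the group (coarse filling and coarse pushing).
-/

namespace Vale.Agent.P239.M

open Metric Set Topology

section CPush

variable {Γ X : Type*} [Group Γ] [MetricSpace X] [MulAction Γ X]

omit [Group Γ] in
private theorem cpush_pos (s : Finset Γ) (f : Γ → ℝ) (hf : ∀ g, 0 < f g) :
    ∃ ε > 0, ∀ g ∈ s, ε ≤ f g := by
  classical
  induction s using Finset.induction_on with
  | empty => exact ⟨1, one_pos, by simp⟩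
  | insert a s _ ih =>
    obtain ⟨ε, hε, h⟩ := ih
    refine ⟨min ε (f a), lt_min hε (hf a), fun g hg => ?_⟩
    rcases Finset.mem_insert.1 hg with rfl | hg
    · exact min_le_right _ _
    · exact (min_le_left _ _).trans (h g hg)

/-- Lebesgue number. -/
theorem cpush_leb [LocallyCompactSpace X] (hact : CoAct Γ X) {B : Set X} (hB : IsCompact B)
    (gam : X → Γ) (hg : ∀ x, ∃ y ∈ B, x = gam x • y) :
    ∃ T₀ : Finset Γ, ∀ A : Set X, IsCompact A → ∃ ε > 0, ∀ x ∈ A, ∀ y : X, dist x y < ε →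
      (gam x)⁻¹ * gam y ∈ T₀ := by
  classical
  obtain ⟨D, hD, hBD⟩ := exists_compact_superset hB
  have hfin := hact.proper B D hB hD
  refine ⟨hfin.toFinset, fun A hA => ?_⟩
  have hfinA := hact.proper B A hB hA
  have key : ∀ g : Γ, ∃ ε > 0, ∀ x ∈ A ∩ (fun y => g⁻¹ • y) ⁻¹' B, ∀ y, dist x y < ε →
      g⁻¹ • y ∈ interior D := by
    intro g
    have hK : IsCompact (A ∩ (fun y => g⁻¹ • y) ⁻¹' B) :=
      hA.inter_right (hB.isClosed.preimage (hact.cont g⁻¹))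
    have hV : IsOpen ((fun y : X => g⁻¹ • y) ⁻¹' interior D) :=
      isOpen_interior.preimage (hact.cont g⁻¹)
    have hKV : A ∩ (fun y => g⁻¹ • y) ⁻¹' B ⊆ (fun y : X => g⁻¹ • y) ⁻¹' interior D :=
      fun x hx => hBD hx.2
    obtain ⟨δ, hδ, h⟩ := hK.exists_thickening_subset_open hV hKV
    refine ⟨δ, hδ, fun x hx y hy => h ?_⟩
    rw [mem_thickening_iff]
    exact ⟨x, hx, by rwa [dist_comm]⟩
  choose f hf0 hf using key
  obtain ⟨ε, hε, h⟩ := cpush_pos hfinA.toFinset f hf0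
  refine ⟨ε, hε, fun x hx y hy => ?_⟩
  obtain ⟨b, hb, hxb⟩ := hg x
  obtain ⟨b', hb', hyb⟩ := hg y
  have h1 : (gam x)⁻¹ • x = b := by
    conv_lhs => rw [hxb]
    rw [smul_smul]
    conv_lhs => rw [← hxb]
    rw [inv_mul_cancel, one_smul]
  have hgA : gam x ∈ hfinA.toFinset := by
    rw [Set.Finite.mem_toFinset]
    exact ⟨b, hb, by rw [← hxb]; exact hx⟩
  have h2 := hf (gam x) x ⟨hx, by show (gam x)⁻¹ • x ∈ B; rw [h1]; exact hb⟩ y
    (hy.trans_le (h _ hgA))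
  rw [Set.Finite.mem_toFinset]
  refine ⟨b', hb', ?_⟩
  rw [mul_smul, ← hyb]
  exact interior_subset h2

/-- The common part. -/
theorem cpush_core {k : Type*} [CommRing k] (gam : X → Γ) (S T : Finset Γ) (h1 : 1 ∈ T)
    (C : Set X) (hT : ∀ (g : Γ) (x : X), (∃ y ∈ C, x = g • y) → g⁻¹ * gam x ∈ T) (i : ℕ)
    (W : Finset Γ) (κ : ℝ) (ψ : List Γ → Ch k X) (h0 : ψ [] = Finsupp.single [] 1)
    (hψ : ∀ a : List Γ, SmG S a → (∀ g ∈ a, g ∈ W) → a.length ≤ i →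
        bd (ψ a) = ext ψ (bdL k a) ∧
        Sup (fun l => l.length = a.length ∧ Sm κ l ∧ ∀ x ∈ l, ∀ g ∈ a, ∃ y ∈ C, x = g • y) (ψ a))
    (z : Ch k Γ) (hz : bd z = 0)
    (hs : Sup (fun l => l.length = i ∧ SmG S l ∧ ∀ g ∈ l, g ∈ W) z) :
    bd (ext ψ z) = 0 ∧
    Sup (fun l => l.length = i ∧ Sm κ l ∧ ∀ x ∈ l, ∃ a ∈ z.support, ∃ g ∈ a,
      ∃ y ∈ C, x = g • y) (ext ψ z) ∧
    ∃ c : Ch k Γ, bd c = z - pf gam (ext ψ z) ∧
      Sup (fun l => l.length = i + 1 ∧ ∃ a ∈ z.support, ∀ h ∈ l, ∃ g ∈ a, g⁻¹ * h ∈ T) c := by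
  classical
  have hs' : Sup (fun l => l ∈ z.support ∧ l.length = i ∧ SmG S l ∧ ∀ g ∈ l, g ∈ W) z :=
    fun l hl => ⟨hl, hs l hl⟩
  set P : List Γ → Prop := fun l => SmG S l ∧ (∀ g ∈ l, g ∈ W) ∧ l.length ≤ i with hPdef
  have hP : ∀ l l', l'.Sublist l → P l → P l' := fun l l' h hl =>
    ⟨fun x hx y hy => hl.1 x (h.subset hx) y (h.subset hy), fun g hg => hl.2.1 g (h.subset hg),
      h.length_le.trans hl.2.2⟩
  set Φ : List Γ → Ch k Γ := fun l => pf gam (ψ l) with hΦdef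
  have hΦ0 : Φ [] = Finsupp.single [] 1 := by
    rw [hΦdef]; simp only; rw [h0, pf_single, List.map_nil]
  have hpe : ∀ c : Ch k Γ, pf gam (ext ψ c) = ext Φ c := fun c => by
    rw [Finsupp.apply_linearCombination]; rfl
  have hΦ : ∀ l, P l → bd (Φ l) = ext Φ (bdL k l) := fun l hl => by
    rw [← hpe, ← (hψ l hl.1 hl.2.1 hl.2.2).1, ← bd_pf]
  have hzP : Sup P z := hs.mono fun l hl => ⟨hl.2.1, hl.2.2, hl.1.le⟩
  refine ⟨?_, ?_, ext (htp (fun l => l.headD 1) Φ) z, ?_, ?_⟩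
  · have e1 : bd (ext ψ z) = ext (fun l => bd (ψ l)) z := by
      rw [Finsupp.apply_linearCombination]; rfl
    rw [e1, ext_congr hzP (v := fun l => ext ψ (bdL k l))
      (fun l hl => (hψ l hl.1 hl.2.1 hl.2.2).1), ← ext_bdL, hz, map_zero]
  · refine hs'.ext fun a ha => ((hψ a ha.2.2.1 ha.2.2.2 ha.2.1.le).2).mono ?_
    rintro l ⟨hl1, hl2, hl3⟩
    refine ⟨hl1.trans ha.2.1, hl2, fun x hx => ?_⟩
    have hne : a ≠ [] := by
      rintro rfl
      rw [List.length_nil, List.length_eq_zero_iff] at hl1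
      rw [hl1] at hx; simp at hx
    obtain ⟨g, hg⟩ := List.exists_mem_of_ne_nil a hne
    exact ⟨a, ha.1, g, hg, hl3 x hx g hg⟩
  · have := bd_htp_ext (fun l => l.headD 1) Φ hP hΦ0 hΦ hzP
    rw [hz, map_zero, add_zero] at this
    rw [this, hpe]
  · refine hs'.ext fun a ha => ?_
    have hRm : ∀ l l' : List Γ, l'.Sublist l → {h : Γ | ∃ g ∈ l', g⁻¹ * h ∈ T} ⊆
        {h : Γ | ∃ g ∈ l, g⁻¹ * h ∈ T} := by
      rintro l l' h x ⟨g, hg, hx⟩
      exact ⟨g, h.subset hg, hx⟩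
    have := sup_htp (P := P) (fun l => l.headD 1) Φ (fun l => {h : Γ | ∃ g ∈ l, g⁻¹ * h ∈ T}) hP hRm
      (fun l _ x hx => ⟨x, hx, by rw [inv_mul_cancel]; exact h1⟩)
      (fun l hl _ => ⟨l.headD 1, by
        cases l with
        | nil => exact absurd rfl hl
        | cons x l => simp, by rw [inv_mul_cancel]; exact h1⟩)
      (fun l hl => by
        refine Sup.pf gam (((hψ l hl.1 hl.2.1 hl.2.2).2).mono ?_)
        rintro l' ⟨h1', _, h3⟩
        refine ⟨by rw [List.length_map]; exact h1', fun h hh => ?_⟩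
        obtain ⟨x, hx, rfl⟩ := List.mem_map.1 hh
        have hne : l ≠ [] := by
          rintro rfl
          rw [List.length_nil, List.length_eq_zero_iff] at h1'
          rw [h1'] at hx; simp at hx
        obtain ⟨g, hg⟩ := List.exists_mem_of_ne_nil l hne
        exact ⟨g, hg, hT g x (h3 x hx g hg)⟩)
      a ⟨ha.2.2.1, ha.2.2.2, ha.2.1.le⟩
    exact this.mono fun l hl => ⟨by rw [hl.1, ha.2.1], a, ha.1, hl.2⟩

open Pointwise in
/-- file `M_CPush.lean` -/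
theorem cfillS (k : Type*) [CommRing k] [LocallyCompactSpace X] (hact : CoAct Γ X)
    (hF : FillS k X) (i : ℕ) (hP : PsiS k Γ X i) : CFillS k Γ i := by
  classical
  intro S
  obtain ⟨C, hC, hCψ⟩ := hP S
  obtain ⟨B, hB, hcov⟩ := hact.cocomp
  choose gam hgam using hcov
  obtain ⟨T₀, hT₀⟩ := cpush_leb hact hB gam hgam
  have hTfin := hact.proper B C hB hC
  set T : Finset Γ := insert 1 hTfin.toFinset with hTdef
  have h1T : (1 : Γ) ∈ T := Finset.mem_insert_self _ _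
  have hT : ∀ (g : Γ) (x : X), (∃ y ∈ C, x = g • y) → g⁻¹ * gam x ∈ T := by
    rintro g x ⟨y, hy, hxy⟩
    refine Finset.mem_insert_of_mem ?_
    rw [Set.Finite.mem_toFinset]
    obtain ⟨b, hb, hxb⟩ := hgam x
    refine ⟨b, hb, ?_⟩
    rw [mul_smul, ← hxb, hxy, inv_smul_smul]
    exact hy
  refine ⟨S ∪ (T⁻¹ * S * T ∪ T₀), Finset.subset_union_left, fun z hz hs => ?_⟩
  set W : Finset Γ := z.support.biUnion fun l => l.toFinset with hW
  have hsW : Sup (fun l => l.length = i ∧ SmG S l ∧ ∀ g ∈ l, g ∈ W) z := fun l hl =>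
    ⟨(hs l hl).1, (hs l hl).2, fun g hg => by
      rw [hW, Finset.mem_biUnion]; exact ⟨l, hl, List.mem_toFinset.2 hg⟩⟩
  have hA : IsCompact (⋃ g ∈ W, (fun x : X => g • x) '' C) :=
    W.isCompact_biUnion fun g _ => hC.image (hact.cont g)
  obtain ⟨A', hA', -, hfill⟩ := hF _ hA
  obtain ⟨ε, hε, hleb⟩ := hT₀ A' hA'
  obtain ⟨κ, hκ, hfill⟩ := hfill ε hε
  obtain ⟨ψ, h0, hψ⟩ := hCψ W κ hκ
  obtain ⟨hb, hsup, c, hc, hcs⟩ := cpush_core gam S T h1T C hT i W κ ψ h0 hψ z hz hsW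
  obtain ⟨e, he, hes⟩ := hfill i (ext ψ z) hb (hsup.mono fun l hl => ⟨hl.1, hl.2.1, fun x hx => by
    obtain ⟨a, ha, g, hg, y, hy, rfl⟩ := hl.2.2 x hx
    exact mem_biUnion ((hsW a ha).2.2 g hg) ⟨y, hy, rfl⟩⟩)
  refine ⟨c + pf gam e, ?_, ?_⟩
  · rw [map_add, hc, bd_pf, he, sub_add_cancel]
  · refine Sup.add (fun l hl => ?_) (Sup.pf gam (hes.mono ?_))
    · obtain ⟨hl1, a, ha, hl2⟩ := hcs l hl
      refine ⟨hl1, fun x hx y hy => ?_⟩
      obtain ⟨g, hg, hgx⟩ := hl2 x hx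
      obtain ⟨g', hg', hgy⟩ := hl2 y hy
      refine Finset.mem_union_right _ (Finset.mem_union_left _ ?_)
      have : x⁻¹ * y = (g⁻¹ * x)⁻¹ * (g⁻¹ * g') * (g'⁻¹ * y) := by group
      rw [this]
      exact Finset.mul_mem_mul (Finset.mul_mem_mul (Finset.inv_mem_inv hgx)
        ((hs a ha).2 g hg g' hg')) hgy
    · rintro l ⟨hl1, hl2, hl3⟩
      refine ⟨by rw [List.length_map]; exact hl1, fun x hx y hy => ?_⟩
      obtain ⟨x, hx', rfl⟩ := List.mem_map.1 hx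
      obtain ⟨y, hy', rfl⟩ := List.mem_map.1 hy
      exact Finset.mem_union_right _ (Finset.mem_union_right _
        (hleb x (hl3 x hx') y (hl2 x hx' y hy')))

open Pointwise in
theorem cpushS [LocallyCompactSpace X] (hact : CoAct Γ X) (i : ℕ) (hP : PsiS (ZMod 2) Γ X i)
    (hR : PushS X i) : CPushS Γ i := by
  classical
  intro S
  obtain ⟨C, hC, hCψ⟩ := hP S
  obtain ⟨B, hB, hcov⟩ := hact.cocomp
  choose gam hgam using hcov
  obtain ⟨T₀, hT₀⟩ := cpush_leb hact hB gam hgam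
  have hTfin := hact.proper B C hB hC
  set T : Finset Γ := insert 1 hTfin.toFinset with hTdef
  have h1T : (1 : Γ) ∈ T := Finset.mem_insert_self _ _
  have hT : ∀ (g : Γ) (x : X), (∃ y ∈ C, x = g • y) → g⁻¹ * gam x ∈ T := by
    rintro g x ⟨y, hy, hxy⟩
    refine Finset.mem_insert_of_mem ?_
    rw [Set.Finite.mem_toFinset]
    obtain ⟨b, hb, hxb⟩ := hgam x
    refine ⟨b, hb, ?_⟩
    rw [mul_smul, ← hxb, hxy, inv_smul_smul]
    exact hy
  refine ⟨S ∪ (T⁻¹ * S * T ∪ T₀), Finset.subset_union_left, fun F => ?_⟩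
  have hK : IsCompact (⋃ g ∈ F, (fun x : X => g • x) '' B) :=
    F.isCompact_biUnion fun g _ => hB.image (hact.cont g)
  obtain ⟨K', hK', hpush⟩ := hR _ hK
  have hfin' := hact.proper C K' hC hK'
  refine ⟨F * T⁻¹ ∪ hfin'.toFinset, fun z hz hs => ?_⟩
  set W : Finset Γ := z.support.biUnion fun l => l.toFinset with hW
  have hsW : Sup (fun l => l.length = i ∧ SmG S l ∧ ∀ g ∈ l, g ∈ W) z := fun l hl =>
    ⟨(hs l hl).1, (hs l hl).2.1, fun g hg => by
      rw [hW, Finset.mem_biUnion]; exact ⟨l, hl, List.mem_toFinset.2 hg⟩⟩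
  have hA : IsCompact (⋃ g ∈ W, (fun x : X => g • x) '' C) :=
    W.isCompact_biUnion fun g _ => hC.image (hact.cont g)
  obtain ⟨A', hA', hpush⟩ := hpush _ hA
  obtain ⟨ε, hε, hleb⟩ := hT₀ A' hA'
  obtain ⟨κ, hκ, hpush⟩ := hpush ε hε
  obtain ⟨ψ, h0, hψ⟩ := hCψ W κ hκ
  obtain ⟨hb, hsup, c, hc, hcs⟩ := cpush_core gam S T h1T C hT i W κ ψ h0 hψ z hz hsW
  obtain ⟨e, he, hes⟩ := hpush (ext ψ z) hb (hsup.mono fun l hl => ⟨hl.1, hl.2.1, fun x hx => by
    obtain ⟨a, ha, g, hg, y, hy, rfl⟩ := hl.2.2 x hx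
    exact mem_biUnion ((hsW a ha).2.2 g hg) ⟨y, hy, rfl⟩, fun x hx => by
    obtain ⟨a, ha, g, hg, y, hy, rfl⟩ := hl.2.2 x hx
    intro hK
    refine (hs a ha).2.2 g hg (Finset.mem_union_right _ ?_)
    rw [Set.Finite.mem_toFinset]
    exact ⟨y, hy, hK⟩⟩)
  refine ⟨c + pf gam e, ?_, ?_⟩
  · rw [map_add, hc, bd_pf, he, sub_add_cancel]
  · refine Sup.add (fun l hl => ?_) (Sup.pf gam (hes.mono ?_))
    · obtain ⟨hl1, a, ha, hl2⟩ := hcs l hl
      refine ⟨hl1, fun x hx y hy => ?_, fun x hx => ?_⟩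
      · obtain ⟨g, hg, hgx⟩ := hl2 x hx
        obtain ⟨g', hg', hgy⟩ := hl2 y hy
        refine Finset.mem_union_right _ (Finset.mem_union_left _ ?_)
        have : x⁻¹ * y = (g⁻¹ * x)⁻¹ * (g⁻¹ * g') * (g'⁻¹ * y) := by group
        rw [this]
        exact Finset.mul_mem_mul (Finset.mul_mem_mul (Finset.inv_mem_inv hgx)
          ((hs a ha).2.1 g hg g' hg')) hgy
      · obtain ⟨g, hg, hgx⟩ := hl2 x hx
        intro hxF
        refine (hs a ha).2.2 g hg (Finset.mem_union_left _ ?_)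
        have : g = x * (g⁻¹ * x)⁻¹ := by group
        rw [this]
        exact Finset.mul_mem_mul hxF (Finset.inv_mem_inv hgx)
    · rintro l ⟨hl1, hl2, hl3, hl4⟩
      refine ⟨by rw [List.length_map]; exact hl1, fun x hx y hy => ?_, fun x hx => ?_⟩
      · obtain ⟨x, hx', rfl⟩ := List.mem_map.1 hx
        obtain ⟨y, hy', rfl⟩ := List.mem_map.1 hy
        exact Finset.mem_union_right _ (Finset.mem_union_right _
          (hleb x (hl3 x hx') y (hl2 x hx' y hy')))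
      · obtain ⟨x, hx', rfl⟩ := List.mem_map.1 hx
        intro hxF
        obtain ⟨b, hb, hxb⟩ := hgam x
        refine hl4 x hx' (mem_biUnion (show gam x ∈ (F : Set Γ) from hxF) ⟨b, hb, ?_⟩)
        exact hxb.symm

end CPush

end Vale.Agent.P239.M
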