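import Vale.Agent.P239.S.M_Defs

/-!
(M4) The box chain.
-/

namespace Vale.Agent.P239.M.Box

open Vale.Agent.P239.M Metric Set

section Calc

variable {X Y A : Type*}

theorem two_zero (a : ZMod 2) : a + a = 0 := by
  revert a; decide

theorem sp_nil [AddCommGroup A] (B : List X → List X → A) : sp B [] = 0 := rfl

theorem sp_cons [AddCommGroup A] (B : List X → List X → A) (x : X) (l : List X) :
    sp B (x :: l) = B [x] (x :: l) + sp (fun p s => B (x :: p) s) l := rfl

theorem sp_zero [AddCommGroup A] {B : List X → List X → A} (h : ∀ p s, B p s = 0) (l : List X) :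
    sp B l = 0 := by
  induction l generalizing B with
  | nil => rfl
  | cons x l ih => rw [sp_cons, h, zero_add]; exact ih fun p s => h _ _

theorem K1_left_short (c : X → ℝ) (x y : X) : K1 c [x] [y] = 0 := rfl

theorem K1_left_nil (c : X → ℝ) (b : List X) : K1 c [] b = 0 := by
  cases b <;> rfl

theorem K1_long (c : X → ℝ) (x x' x'' : X) (l b : List X) : K1 c (x :: x' :: x'' :: l) b = 0 := by
  rcases b with _ | ⟨y, _ | ⟨y', _ | ⟨y'', b⟩⟩⟩ <;> rfl

theorem K1_long' (c : X → ℝ) (y y' y'' : X) (l a : List X) : K1 c a (y :: y' :: y'' :: l) = 0 := by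
  rcases a with _ | ⟨y, _ | ⟨y', _ | ⟨y'', b⟩⟩⟩ <;> rfl

/-- kernel against one point, right slot -/
theorem Ker_cons_pt (c : X → ℝ) (cs : List (X → ℝ)) (x x' y : X) (a : List X) :
    Ker (c :: cs) (x :: x' :: a) [y] = (hh c x y + hh c x' y) * Ker cs (x' :: a) [y] := by
  have hB : (fun p s => sp (fun p' s' => K1 c p p' * Ker cs s s') [y]) =
      fun p s => K1 c p [y] * Ker cs s [y] := by
    funext p s; rw [sp_cons, sp_nil, add_zero]
  have h1 : Ker (c :: cs) (x :: x' :: a) [y] =
      sp (fun p s => sp (fun p' s' => K1 c p p' * Ker cs s s') [y]) (x :: x' :: a) := rfl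
  rw [h1, hB, sp_cons, sp_cons, K1_left_short, zero_mul, zero_add]
  have h2 : sp (fun p s => K1 c (x :: x' :: p) [y] * Ker cs s [y]) a = 0 := by
    cases a with
    | nil => rfl
    | cons z a =>
      rw [sp_cons, K1_long, zero_mul, zero_add]
      exact sp_zero (fun p s => by rw [K1_long, zero_mul]) a
  rw [h2, add_zero]
  rfl

/-- kernel against one point, left slot -/
theorem Ker_pt_cons (c : X → ℝ) (cs : List (X → ℝ)) (x y y' : X) (b : List X) :
    Ker (c :: cs) [x] (y :: y' :: b) = (hh c x y + hh c x y') * Ker cs [x] (y' :: b) := by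
  have h1 : Ker (c :: cs) [x] (y :: y' :: b) =
      sp (fun p s => sp (fun p' s' => K1 c p p' * Ker cs s s') (y :: y' :: b)) [x] := rfl
  rw [h1, sp_cons, sp_nil, add_zero, sp_cons, sp_cons, K1_left_short, zero_mul, zero_add]
  have h2 : sp (fun p s => K1 c [x] (y :: y' :: p) * Ker cs [x] s) b = 0 := by
    cases b with
    | nil => rfl
    | cons z b =>
      rw [sp_cons, K1_long', zero_mul, zero_add]
      exact sp_zero (fun p s => by rw [K1_long', zero_mul]) b
  rw [h2, add_zero]
  rfl

theorem Ker_nil_left (cs : List (X → ℝ)) (b : List X) : Ker cs [] b = 0 := by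
  cases cs with
  | nil => simp [Ker]
  | cons c cs => rfl

theorem Ker_nil_right (cs : List (X → ℝ)) (a : List X) : Ker cs a [] = 0 := by
  cases cs with
  | nil => simp [Ker]
  | cons c cs => exact sp_zero (fun p s => rfl) a

/-- the kernel only depends on the coordinates -/
theorem Ker_map_left (cs : List (X → ℝ)) (g : X → X) (hg : ∀ c ∈ cs, ∀ x, c (g x) = c x) (y : X) :
    ∀ l : List X, Ker cs (l.map g) [y] = Ker cs l [y] := by
  induction cs with
  | nil => intro l; simp [Ker]
  | cons c cs ih =>
    have ih' := ih fun c' hc' => hg c' (List.mem_cons_of_mem _ hc')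
    have hc := hg c List.mem_cons_self
    intro l
    rcases l with _ | ⟨x, _ | ⟨x', l⟩⟩
    · rfl
    · change sp _ _ = sp _ _
      simp only [sp, add_zero, K1_left_short, zero_mul, List.map]
    · rw [List.map_cons, List.map_cons, Ker_cons_pt, Ker_cons_pt, ← List.map_cons, ih']
      simp only [hh, hc]

theorem Ker_map_right (cs : List (X → ℝ)) (g : X → X) (hg : ∀ c ∈ cs, ∀ x, c (g x) = c x) (y : X) :
    ∀ l : List X, Ker cs [y] (l.map g) = Ker cs [y] l := by
  induction cs with
  | nil => intro l; simp [Ker]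
  | cons c cs ih =>
    have ih' := ih fun c' hc' => hg c' (List.mem_cons_of_mem _ hc')
    have hc := hg c List.mem_cons_self
    intro l
    rcases l with _ | ⟨x, _ | ⟨x', l⟩⟩
    · rfl
    · change sp _ _ = sp _ _
      simp only [sp, add_zero, K1_left_short, zero_mul, List.map]
    · rw [List.map_cons, List.map_cons, Ker_pt_cons, Ker_pt_cons, ← List.map_cons, ih']
      simp only [hh, hc]

end Calc

section SupCalc

variable {k : Type*} [CommRing k] {X Y : Type*} {P Q' : List X → Prop}

theorem sup_iff {c : Ch k X} : Sup P c ↔ ∀ l, ¬ P l → c l = 0 := by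
  constructor
  · intro h l hl
    by_contra hc
    exact hl (h l (Finsupp.mem_support_iff.2 hc))
  · intro h l hl
    by_contra hc
    exact Finsupp.mem_support_iff.1 hl (h l hc)

theorem sup_zero : Sup P (0 : Ch k X) := by
  rw [sup_iff]; intro l _; rfl

theorem sup_add {c d : Ch k X} (hc : Sup P c) (hd : Sup P d) : Sup P (c + d) := by
  rw [sup_iff] at *
  intro l hl
  rw [Finsupp.add_apply, hc l hl, hd l hl, add_zero]

theorem sup_neg {c : Ch k X} (hc : Sup P c) : Sup P (-c) := by
  rw [sup_iff] at *
  intro l hl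
  rw [Finsupp.neg_apply, hc l hl, neg_zero]

theorem sup_sub {c d : Ch k X} (hc : Sup P c) (hd : Sup P d) : Sup P (c - d) := by
  rw [sub_eq_add_neg]; exact sup_add hc (sup_neg hd)

theorem sup_smul {c : Ch k X} (r : k) (hc : Sup P c) : Sup P (r • c) := by
  rw [sup_iff] at *
  intro l hl
  rw [Finsupp.smul_apply, hc l hl, smul_zero]

theorem sup_sum {ι : Type*} {s : Finset ι} {f : ι → Ch k X} (h : ∀ i ∈ s, Sup P (f i)) :
    Sup P (∑ i ∈ s, f i) := by
  rw [sup_iff]
  intro l hl
  rw [Finsupp.finsetSum_apply]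
  exact Finset.sum_eq_zero fun i hi => (sup_iff.1 (h i hi)) l hl

theorem sup_single {l : List X} {r : k} (h : P l) : Sup P (Finsupp.single l r) := by
  classical
  rw [sup_iff]
  intro l' hl'
  rw [Finsupp.single_apply, if_neg]
  rintro rfl; exact hl' h

theorem sup_ext {Q' : List Y → Prop} {u : List X → Ch k Y} {c : Ch k X}
    (h : ∀ l ∈ c.support, Sup Q' (u l)) : Sup Q' (ext u c) := by
  rw [Finsupp.linearCombination_apply, Finsupp.sum]
  exact sup_sum fun l hl => sup_smul _ (h l hl)

theorem sup_cone {x : X} {c : Ch k X} (h : Sup (fun l => P (x :: l)) c) : Sup P (cone x c) := by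
  classical
  intro l hl
  have := Finsupp.mapDomain_support hl
  obtain ⟨l', hl', rfl⟩ := Finset.mem_image.1 this
  exact h l' hl'

theorem sup_pf {Q' : List Y → Prop} {f : X → Y} {c : Ch k X}
    (h : Sup (fun l => Q' (l.map f)) c) : Sup Q' (pf f c) := by
  classical
  intro l hl
  have := Finsupp.mapDomain_support hl
  obtain ⟨l', hl', rfl⟩ := Finset.mem_image.1 this
  exact h l' hl'

theorem sup_mono {c : Ch k X} (h : Sup P c) (hPQ : ∀ l, P l → Q' l) : Sup Q' c :=
  fun l hl => hPQ l (h l hl)

/-- lists of a prism -/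
theorem sup_prL (f g : X → Y) (l : List X) :
    Sup (fun l' => l'.length = l.length + 1 ∧ (∀ z ∈ l', ∃ x ∈ l, z = f x ∨ z = g x) ∧
      ∃ x ∈ l, ∃ t, l' = f x :: t) (prL k f g l) := by
  induction l with
  | nil => exact sup_zero
  | cons x l ih =>
    refine sup_sub (sup_single ⟨by simp, ?_, x, List.mem_cons_self, _, rfl⟩) (sup_cone ?_)
    · intro z hz
      rcases List.mem_cons.1 hz with rfl | hz
      · exact ⟨x, List.mem_cons_self, Or.inl rfl⟩
      rcases List.mem_cons.1 hz with rfl | hz
      · exact ⟨x, List.mem_cons_self, Or.inr rfl⟩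
      obtain ⟨w, hw, rfl⟩ := List.mem_map.1 hz
      exact ⟨w, List.mem_cons_of_mem _ hw, Or.inr rfl⟩
    · refine sup_mono ih ?_
      rintro l' ⟨h1, h2, -⟩
      refine ⟨by simp [h1], ?_, x, List.mem_cons_self, _, rfl⟩
      intro z hz
      rcases List.mem_cons.1 hz with rfl | hz
      · exact ⟨x, List.mem_cons_self, Or.inl rfl⟩
      · obtain ⟨w, hw, h⟩ := h2 z hz
        exact ⟨w, List.mem_cons_of_mem _ hw, h⟩

theorem sup_pr (f g : X → Y) (c : Ch k X) :
    Sup (fun l' => ∃ l ∈ c.support, l'.length = l.length + 1 ∧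
      (∀ z ∈ l', ∃ x ∈ l, z = f x ∨ z = g x)) (pr f g c) :=
  sup_ext fun l hl => sup_mono (sup_prL f g l) fun _ h => ⟨l, hl, h.1, h.2.1⟩

theorem ext_pr {M : Type*} [AddCommGroup M] [Module k M] (F : List Y → M) (f g : X → Y)
    (c : Ch k X) : ext F (pr f g c) = ext (fun l => ext F (prL k f g l)) c := by
  induction c using Finsupp.induction_linear with
  | zero => simp
  | add a b ha hb => simp only [map_add, ha, hb]
  | single l r =>
    rw [pr_single, map_smul, Finsupp.linearCombination_single]

theorem ext_cone {M : Type*} [AddCommGroup M] [Module k M] (F : List X → M) (x : X)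
    (c : Ch k X) : ext F (cone x c) = ext (fun l => F (x :: l)) c := by
  induction c using Finsupp.induction_linear with
  | zero => simp
  | add a b ha hb => simp only [map_add, ha, hb]
  | single l r =>
    rw [cone_single, Finsupp.linearCombination_single, Finsupp.linearCombination_single]

theorem ext_eq_zero {M : Type*} [AddCommGroup M] [Module k M] {F : List X → M}
    {c : Ch k X} (h : ∀ l ∈ c.support, F l = 0) : ext F c = 0 := by
  rw [Finsupp.linearCombination_apply, Finsupp.sum]
  exact Finset.sum_eq_zero fun l hl => by rw [h l hl, smul_zero]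

theorem ext_mul (r : k) (F : List X → k) (c : Ch k X) :
    ext (fun l => r * F l) c = r * ext F c := by
  rw [Finsupp.linearCombination_apply, Finsupp.linearCombination_apply, Finsupp.sum,
    Finsupp.sum, Finset.mul_sum]
  refine Finset.sum_congr rfl fun l _ => ?_
  rw [smul_eq_mul, smul_eq_mul]; ring

theorem ext_congr {M : Type*} [AddCommGroup M] [Module k M] {F G : List X → M}
    {c : Ch k X} (h : ∀ l ∈ c.support, F l = G l) : ext F c = ext G c := by
  rw [Finsupp.linearCombination_apply, Finsupp.linearCombination_apply, Finsupp.sum, Finsupp.sum]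
  exact Finset.sum_congr rfl fun l hl => by rw [h l hl]

end SupCalc

section KerPrism

variable {X : Type*}

/-- evaluation of the kernel on a prism: right slot a point -/
theorem ext_Ker_prL (c : X → ℝ) (cs : List (X → ℝ)) (f g : X → X) (s t : ℝ)
    (hf : ∀ x, c (f x) = s) (hg : ∀ x, c (g x) = t) (hcs : ∀ c' ∈ cs, ∀ x, c' (g x) = c' x)
    (y : X) (l : List X) :
    ext (fun l => Ker (c :: cs) l [y]) (prL (ZMod 2) f g l) =
      ((if s ≤ c y then 1 else 0) + (if t ≤ c y then 1 else 0)) * Ker cs l [y] := by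
  classical
  cases l with
  | nil => rw [Ker_nil_left, mul_zero, prL, map_zero]
  | cons x l =>
    rw [prL, map_sub, Finsupp.linearCombination_single, one_smul, ext_cone]
    have h0 : ext (fun l => Ker (c :: cs) (f x :: l) [y]) (prL (ZMod 2) f g l) = 0 := by
      refine ext_eq_zero fun l' hl' => ?_
      obtain ⟨-, -, x', -, t', rfl⟩ := sup_prL f g l l' hl'
      rw [Ker_cons_pt]
      simp only [hh, hf, two_zero, zero_mul]
    rw [h0, sub_zero, Ker_cons_pt, ← List.map_cons, Ker_map_left cs g hcs]
    simp only [hh, hf, hg]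

/-- evaluation of the kernel on a prism: left slot a point -/
theorem ext_Ker_prL' (c : X → ℝ) (cs : List (X → ℝ)) (f g : X → X) (s t : ℝ)
    (hf : ∀ x, c (f x) = s) (hg : ∀ x, c (g x) = t) (hcs : ∀ c' ∈ cs, ∀ x, c' (g x) = c' x)
    (y : X) (l : List X) :
    ext (fun l => Ker (c :: cs) [y] l) (prL (ZMod 2) f g l) =
      ((if c y ≤ s then 1 else 0) + (if c y ≤ t then 1 else 0)) * Ker cs [y] l := by
  classical
  cases l with
  | nil => rw [Ker_nil_right, mul_zero, prL, map_zero]
  | cons x l =>
    rw [prL, map_sub, Finsupp.linearCombination_single, one_smul, ext_cone]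
    have h0 : ext (fun l => Ker (c :: cs) [y] (f x :: l)) (prL (ZMod 2) f g l) = 0 := by
      refine ext_eq_zero fun l' hl' => ?_
      obtain ⟨-, -, x', -, t', rfl⟩ := sup_prL f g l l' hl'
      rw [Ker_pt_cons]
      simp only [hh, hf, two_zero, zero_mul]
    rw [h0, sub_zero, Ker_pt_cons, ← List.map_cons, Ker_map_right cs g hcs]
    simp only [hh, hf, hg]

end KerPrism

section BoxLemmas

variable {n : ℕ}

/-- the partition points -/
noncomputable def tt (N a : ℕ) : ℝ := -9 + 18 * (a : ℝ) / N

theorem tt_zero (N : ℕ) : tt N 0 = -9 := by simp [tt]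

theorem tt_last {N : ℕ} (hN : 0 < N) : tt N N = 9 := by
  have : (N : ℝ) ≠ 0 := by positivity
  rw [tt, mul_div_assoc, div_self this]; norm_num

theorem abs_tt {N a : ℕ} (hN : 0 < N) (ha : a ≤ N) : |tt N a| ≤ 9 := by
  have hN' : (0 : ℝ) < N := by exact_mod_cast hN
  have ha' : (a : ℝ) ≤ N := by exact_mod_cast ha
  have h1 : 18 * (a : ℝ) / N ≤ 18 := by
    rw [div_le_iff₀ hN']; nlinarith
  have h2 : 0 ≤ 18 * (a : ℝ) / N := by positivity
  rw [tt, abs_le]; constructor <;> linarith

theorem tt_succ {N a : ℕ} : tt N (a + 1) - tt N a = 18 / N := by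
  rw [tt, tt]; push_cast; ring

theorem swp_eq (N : ℕ) (i : Fin n) (c : Ch (ZMod 2) (Fin n → ℝ)) :
    swp N i c = ∑ a ∈ Finset.range N, pr (fun y => Function.update y i (tt N a))
      (fun y => Function.update y i (tt N (a + 1))) c := by
  unfold swp tt
  push_cast
  rfl

theorem boxL_supp {N : ℕ} (hN : 0 < N) (is : List (Fin n)) :
    Sup (fun l => l.length = is.length + 1 ∧ (∀ x ∈ l, ∀ j, |x j| ≤ 9) ∧
      ∀ x ∈ l, ∀ y ∈ l, ∀ j, |x j - y j| ≤ 18 / (N : ℝ)) (boxL N is) := by
  have hN' : (0 : ℝ) < N := by exact_mod_cast hN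
  have hpos : (0 : ℝ) ≤ 18 / N := by positivity
  induction is with
  | nil =>
    refine sup_single ⟨rfl, ?_, ?_⟩
    · intro x hx j
      rw [List.mem_singleton.1 hx]; simp
    · intro x hx y hy j
      rw [List.mem_singleton.1 hx, List.mem_singleton.1 hy]
      simpa using hpos
  | cons i is ih =>
    rw [boxL, swp_eq]
    refine sup_sum fun a ha => sup_mono (sup_pr _ _ _) ?_
    have ha' : a < N := Finset.mem_range.1 ha
    rintro l' ⟨l, hl, hlen, hent⟩
    obtain ⟨h1, h2, h3⟩ := ih l hl
    -- description of the entries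
    have key : ∀ z ∈ l', ∃ x ∈ l, ∃ b, (b = a ∨ b = a + 1) ∧
        z = Function.update x i (tt N b) := by
      intro z hz
      obtain ⟨x, hx, h | h⟩ := hent z hz
      · exact ⟨x, hx, a, Or.inl rfl, h⟩
      · exact ⟨x, hx, a + 1, Or.inr rfl, h⟩
    refine ⟨by rw [hlen, h1, List.length_cons], ?_, ?_⟩
    · intro z hz j
      obtain ⟨x, hx, b, hb, rfl⟩ := key z hz
      by_cases hj : j = i
      · subst hj
        rw [Function.update_self]
        exact abs_tt hN (by omega)
      · rw [Function.update_of_ne hj]; exact h2 x hx j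
    · intro z hz w hw j
      obtain ⟨x, hx, b, hb, rfl⟩ := key z hz
      obtain ⟨y, hy, d, hd, rfl⟩ := key w hw
      by_cases hj : j = i
      · subst hj
        rw [Function.update_self, Function.update_self]
        have e := @tt_succ N a
        rcases hb with rfl | rfl <;> rcases hd with rfl | rfl
        · simpa using hpos
        · rw [abs_sub_comm, e, abs_of_nonneg hpos]
        · rw [e, abs_of_nonneg hpos]
        · simpa using hpos
      · rw [Function.update_of_ne hj, Function.update_of_ne hj]; exact h3 x hx y hy j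

/-- (M4a) the lists of the box chain -/
theorem box_supp {N : ℕ} (hN : 0 < N) :
    Sup (fun l => l.length = n + 1 ∧ In (Q n 9) l ∧
      ∀ x ∈ l, ∀ y ∈ l, dist x y ≤ 18 / (N : ℝ)) (box n N) := by
  have hN' : (0 : ℝ) < N := by exact_mod_cast hN
  refine sup_mono (boxL_supp hN _) ?_
  rintro l ⟨h1, h2, h3⟩
  refine ⟨by rw [h1, List.length_finRange], ?_, ?_⟩
  · intro x hx
    rw [mem_closedBall, dist_zero_right]
    exact (pi_norm_le_iff_of_nonneg (by norm_num)).2 fun j => by
      rw [Real.norm_eq_abs]; exact h2 x hx j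
  · intro x hx y hy
    exact (dist_pi_le_iff (by positivity)).2 fun j => by
      rw [Real.dist_eq]; exact h3 x hx y hy j

theorem bd_swp {N : ℕ} (i : Fin n) (c : Ch (ZMod 2) (Fin n → ℝ)) :
    bd (swp N i c) = pf (fun y => Function.update y i (tt N N)) c -
      pf (fun y => Function.update y i (tt N 0)) c -
      ∑ a ∈ Finset.range N, pr (fun y => Function.update y i (tt N a))
      (fun y => Function.update y i (tt N (a + 1))) (bd c) := by
  rw [swp_eq, map_sum]
  have h : ∀ a ∈ Finset.range N, bd (pr (fun y => Function.update y i (tt N a))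
      (fun y => Function.update y i (tt N (a + 1))) c) =
      (pf (fun y => Function.update y i (tt N (a + 1))) c -
        pf (fun y => Function.update y i (tt N a)) c) -
      pr (fun y => Function.update y i (tt N a))
      (fun y => Function.update y i (tt N (a + 1))) (bd c) := by
    intro a _
    rw [← bd_pr]; abel
  rw [Finset.sum_congr rfl h, Finset.sum_sub_distrib,
    Finset.sum_range_sub fun a => pf (fun y => Function.update y i (tt N a)) c]

theorem bd_boxL_supp {N : ℕ} (hN : 0 < N) (is : List (Fin n)) (hne : is ≠ []) (hnd : is.Nodup) :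
    Sup (fun l => ∃ i ∈ is, (∀ x ∈ l, x i = -9) ∨ (∀ x ∈ l, x i = 9)) (bd (boxL N is)) := by
  induction is with
  | nil => exact absurd rfl hne
  | cons i is ih =>
    rw [boxL, bd_swp]
    refine sup_sub (sup_sub (sup_pf ?_) (sup_pf ?_)) (sup_sum fun a ha => ?_)
    · intro l _
      refine ⟨i, List.mem_cons_self, Or.inr ?_⟩
      intro x hx
      obtain ⟨y, -, rfl⟩ := List.mem_map.1 hx
      rw [Function.update_self, tt_last hN]
    · intro l _
      refine ⟨i, List.mem_cons_self, Or.inl ?_⟩
      intro x hx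
      obtain ⟨y, -, rfl⟩ := List.mem_map.1 hx
      rw [Function.update_self, tt_zero]
    · rcases is with _ | ⟨j, is⟩
      · have : bd (boxL N ([] : List (Fin n))) = Finsupp.single [] 1 := by
          rw [boxL, bd_single, one_smul, bdL, bdL, map_zero, sub_zero]
        rw [this, pr_single, prL, smul_zero]
        exact sup_zero
      · have ih' := ih (by simp) (List.nodup_cons.1 hnd).2
        refine sup_mono (sup_pr _ _ _) ?_
        rintro l' ⟨l, hl, -, hent⟩
        obtain ⟨j', hj', h⟩ := ih' l hl
        have hji : j' ≠ i := by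
          rintro rfl; exact (List.nodup_cons.1 hnd).1 hj'
        refine ⟨j', List.mem_cons_of_mem _ hj', ?_⟩
        refine h.imp (fun h z hz => ?_) (fun h z hz => ?_) <;>
        · obtain ⟨x, hx, rfl | rfl⟩ := hent z hz <;>
          rw [Function.update_of_ne hji, h x hx]

/-- (M4b) the lists of the boundary of the box chain -/
theorem bd_box_supp {N : ℕ} (hN : 0 < N) (hn : n ≠ 0) :
    Sup (fun l => ∃ i : Fin n, (∀ x ∈ l, x i = -9) ∨ (∀ x ∈ l, x i = 9)) (bd (box n N)) := by
  refine sup_mono (bd_boxL_supp hN _ ?_ (List.nodup_finRange n)) ?_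
  · intro h
    have := congrArg List.length h
    rw [List.length_finRange] at this
    exact hn this
  · rintro l ⟨i, -, h⟩
    exact ⟨i, h⟩

theorem sum_tel (u : ℕ → ZMod 2) (N : ℕ) :
    ∑ a ∈ Finset.range N, (u a + u (a + 1)) = u 0 + u N := by
  induction N with
  | zero => simp [two_zero]
  | succ N ih =>
    rw [Finset.sum_range_succ, ih]
    have := two_zero (u N)
    calc u 0 + u N + (u N + u (N + 1)) = u 0 + (u N + u N) + u (N + 1) := by ring
      _ = _ := by rw [this, add_zero]

theorem ext_Ker_boxL {N : ℕ} (hN : 0 < N) {y : Fin n → ℝ} (hy : ∀ j, -9 ≤ y j ∧ y j < 9)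
    (is : List (Fin n)) (hnd : is.Nodup) :
    ext (fun l => Ker (is.map fun i y => y i) l [y]) (boxL N is) = 1 := by
  induction is with
  | nil => simp [boxL, Ker]
  | cons i is ih =>
    rw [boxL, swp_eq, map_sum]
    have hi : i ∉ is := (List.nodup_cons.1 hnd).1
    have h : ∀ a ∈ Finset.range N, ext (fun l => Ker ((i :: is).map fun i y => y i) l [y])
        (pr (fun y => Function.update y i (tt N a))
          (fun y => Function.update y i (tt N (a + 1))) (boxL N is)) =
        (if tt N a ≤ y i then 1 else 0) + (if tt N (a + 1) ≤ y i then 1 else 0) := by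
      intro a _
      rw [ext_pr]
      have h1 : ∀ l : List (Fin n → ℝ),
          ext (fun l => Ker ((i :: is).map fun i y => y i) l [y]) (prL (ZMod 2)
          (fun y => Function.update y i (tt N a))
          (fun y => Function.update y i (tt N (a + 1))) l) =
          ((if tt N a ≤ y i then 1 else 0) + (if tt N (a + 1) ≤ y i then 1 else 0)) *
            Ker (is.map fun i y => y i) l [y] := by
        intro l
        refine ext_Ker_prL (fun y : Fin n → ℝ => y i) _ _ _ _ _ (fun x => Function.update_self ..)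
          (fun x => Function.update_self ..) ?_ y l
        intro c' hc' x
        obtain ⟨j, hj, rfl⟩ := List.mem_map.1 hc'
        have : j ≠ i := by rintro rfl; exact hi hj
        exact Function.update_of_ne this _ _
      simp only [h1]
      rw [ext_mul, ih (List.nodup_cons.1 hnd).2, mul_one]
    rw [Finset.sum_congr rfl h, sum_tel fun a => if tt N a ≤ y i then 1 else 0, tt_zero,
      tt_last hN, if_pos (hy i).1, if_neg (not_le.2 (hy i).2), add_zero]

theorem ext_Ker_boxL' {N : ℕ} (hN : 0 < N) {y : Fin n → ℝ} (hy : ∀ j, -9 < y j ∧ y j ≤ 9)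
    (is : List (Fin n)) (hnd : is.Nodup) :
    ext (fun l => Ker (is.map fun i y => y i) [y] l) (boxL N is) = 1 := by
  induction is with
  | nil => simp [boxL, Ker]
  | cons i is ih =>
    rw [boxL, swp_eq, map_sum]
    have hi : i ∉ is := (List.nodup_cons.1 hnd).1
    have h : ∀ a ∈ Finset.range N, ext (fun l => Ker ((i :: is).map fun i y => y i) [y] l)
        (pr (fun y => Function.update y i (tt N a))
          (fun y => Function.update y i (tt N (a + 1))) (boxL N is)) =
        (if y i ≤ tt N a then 1 else 0) + (if y i ≤ tt N (a + 1) then 1 else 0) := by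
      intro a _
      rw [ext_pr]
      have h1 : ∀ l : List (Fin n → ℝ),
          ext (fun l => Ker ((i :: is).map fun i y => y i) [y] l) (prL (ZMod 2)
          (fun y => Function.update y i (tt N a))
          (fun y => Function.update y i (tt N (a + 1))) l) =
          ((if y i ≤ tt N a then 1 else 0) + (if y i ≤ tt N (a + 1) then 1 else 0)) *
            Ker (is.map fun i y => y i) [y] l := by
        intro l
        refine ext_Ker_prL' (fun y : Fin n → ℝ => y i) _ _ _ _ _ (fun x => Function.update_self ..)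
          (fun x => Function.update_self ..) ?_ y l
        intro c' hc' x
        obtain ⟨j, hj, rfl⟩ := List.mem_map.1 hc'
        have : j ≠ i := by rintro rfl; exact hi hj
        exact Function.update_of_ne this _ _
      simp only [h1]
      rw [ext_mul, ih (List.nodup_cons.1 hnd).2, mul_one]
    rw [Finset.sum_congr rfl h, sum_tel fun a => if y i ≤ tt N a then 1 else 0, tt_zero,
      tt_last hN, if_pos (hy i).2, if_neg (not_le.2 (hy i).1), zero_add]

theorem abs_le_of_mem_Q {x : Fin n → ℝ} {r : ℝ} (hx : x ∈ Q n r) (j : Fin n) : |x j| ≤ r := by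
  rw [mem_closedBall, dist_zero_right] at hx
  exact (norm_le_pi_norm x j).trans hx

/-- (M4c) the kernel of the box chain at a point -/
theorem Ker_box {N : ℕ} (hN : 0 < N) {x : Fin n → ℝ} (hx : x ∈ Q n 8) :
    ext (fun l => Ker (crd n) l [x]) (box n N) = 1 :=
  ext_Ker_boxL hN (fun j => by
    have := abs_le.1 (abs_le_of_mem_Q hx j); constructor <;> linarith) _ (List.nodup_finRange n)

theorem Ker_box' {N : ℕ} (hN : 0 < N) {x : Fin n → ℝ} (hx : x ∈ Q n 8) :
    ext (fun l => Ker (crd n) [x] l) (box n N) = 1 :=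
  ext_Ker_boxL' hN (fun j => by
    have := abs_le.1 (abs_le_of_mem_Q hx j); constructor <;> linarith) _ (List.nodup_finRange n)

end BoxLemmas

end Vale.Agent.P239.M.Box

namespace Vale.Agent.P239.M

theorem sup_box (n N : ℕ) (hN : 0 < N) : Sup (fun l => l.length = n + 1 ∧ In (Q n 9) l ∧
    ∀ u ∈ l, ∀ v ∈ l, dist u v ≤ 18 / N) (box n N) := Box.box_supp hN

theorem sup_bd_box (n N : ℕ) (hn : 0 < n) (hN : 0 < N) : Sup (fun l => ∃ i : Fin n,
    (∀ u ∈ l, u i = -9) ∨ (∀ u ∈ l, u i = 9)) (bd (box n N)) := Box.bd_box_supp hN hn.ne'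

theorem box_right (n N : ℕ) (hN : 0 < N) (x : Fin n → ℝ) (hx : x ∈ Q n 8) :
    ext (fun l => Ker (crd n) l [x]) (box n N) = 1 := Box.Ker_box hN hx

theorem box_left (n N : ℕ) (hN : 0 < N) (x : Fin n → ℝ) (hx : x ∈ Q n 8) :
    ext (fun l => Ker (crd n) [x] l) (box n N) = 1 := Box.Ker_box' hN hx

end Vale.Agent.P239.M
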