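import Vale.Agent.P239.S.M_Sp

/-!
Module M3: the kernels `K1` and `Ker` (mod 2), statements as in `M_Skel`.
-/

namespace Vale.Agent.P239.M

open SpA

variable {X Y : Type*}

/-! ### auxiliary facts -/

namespace KerA

theorem K1_nil_left (c : X → ℝ) (b : List X) : K1 c [] b = 0 := by
  cases b <;> rfl

theorem K1_nil_right (c : X → ℝ) (a : List X) : K1 c a [] = 0 := by
  rcases a with _ | ⟨x, _ | ⟨y, _ | ⟨z, a⟩⟩⟩ <;> rfl

theorem K1_length {c : X → ℝ} {a b : List X} (h : K1 c a b ≠ 0) :
    (a.length = 1 ∧ b.length = 2) ∨ (a.length = 2 ∧ b.length = 1) := by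
  rcases a with _ | ⟨x, _ | ⟨x', _ | ⟨x'', a⟩⟩⟩ <;>
  rcases b with _ | ⟨y, _ | ⟨y', _ | ⟨y'', b⟩⟩⟩ <;>
  first
  | exact absurd rfl h
  | simp

theorem K1_12 (c : X → ℝ) (x y y' : X) : K1 c [x] [y, y'] = hh c x y + hh c x y' := rfl

theorem K1_21 (c : X → ℝ) (x x' y : X) : K1 c [x, x'] [y] = hh c x y + hh c x' y := rfl

theorem K1_11 (c : X → ℝ) (x y : X) : K1 c [x] [y] = 0 := rfl

theorem K1_bd (c : X → ℝ) (a b : List X) :
    ext (fun a' => K1 c a' b) (bdL (ZMod 2) a) = ext (fun b' => K1 c a b') (bdL (ZMod 2) b) := by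
  by_cases h : a.length + b.length = 4
  · obtain ha | ha | ha | ha | ha : a.length = 0 ∨ a.length = 1 ∨ a.length = 2 ∨ a.length = 3 ∨
      a.length = 4 := by omega
    · rw [List.length_eq_zero_iff] at ha
      subst ha
      rw [ext_bdL_nil]
      symm
      exact ext_bdL_zero fun l _ => K1_nil_left c l
    · obtain ⟨x, rfl⟩ := List.length_eq_one_iff.1 ha
      obtain ⟨y, y', y'', rfl⟩ := List.length_eq_three.1 (show b.length = 3 by omega)
      simp only [ext_bdL_cons2, ext_bdL_nil, K1_nil_left, K1_12]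
      generalize hh c x y = p
      generalize hh c x y' = q
      generalize hh c x y'' = r
      revert p q r
      decide
    · obtain ⟨x, x', rfl⟩ := List.length_eq_two.1 ha
      obtain ⟨y, y', rfl⟩ := List.length_eq_two.1 (show b.length = 2 by omega)
      simp only [ext_bdL_cons2, ext_bdL_nil, K1_12, K1_21]
      generalize hh c x y = p
      generalize hh c x y' = q
      generalize hh c x' y = r
      generalize hh c x' y' = s
      revert p q r s
      decide
    · obtain ⟨x, x', x'', rfl⟩ := List.length_eq_three.1 ha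
      obtain ⟨y, rfl⟩ := List.length_eq_one_iff.1 (show b.length = 1 by omega)
      simp only [ext_bdL_cons2, ext_bdL_nil, K1_nil_right, K1_21]
      generalize hh c x y = p
      generalize hh c x' y = q
      generalize hh c x'' y = r
      revert p q r
      decide
    · have hb : b = [] := by
        rw [← List.length_eq_zero_iff]
        omega
      subst hb
      rw [ext_bdL_nil]
      exact ext_bdL_zero fun l _ => K1_nil_right c l
  · rw [ext_bdL_zero, ext_bdL_zero]
    · intro b' hb'
      by_contra hne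
      have := K1_length hne
      omega
    · intro a' ha'
      by_contra hne
      have := K1_length hne
      omega

theorem Ker_nil (a b : List X) :
    Ker [] a b = if a.length = 1 ∧ b.length = 1 then 1 else 0 := rfl

theorem Ker_cons (c : X → ℝ) (cs : List (X → ℝ)) (a b : List X) :
    Ker (c :: cs) a b = sp (fun p s => sp (fun p' s' => K1 c p p' * Ker cs s s') b) a := rfl

/-- if all comparisons of the coordinate `c` are equal then the kernel vanishes -/
theorem K1_eq_zero {c : X → ℝ} {a b : List X} {r : ZMod 2}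
    (h : ∀ x ∈ a, ∀ y ∈ b, hh c x y = r) : K1 c a b = 0 := by
  have h2 : ∀ r : ZMod 2, r + r = 0 := by decide
  by_contra hne
  rcases K1_length hne with ⟨ha, hb⟩ | ⟨ha, hb⟩
  · obtain ⟨x, rfl⟩ := List.length_eq_one_iff.1 ha
    obtain ⟨y, y', rfl⟩ := List.length_eq_two.1 hb
    exact hne (by rw [K1_12, h x (by simp) y (by simp), h x (by simp) y' (by simp), h2])
  · obtain ⟨x, x', rfl⟩ := List.length_eq_two.1 ha
    obtain ⟨y, rfl⟩ := List.length_eq_one_iff.1 hb
    exact hne (by rw [K1_21, h x (by simp) y (by simp), h x' (by simp) y (by simp), h2])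

/-- the kernel only depends on the comparisons -/
theorem K1_congr {c c' : X → ℝ} {a b : List X}
    (h : ∀ x ∈ a, ∀ y ∈ b, hh c x y = hh c' x y) : K1 c a b = K1 c' a b := by
  by_cases hne : K1 c a b = 0 ∧ K1 c' a b = 0
  · rw [hne.1, hne.2]
  · have hl : (a.length = 1 ∧ b.length = 2) ∨ (a.length = 2 ∧ b.length = 1) := by
      by_cases h1 : K1 c a b = 0
      · exact K1_length fun h2 => hne ⟨h1, h2⟩
      · exact K1_length h1
    rcases hl with ⟨ha, hb⟩ | ⟨ha, hb⟩
    · obtain ⟨x, rfl⟩ := List.length_eq_one_iff.1 ha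
      obtain ⟨y, y', rfl⟩ := List.length_eq_two.1 hb
      rw [K1_12, K1_12, h x (by simp) y (by simp), h x (by simp) y' (by simp)]
    · obtain ⟨x, x', rfl⟩ := List.length_eq_two.1 ha
      obtain ⟨y, rfl⟩ := List.length_eq_one_iff.1 hb
      rw [K1_21, K1_21, h x (by simp) y (by simp), h x' (by simp) y (by simp)]

theorem K1_map (c : Y → ℝ) (f : X → Y) (a b : List X) :
    K1 c (a.map f) (b.map f) = K1 (fun x => c (f x)) a b := by
  rcases a with _ | ⟨x, _ | ⟨x', _ | ⟨x'', a⟩⟩⟩ <;>
  rcases b with _ | ⟨y, _ | ⟨y', _ | ⟨y'', b⟩⟩⟩ <;> rfl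

end KerA

open KerA

section M3

theorem Ker_nil_left (cs : List (X → ℝ)) (b : List X) : Ker cs [] b = 0 := by
  cases cs with
  | nil => simp [Ker_nil]
  | cons c cs => rfl

theorem Ker_nil_right (cs : List (X → ℝ)) (a : List X) : Ker cs a [] = 0 := by
  cases cs with
  | nil => simp [Ker_nil]
  | cons c cs =>
    rw [Ker_cons]
    exact sp_zero fun p s _ => rfl

/-- a nonzero value of the kernel comes from a splitting -/
theorem KerA.Ker_cons_ne {c : X → ℝ} {cs : List (X → ℝ)} {a b : List X} (h : Ker (c :: cs) a b ≠ 0) :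
    ∃ p s p' s', Cut a p s ∧ Cut b p' s' ∧ K1 c p p' ≠ 0 ∧ Ker cs s s' ≠ 0 := by
  rw [Ker_cons] at h
  obtain ⟨p, s, h1, h2⟩ := exists_of_sp_ne h
  obtain ⟨p', s', h3, h4⟩ := exists_of_sp_ne h2
  exact ⟨p, s, p', s', h1, h3, left_ne_zero_of_mul h4, right_ne_zero_of_mul h4⟩

theorem Ker_length (cs : List (X → ℝ)) (a b : List X) (h : Ker cs a b ≠ 0) :
    a.length + b.length = cs.length + 2 := by
  induction cs generalizing a b with
  | nil =>
    rw [Ker_nil] at h
    split_ifs at h with h1
    · rw [h1.1, h1.2, List.length_nil]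
    · exact absurd rfl h
  | cons c cs ih =>
    obtain ⟨p, s, p', s', h1, h2, h3, h4⟩ := Ker_cons_ne h
    have e1 := ih _ _ h4
    have e2 := K1_length h3
    have e3 := h1.len
    have e4 := h2.len
    rw [List.length_cons]
    omega

/-- the kernel is a chain map to cochains -/
theorem Ker_bd (cs : List (X → ℝ)) (a b : List X) :
    ext (fun a' => Ker cs a' b) (bdL (ZMod 2) a) =
      ext (fun b' => Ker cs a b') (bdL (ZMod 2) b) := by
  induction cs generalizing a b with
  | nil =>
    have h1 : ∀ a b : List X, ext (fun a' => Ker [] a' b) (bdL (ZMod 2) a) = 0 := by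
      intro a b
      rcases a with _ | ⟨x, _ | ⟨x', _ | ⟨x'', a⟩⟩⟩
      · exact ext_bdL_nil _
      · rw [ext_bdL_cons2, ext_bdL_nil]
        simp [Ker_nil]
      · simp only [ext_bdL_cons2, ext_bdL_nil, Ker_nil]
        by_cases hb : b.length = 1
        · simp only [hb, List.length_nil, List.length_cons]
          decide
        · simp [hb]
      · refine ext_bdL_zero fun l hl => ?_
        rw [Ker_nil, if_neg]
        simp only [List.length_cons] at hl
        omega
    have h2 : ∀ a b : List X, ext (fun b' => Ker [] a b') (bdL (ZMod 2) b) = 0 := by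
      intro a b
      rw [← h1 b a]
      refine ext_cong fun l _ => ?_
      simp only [Ker_nil, and_comm]
    rw [h1, h2]
  | cons c cs ih =>
    have hD : ∀ p s : List X,
        ext (sp fun p' s' => K1 c p p' * Ker cs s s') (bdL (ZMod 2) b) =
          sp (fun p' s' => ext (fun q => K1 c p q * Ker cs s s') (bdL (ZMod 2) p') +
            ext (fun r => K1 c p p' * Ker cs s r) (bdL (ZMod 2) s')) b := by
      intro p s
      rw [ext_sp, K1_nil_right, Ker_nil_right, zero_mul, mul_zero, add_zero, add_zero]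
    have hB : ext (fun a' => Ker (c :: cs) a' b) (bdL (ZMod 2) a) =
        sp (fun p s => ext (fun p1 => sp (fun p' s' => K1 c p1 p' * Ker cs s s') b)
          (bdL (ZMod 2) p) + ext (fun s1 => sp (fun p' s' => K1 c p p' * Ker cs s1 s') b)
          (bdL (ZMod 2) s)) a := by
      have h1 := ext_sp (fun p s => sp (fun p' s' => K1 c p p' * Ker cs s s') b) a
      have h2 : sp (fun p' s' => K1 c [] p' * Ker cs a s') b = 0 :=
        sp_zero fun p s _ => by rw [K1_nil_left, zero_mul]
      have h3 : sp (fun p' s' => K1 c a p' * Ker cs [] s') b = 0 :=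
        sp_zero fun p s _ => by rw [Ker_nil_left, mul_zero]
      rw [h2, h3, add_zero, add_zero] at h1
      exact h1
    have hR : ext (fun b' => Ker (c :: cs) a b') (bdL (ZMod 2) b) =
        sp (fun p s => ext (sp fun p' s' => K1 c p p' * Ker cs s s') (bdL (ZMod 2) b)) a :=
      ext_sp_comm (fun b' p s => sp (fun p' s' => K1 c p p' * Ker cs s s') b') a _
    rw [hB, hR]
    refine sp_congr fun p s _ => ?_
    rw [hD, ext_sp_comm (fun p1 p' s' => K1 c p1 p' * Ker cs s s') b,
      ext_sp_comm (fun s1 p' s' => K1 c p p' * Ker cs s1 s') b, ← sp_add]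
    refine sp_congr fun p' s' _ => ?_
    have e1 : ∀ (u : List X → ZMod 2) (t : ZMod 2) (z : Ch (ZMod 2) X),
        ext (fun l => u l * t) z = ext u z * t := fun u t z => by
      have := ext_map (k := ZMod 2) (LinearMap.mulRight (ZMod 2) t) u z
      simpa using this
    have e2 : ∀ (u : List X → ZMod 2) (t : ZMod 2) (z : Ch (ZMod 2) X),
        ext (fun l => t * u l) z = t * ext u z := fun u t z => by
      have := ext_map (k := ZMod 2) (LinearMap.mulLeft (ZMod 2) t) u z
      simpa using this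
    rw [e1 (fun p1 => K1 c p1 p'), e2 (fun s1 => Ker cs s1 s'), e1 (fun q => K1 c p q),
      e2 (fun r => Ker cs s r), K1_bd, ih]

theorem Ker_eq_zero (cs : List (X → ℝ)) (a b : List X) (c : X → ℝ) (hc : c ∈ cs)
    (v : ZMod 2) (h : ∀ x ∈ a, ∀ y ∈ b, hh c x y = v) : Ker cs a b = 0 := by
  induction cs generalizing a b with
  | nil => simp at hc
  | cons c' cs ih =>
    by_contra hne
    obtain ⟨p, s, p', s', h1, h2, h3, h4⟩ := Ker_cons_ne hne
    rcases List.mem_cons.1 hc with rfl | hc
    · exact h3 (K1_eq_zero (r := v) fun x hx y hy => h x (h1.pre.subset hx) y (h2.pre.subset hy))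
    · exact h4 (ih _ _ hc fun x hx y hy => h x (h1.suf.subset hx) y (h2.suf.subset hy))

/-- locality -/
theorem Ker_local (cs : List (X → ℝ)) (a b : List X) (h : Ker cs a b ≠ 0) (c : X → ℝ)
    (hc : c ∈ cs) {κ κ' : ℝ} (ha : ∀ x ∈ a, ∀ x' ∈ a, |c x - c x'| ≤ κ)
    (hb : ∀ y ∈ b, ∀ y' ∈ b, |c y - c y'| ≤ κ') : ∀ x ∈ a, ∀ y ∈ b, |c x - c y| ≤ κ + κ' := by
  intro x hx y hy
  have h0 : ∃ x ∈ a, ∃ y ∈ b, c x ≤ c y := by
    by_contra hne
    push Not at hne
    refine h (Ker_eq_zero cs a b c hc 0 fun x hx y hy => ?_)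
    unfold hh
    rw [if_neg (not_le.2 (hne x hx y hy))]
  have h1 : ∃ x ∈ a, ∃ y ∈ b, c y < c x := by
    by_contra hne
    push Not at hne
    refine h (Ker_eq_zero cs a b c hc 1 fun x hx y hy => ?_)
    unfold hh
    rw [if_pos (hne x hx y hy)]
  obtain ⟨x1, hx1, y1, hy1, e1⟩ := h0
  obtain ⟨x2, hx2, y2, hy2, e2⟩ := h1
  have a1 := abs_le.1 (ha x hx x1 hx1)
  have a2 := abs_le.1 (ha x hx x2 hx2)
  have b1 := abs_le.1 (hb y hy y1 hy1)
  have b2 := abs_le.1 (hb y hy y2 hy2)
  rw [abs_le]
  constructor <;> linarith [a1.1, a1.2, a2.1, a2.2, b1.1, b1.2, b2.1, b2.2]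

/-- a map which preserves the coordinates can be dropped in the first slot -/
theorem KerA.map_left (cs : List (X → ℝ)) (f : X → X) (a b : List X)
    (h : ∀ c ∈ cs, ∀ x, c (f x) = c x) : Ker cs (a.map f) b = Ker cs a b := by
  induction cs generalizing a b with
  | nil => simp [Ker_nil]
  | cons c cs ih =>
    rw [Ker_cons, Ker_cons, sp_list_map]
    refine sp_congr fun p s _ => sp_congr fun p' s' _ => ?_
    rw [ih _ _ fun c' hc' => h c' (List.mem_cons_of_mem _ hc')]
    congr 1
    rcases p with _ | ⟨x, _ | ⟨x', _ | ⟨x'', p⟩⟩⟩ <;>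
    rcases p' with _ | ⟨y, _ | ⟨y', _ | ⟨y'', p'⟩⟩⟩ <;>
    simp [K1, hh, h c (List.mem_cons_self)]

theorem Ker_map (cs : List (X → ℝ)) (f : X → X) (a b : List X)
    (h : ∀ c ∈ cs, ∀ x, c (f x) = c x) : Ker cs (a.map f) b = Ker cs a b :=
  KerA.map_left cs f a b h

theorem Ker_map' (cs : List (X → ℝ)) (f : X → X) (a b : List X)
    (h : ∀ c ∈ cs, ∀ x, c (f x) = c x) : Ker cs a (b.map f) = Ker cs a b := by
  induction cs generalizing a b with
  | nil => simp [Ker_nil]
  | cons c cs ih =>
    rw [Ker_cons, Ker_cons]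
    refine sp_congr fun p s _ => ?_
    rw [sp_list_map]
    refine sp_congr fun p' s' _ => ?_
    rw [ih _ _ fun c' hc' => h c' (List.mem_cons_of_mem _ hc')]
    congr 1
    rcases p with _ | ⟨x, _ | ⟨x', _ | ⟨x'', p⟩⟩⟩ <;>
    rcases p' with _ | ⟨y, _ | ⟨y', _ | ⟨y'', p'⟩⟩⟩ <;>
    simp [K1, hh, h c (List.mem_cons_self)]

/-- naturality -/
theorem Ker_comap (cs : List (Y → ℝ)) (f : X → Y) (a b : List X) :
    Ker cs (a.map f) (b.map f) = Ker (cs.map fun c x => c (f x)) a b := by
  induction cs generalizing a b with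
  | nil => simp [Ker_nil]
  | cons c cs ih =>
    rw [List.map_cons, Ker_cons, Ker_cons, sp_list_map]
    refine sp_congr fun p s _ => ?_
    rw [sp_list_map]
    refine sp_congr fun p' s' _ => ?_
    rw [K1_map, ih]

/-- the kernel with a list of length one in the second slot -/
theorem Ker_cons_right (c : X → ℝ) (cs : List (X → ℝ)) (x x' : X) (a : List X) (y : X) :
    Ker (c :: cs) (x :: x' :: a) [y] = (hh c x y + hh c x' y) * Ker cs (x' :: a) [y] := by
  rw [Ker_cons]
  have h1 : ∀ p s : List X, sp (fun p' s' => K1 c p p' * Ker cs s s') [y] =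
      K1 c p [y] * Ker cs s [y] := fun p s => by
    rw [sp_cons, sp_nil, add_zero]
  simp only [h1]
  rw [sp_cons, sp_cons, K1_11, zero_mul, zero_add, K1_21]
  rw [sp_zero, add_zero]
  intro p s hp
  have h2 : K1 c (x :: x' :: p) [y] = 0 := by
    by_contra hne
    have h3 := K1_length hne
    have h4 := hp.ne
    rw [Ne, ← List.length_eq_zero_iff] at h4
    simp only [List.length_cons, List.length_nil] at h3
    omega
  rw [h2, zero_mul]

/-- the kernel with a list of length one in the first slot -/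
theorem Ker_cons_left (c : X → ℝ) (cs : List (X → ℝ)) (y y' : X) (b : List X) (x : X) :
    Ker (c :: cs) [x] (y :: y' :: b) = (hh c x y + hh c x y') * Ker cs [x] (y' :: b) := by
  rw [Ker_cons, sp_cons, sp_nil, add_zero, sp_cons, sp_cons, K1_11, zero_mul, zero_add, K1_12]
  rw [sp_zero, add_zero]
  intro p s hp
  have h2 : K1 c [x] (y :: y' :: p) = 0 := by
    by_contra hne
    have h3 := K1_length hne
    have h4 := hp.ne
    rw [Ne, ← List.length_eq_zero_iff] at h4
    simp only [List.length_cons, List.length_nil] at h3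
    omega
  rw [h2, zero_mul]

/-- the kernel only depends on the comparisons of the entries of the lists -/
theorem KerA.Ker_congr_hh {cs cs' : List (X → ℝ)} {a b : List X}
    (h : List.Forall₂ (fun c c' => ∀ x ∈ a, ∀ y ∈ b, hh c x y = hh c' x y) cs cs') :
    Ker cs a b = Ker cs' a b := by
  induction cs generalizing cs' a b with
  | nil =>
    cases h
    rfl
  | cons c cs ih =>
    cases h with
    | cons h1 h2 =>
      rw [Ker_cons, Ker_cons]
      refine sp_congr fun p s hp => sp_congr fun p' s' hp' => ?_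
      rw [K1_congr fun x hx y hy => h1 x (hp.pre.subset hx) y (hp'.pre.subset hy),
        ih (h2.imp fun c c' h x hx y hy => h x (hp.suf.subset hx) y (hp'.suf.subset hy))]

/-- the kernel only depends on the values of the coordinates -/
theorem KerA.Ker_congr {cs cs' : List (X → ℝ)} {a b : List X}
    (h : List.Forall₂ (fun c c' => ∀ x, x ∈ a ∨ x ∈ b → c x = c' x) cs cs') :
    Ker cs a b = Ker cs' a b :=
  KerA.Ker_congr_hh (h.imp fun c c' h x hx y hy => by
    unfold hh
    rw [h x (Or.inl hx), h y (Or.inr hy)])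

theorem KerA.Ker_congr_map {ι : Type*} {c c' : ι → X → ℝ} {is : List ι} {a b : List X}
    (h : ∀ i ∈ is, ∀ x, x ∈ a ∨ x ∈ b → c i x = c' i x) :
    Ker (is.map c) a b = Ker (is.map c') a b := by
  refine KerA.Ker_congr ?_
  rw [List.forall₂_map_left_iff, List.forall₂_map_right_iff, List.forall₂_same]
  exact h

theorem KerA.Ker_one_one (c : X → ℝ) (cs : List (X → ℝ)) (x y : X) :
    Ker (c :: cs) [x] [y] = 0 := by
  by_contra hne
  have := Ker_length _ _ _ hne
  simp only [List.length_cons, List.length_nil] at this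
  omega

end M3

end Vale.Agent.P239.M
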