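import Vale.Agent.P239.S.M_Defs

/-!
Module M2: the splitting operator `sp` and the cap products (mod 2), statements as in `M_Skel`.
-/

namespace Vale.Agent.P239.M

/-! ### auxiliary facts -/

namespace SpA

open Finset

section ExtGen

variable {k : Type*} [CommRing k] {X : Type*} {M : Type*} [AddCommGroup M] [Module k M]

theorem ext_cone (u : List X → M) (x : X) (c : Ch k X) :
    ext u (cone x c) = ext (fun l => u (x :: l)) c := by
  rw [cone, Finsupp.lmapDomain_apply, Finsupp.linearCombination_mapDomain]
  rfl

theorem ext_pf {Y : Type*} (u : List Y → M) (f : X → Y) (c : Ch k X) :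
    ext u (pf f c) = ext (fun l => u (l.map f)) c := by
  rw [pf, Finsupp.lmapDomain_apply, Finsupp.linearCombination_mapDomain]
  rfl

theorem ext_single_const (r : k) (c : Ch k X) :
    ext (fun s => (Finsupp.single s r : Ch k X)) c = r • c := by
  induction c using Finsupp.induction_linear with
  | zero => simp
  | add a b ha hb => rw [map_add, ha, hb, smul_add]
  | single l t =>
    rw [Finsupp.linearCombination_single, Finsupp.smul_single, Finsupp.smul_single, smul_eq_mul,
      smul_eq_mul, mul_comm]

theorem ext_bdL_nil (u : List X → M) : ext u (bdL k ([] : List X)) = 0 := by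
  simp [bdL]

theorem ext_bdL_cons (u : List X → M) (x : X) (l : List X) :
    ext u (bdL k (x :: l)) = u l - ext (fun l' => u (x :: l')) (bdL k l) := by
  rw [bdL, map_sub, ext_cone, Finsupp.linearCombination_single, one_smul]

theorem ext_add (u v : List X → M) (c : Ch k X) :
    ext (fun l => u l + v l) c = ext u c + ext v c := by
  simp only [ext, Finsupp.linearCombination_apply, smul_add]
  exact Finsupp.sum_add

theorem ext_zero (c : Ch k X) : ext (fun _ => (0 : M)) c = 0 := by
  simp [Finsupp.linearCombination_apply]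

theorem ext_map {M' : Type*} [AddCommGroup M'] [Module k M'] (L : M →ₗ[k] M') (u : List X → M)
    (c : Ch k X) : ext (fun l => L (u l)) c = L (ext u c) := by
  simp only [ext, Finsupp.linearCombination_apply, map_finsuppSum, map_smul]

theorem ext_sum {ι : Type*} (s : Finset ι) (u : ι → List X → M) (c : Ch k X) :
    ext (fun l => ∑ i ∈ s, u i l) c = ∑ i ∈ s, ext (u i) c := by
  classical
  induction s using Finset.induction_on with
  | empty => simp [ext_zero]
  | insert i s hi ih =>
    simp only [Finset.sum_insert hi]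
    rw [ext_add, ih]

/-- the extension only depends on the values on the support -/
theorem ext_cong {u v : List X → M} {c : Ch k X} (h : ∀ l ∈ c.support, u l = v l) :
    ext u c = ext v c := by
  simp only [ext, Finsupp.linearCombination_apply, Finsupp.sum]
  exact Finset.sum_congr rfl fun l hl => by rw [h l hl]

theorem bdL_length (l : List X) : ∀ l' ∈ (bdL k l).support, l'.length + 1 = l.length := by
  classical
  induction l with
  | nil => intro l' hl'; simp [bdL] at hl'
  | cons x l ih =>
    intro l' hl'
    rw [bdL] at hl'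
    rcases Finset.mem_union.1 (Finsupp.support_sub hl') with h | h
    · have h1 := Finsupp.support_single_subset h
      rw [Finset.mem_singleton] at h1
      rw [h1, List.length_cons]
    · rw [cone, Finsupp.lmapDomain_apply] at h
      obtain ⟨l'', hl'', rfl⟩ := Finset.mem_image.1 (Finsupp.mapDomain_support h)
      rw [List.length_cons, ih l'' hl'', List.length_cons]

theorem ext_bdL_zero {u : List X → M} {l : List X}
    (h : ∀ l' : List X, l'.length + 1 = l.length → u l' = 0) : ext u (bdL k l) = 0 := by
  rw [← ext_zero (k := k) (M := M) (bdL k l)]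
  exact ext_cong fun l' hl' => h l' (bdL_length l l' hl')

end ExtGen

section SpGen

variable {X A : Type*} [AddCommGroup A]

theorem sp_eq (B : List X → List X → A) (a : List X) :
    sp B a = ∑ i ∈ range a.length, B (a.take (i + 1)) (a.drop i) := by
  induction a generalizing B with
  | nil => simp [sp]
  | cons x l ih =>
    rw [sp, ih, List.length_cons, Finset.sum_range_succ', add_comm]
    simp only [List.take_succ_cons, List.drop_succ_cons, List.take_zero, List.drop_zero]

theorem sp_nil (B : List X → List X → A) : sp B [] = 0 := rfl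

theorem sp_cons (B : List X → List X → A) (x : X) (l : List X) :
    sp B (x :: l) = B [x] (x :: l) + sp (fun p s => B (x :: p) s) l := rfl

theorem sp_add (B B' : List X → List X → A) (a : List X) :
    sp (fun p s => B p s + B' p s) a = sp B a + sp B' a := by
  simp only [sp_eq, Finset.sum_add_distrib]

theorem sp_map {A' : Type*} [AddCommGroup A'] (L : A →+ A') (B : List X → List X → A)
    (a : List X) : sp (fun p s => L (B p s)) a = L (sp B a) := by
  simp only [sp_eq, map_sum]

/-- `p` and `s` are the two parts of the list `a`, with one common entry -/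
structure Cut (a p s : List X) : Prop where
  pre : p <+: a
  suf : s <:+ a
  ne : p ≠ []
  ne' : s ≠ []
  len : p.length + s.length = a.length + 1
  split : ∃ q x r, a = q ++ x :: r ∧ p = q ++ [x] ∧ s = x :: r

theorem cut_take_drop (a : List X) {i : ℕ} (hi : i < a.length) :
    Cut a (a.take (i + 1)) (a.drop i) where
  pre := List.take_prefix _ _
  suf := List.drop_suffix _ _
  ne := by
    intro h
    have := congrArg List.length h
    rw [List.length_take, List.length_nil] at this
    omega
  ne' := by
    intro h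
    have := congrArg List.length h
    rw [List.length_drop, List.length_nil] at this
    omega
  len := by
    rw [List.length_take, List.length_drop]
    omega
  split := by
    refine ⟨a.take i, a[i], a.drop (i + 1), ?_, ?_, ?_⟩
    · rw [← List.drop_eq_getElem_cons hi, List.take_append_drop]
    · rw [List.take_append_getElem]
    · rw [← List.drop_eq_getElem_cons hi]

theorem sp_congr {B B' : List X → List X → A} {a : List X}
    (h : ∀ p s, Cut a p s → B p s = B' p s) : sp B a = sp B' a := by
  rw [sp_eq, sp_eq]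
  exact Finset.sum_congr rfl fun i hi => h _ _ (cut_take_drop a (Finset.mem_range.1 hi))

theorem sp_zero {B : List X → List X → A} {a : List X}
    (h : ∀ p s, Cut a p s → B p s = 0) : sp B a = 0 := by
  rw [sp_eq]
  exact Finset.sum_eq_zero fun i hi => h _ _ (cut_take_drop a (Finset.mem_range.1 hi))

theorem exists_of_sp_ne {B : List X → List X → A} {a : List X} (h : sp B a ≠ 0) :
    ∃ p s, Cut a p s ∧ B p s ≠ 0 := by
  by_contra hne
  push Not at hne
  exact h (sp_zero hne)

theorem sp_list_map {Y : Type*} (B : List Y → List Y → A) (f : X → Y) (a : List X) :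
    sp B (a.map f) = sp (fun p s => B (p.map f) (s.map f)) a := by
  simp only [sp_eq, List.length_map, List.map_take, List.map_drop]

end SpGen

section Two

variable {X A : Type*} [AddCommGroup A] [Module (ZMod 2) A]

theorem ext_bdL_cons2 (u : List X → A) (x : X) (l : List X) :
    ext u (bdL (ZMod 2) (x :: l)) = u l + ext (fun l' => u (x :: l')) (bdL (ZMod 2) l) := by
  rw [ext_bdL_cons, ZModModule.sub_eq_add]

theorem ext_sp_comm (B : List X → List X → List X → A) (b : List X) (z : Ch (ZMod 2) X) :
    ext (fun l => sp (B l) b) z = sp (fun p s => ext (fun l => B l p s) z) b := by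
  simp only [sp_eq]
  exact ext_sum _ _ z

theorem sup_sp {B : List X → List X → Ch (ZMod 2) X} {a : List X} {P : List X → Prop}
    (h : ∀ p s, Cut a p s → Sup P (B p s)) : Sup P (sp B a) := by
  classical
  intro l hl
  rw [sp_eq] at hl
  obtain ⟨i, hi, h2⟩ := Finset.mem_biUnion.1 (Finsupp.support_finsetSum hl)
  exact h _ _ (cut_take_drop a (Finset.mem_range.1 hi)) l h2

end Two

end SpA

open SpA

section M2

variable {X Y : Type*}

theorem ext_sp {A : Type*} [AddCommGroup A] [Module (ZMod 2) A] (B : List X → List X → A)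
    (a : List X) : ext (sp B) (bdL (ZMod 2) a) =
      sp (fun p s => ext (fun p' => B p' s) (bdL (ZMod 2) p) +
        ext (fun s' => B p s') (bdL (ZMod 2) s)) a + B [] a + B a [] := by
  induction a generalizing B with
  | nil => rw [ext_bdL_nil, sp_nil, zero_add, ZModModule.add_self]
  | cons x l ih =>
    rw [ext_bdL_cons2, sp_cons]
    have e1 : ext (fun l' => sp B (x :: l')) (bdL (ZMod 2) l) =
        ext (fun l' => B [x] (x :: l')) (bdL (ZMod 2) l) +
          ext (sp fun p s => B (x :: p) s) (bdL (ZMod 2) l) := by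
      rw [← ext_add]
      rfl
    have e2 : sp (fun p s => ext (fun p' => B p' s) (bdL (ZMod 2) (x :: p)) +
        ext (fun s' => B (x :: p) s') (bdL (ZMod 2) s)) l = sp B l +
        sp (fun p s => ext (fun p' => B (x :: p') s) (bdL (ZMod 2) p) +
        ext (fun s' => B (x :: p) s') (bdL (ZMod 2) s)) l := by
      rw [← sp_add]
      refine sp_congr fun p s _ => ?_
      rw [ext_bdL_cons2, add_assoc]
    have e3 : ext (fun p' => B p' (x :: l)) (bdL (ZMod 2) [x]) = B [] (x :: l) := by
      rw [ext_bdL_cons2, ext_bdL_nil, add_zero]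
    have e4 : ext (fun s' => B [x] s') (bdL (ZMod 2) (x :: l)) =
        B [x] l + ext (fun l' => B [x] (x :: l')) (bdL (ZMod 2) l) := ext_bdL_cons2 _ _ _
    rw [e1, ih, e2, e3, e4]
    have e5 : B [] (x :: l) + B [] (x :: l) = 0 := ZModModule.add_self _
    generalize B [] (x :: l) = b0 at *
    generalize sp (fun p s => ext (fun p' => B (x :: p') s) (bdL (ZMod 2) p) +
        ext (fun s' => B (x :: p) s') (bdL (ZMod 2) s)) l = b1
    generalize ext (fun l' => B [x] (x :: l')) (bdL (ZMod 2) l) = b2
    calc sp B l + (b2 + (b1 + B [x] l + B (x :: l) []))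
        = (b0 + b0) + sp B l + (b2 + (b1 + B [x] l + B (x :: l) [])) := by rw [e5, zero_add]
      _ = _ := by abel

theorem bd_capS (θ : List X → ZMod 2) (y : List X) : bd (capS θ y) =
    ext (capS θ) (bdL (ZMod 2) y) + capS (fun l => ext θ (bdL (ZMod 2) l)) y +
      Finsupp.single y (θ []) + Finsupp.single [] (θ y) := by
  have h := ext_sp (A := Ch (ZMod 2) X) (fun p s => Finsupp.single s (θ p)) y
  have e1 : sp (fun p s => ext (fun p' => (Finsupp.single s (θ p') : Ch (ZMod 2) X))
      (bdL (ZMod 2) p) + ext (fun s' => (Finsupp.single s' (θ p) : Ch (ZMod 2) X))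
      (bdL (ZMod 2) s)) y = capS (fun l => ext θ (bdL (ZMod 2) l)) y + bd (capS θ y) := by
    unfold capS
    rw [← LinearMap.toAddMonoidHom_coe (bd (k := ZMod 2) (X := X)), ← sp_map, ← sp_add]
    refine sp_congr fun p s _ => ?_
    congr 1
    · exact ext_map (Finsupp.lsingle s : ZMod 2 →ₗ[ZMod 2] Ch (ZMod 2) X) θ _
    · rw [LinearMap.toAddMonoidHom_coe, bd_single, ext_single_const]
  rw [e1] at h
  change ext (capS θ) (bdL (ZMod 2) y) = _ at h
  have e3 : ∀ x : Ch (ZMod 2) X, x + x = 0 := fun x => ZModModule.add_self x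
  rw [h]
  generalize capS (fun l => ext θ (bdL (ZMod 2) l)) y = b1
  calc bd (capS θ y) = (b1 + b1) + (Finsupp.single y (θ []) + Finsupp.single y (θ [])) +
        (Finsupp.single [] (θ y) + Finsupp.single [] (θ y)) + bd (capS θ y) := by
        simp only [e3, zero_add]
    _ = _ := by abel

theorem bd_capL (ω : List X → ZMod 2) (y : List X) : bd (capL ω y) =
    ext (capL ω) (bdL (ZMod 2) y) + capL (fun l => ext ω (bdL (ZMod 2) l)) y +
      Finsupp.single [] (ω y) + Finsupp.single y (ω []) := by
  have h := ext_sp (A := Ch (ZMod 2) X) (fun p s => Finsupp.single p (ω s)) y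
  have e1 : sp (fun p s => ext (fun p' => (Finsupp.single p' (ω s) : Ch (ZMod 2) X))
      (bdL (ZMod 2) p) + ext (fun s' => (Finsupp.single p (ω s') : Ch (ZMod 2) X))
      (bdL (ZMod 2) s)) y = bd (capL ω y) + capL (fun l => ext ω (bdL (ZMod 2) l)) y := by
    unfold capL
    rw [← LinearMap.toAddMonoidHom_coe (bd (k := ZMod 2) (X := X)), ← sp_map, ← sp_add]
    refine sp_congr fun p s _ => ?_
    congr 1
    · rw [LinearMap.toAddMonoidHom_coe, bd_single, ext_single_const]
    · exact ext_map (Finsupp.lsingle p : ZMod 2 →ₗ[ZMod 2] Ch (ZMod 2) X) ω _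
  rw [e1] at h
  change ext (capL ω) (bdL (ZMod 2) y) = _ at h
  have e3 : ∀ x : Ch (ZMod 2) X, x + x = 0 := fun x => ZModModule.add_self x
  rw [h]
  generalize capL (fun l => ext ω (bdL (ZMod 2) l)) y = b1
  calc bd (capL ω y) = (b1 + b1) + (Finsupp.single y (ω []) + Finsupp.single y (ω [])) +
        (Finsupp.single [] (ω y) + Finsupp.single [] (ω y)) + bd (capL ω y) := by
        simp only [e3, zero_add]
    _ = _ := by abel

theorem bd_ext_capS (θ : List X → ZMod 2) (μ : Ch (ZMod 2) X) : bd (ext (capS θ) μ) =
    ext (capS θ) (bd μ) + ext (capS fun l => ext θ (bdL (ZMod 2) l)) μ + θ [] • μ +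
      Finsupp.single [] (ext θ μ) := by
  rw [← ext_map bd (capS θ) μ]
  have h : (fun l : List X => bd (capS θ l)) = fun y => ((ext (capS θ) (bdL (ZMod 2) y) +
      capS (fun l => ext θ (bdL (ZMod 2) l)) y) + Finsupp.single y (θ [])) +
      Finsupp.single [] (θ y) := funext fun y => bd_capS θ y
  rw [h, ext_add, ext_add, ext_add, ext_single_const]
  have h1 : ext (fun l => ext (capS θ) (bdL (ZMod 2) l)) μ = ext (capS θ) (bd μ) := by
    rw [bd]
    generalize (ext (capS θ) : Ch (ZMod 2) X →ₗ[ZMod 2] Ch (ZMod 2) X) = L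
    exact ext_map L (bdL (ZMod 2)) μ
  have h2 := ext_map (Finsupp.lsingle ([] : List X) : ZMod 2 →ₗ[ZMod 2] Ch (ZMod 2) X) θ μ
  simp only [Finsupp.lsingle_apply] at h2
  rw [h1, h2]

theorem bd_ext_capL (ω : List X → ZMod 2) (μ : Ch (ZMod 2) X) : bd (ext (capL ω) μ) =
    ext (capL ω) (bd μ) + ext (capL fun l => ext ω (bdL (ZMod 2) l)) μ +
      Finsupp.single [] (ext ω μ) + ω [] • μ := by
  rw [← ext_map bd (capL ω) μ]
  have h : (fun l : List X => bd (capL ω l)) = fun y => ((ext (capL ω) (bdL (ZMod 2) y) +
      capL (fun l => ext ω (bdL (ZMod 2) l)) y) + Finsupp.single [] (ω y)) +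
      Finsupp.single y (ω []) := funext fun y => bd_capL ω y
  rw [h, ext_add, ext_add, ext_add, ext_single_const]
  have h1 : ext (fun l => ext (capL ω) (bdL (ZMod 2) l)) μ = ext (capL ω) (bd μ) := by
    rw [bd]
    generalize (ext (capL ω) : Ch (ZMod 2) X →ₗ[ZMod 2] Ch (ZMod 2) X) = L
    exact ext_map L (bdL (ZMod 2)) μ
  have h2 := ext_map (Finsupp.lsingle ([] : List X) : ZMod 2 →ₗ[ZMod 2] Ch (ZMod 2) X) ω μ
  simp only [Finsupp.lsingle_apply] at h2
  rw [h1, h2]

/-- the lists of `capS θ y`: `p ++ x :: s = y` with `θ (p ++ [x]) ≠ 0`, list `x :: s` -/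
theorem sup_capS (θ : List X → ZMod 2) (y : List X) :
    Sup (fun l => ∃ p x s, y = p ++ x :: s ∧ l = x :: s ∧ θ (p ++ [x]) ≠ 0) (capS θ y) := by
  classical
  refine sup_sp fun p s hc l hl => ?_
  have h1 := Finsupp.support_single_subset hl
  rw [Finset.mem_singleton] at h1
  subst h1
  obtain ⟨q, x, r, e1, e2, e3⟩ := hc.split
  refine ⟨q, x, r, e1, e3, fun h0 => ?_⟩
  rw [e2, h0, Finsupp.single_zero] at hl
  simp at hl

theorem sup_capL (ω : List X → ZMod 2) (y : List X) :
    Sup (fun l => ∃ p x s, y = p ++ x :: s ∧ l = p ++ [x] ∧ ω (x :: s) ≠ 0) (capL ω y) := by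
  classical
  refine sup_sp fun p s hc l hl => ?_
  have h1 := Finsupp.support_single_subset hl
  rw [Finset.mem_singleton] at h1
  subst h1
  obtain ⟨q, x, r, e1, e2, e3⟩ := hc.split
  refine ⟨q, x, r, e1, e2, fun h0 => ?_⟩
  rw [e3, h0, Finsupp.single_zero] at hl
  simp at hl

/-- if `θ` lives on lists of length `q+1` only one term is left -/
theorem capS_eq (θ : List X → ZMod 2) (q : ℕ) (hθ : ∀ l, θ l ≠ 0 → l.length = q + 1)
    (y : List X) (hy : q < y.length) :
    capS θ y = Finsupp.single (y.drop q) (θ (y.take (q + 1))) := by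
  unfold capS
  rw [sp_eq, Finset.sum_eq_single q]
  · intro i hi hne
    rw [Finset.mem_range] at hi
    have h : θ (y.take (i + 1)) = 0 := by
      by_contra h0
      have h1 := hθ _ h0
      rw [List.length_take] at h1
      omega
    rw [h, Finsupp.single_zero]
  · intro h
    exact absurd (Finset.mem_range.2 hy) h

theorem capL_eq (ω : List X → ZMod 2) (q : ℕ) (y : List X) (hq : q < y.length)
    (hω : ∀ l, ω l ≠ 0 → l.length + q = y.length) :
    capL ω y = Finsupp.single (y.take (q + 1)) (ω (y.drop q)) := by
  unfold capL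
  rw [sp_eq, Finset.sum_eq_single q]
  · intro i hi hne
    rw [Finset.mem_range] at hi
    have h : ω (y.drop i) = 0 := by
      by_contra h0
      have h1 := hω _ h0
      rw [List.length_drop] at h1
      omega
    rw [h, Finsupp.single_zero]
  · intro h
    exact absurd (Finset.mem_range.2 hq) h

theorem pf_capS (f : X → Y) (θ : List Y → ZMod 2) (y : List X) :
    pf f (capS (fun l => θ (l.map f)) y) = capS θ (y.map f) := by
  unfold capS
  rw [sp_list_map, ← LinearMap.toAddMonoidHom_coe (pf (k := ZMod 2) f), ← sp_map]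
  refine sp_congr fun p s _ => ?_
  rw [LinearMap.toAddMonoidHom_coe, pf_single]

theorem pf_capL (f : X → Y) (ω : List Y → ZMod 2) (y : List X) :
    pf f (capL (fun l => ω (l.map f)) y) = capL ω (y.map f) := by
  unfold capL
  rw [sp_list_map, ← LinearMap.toAddMonoidHom_coe (pf (k := ZMod 2) f), ← sp_map]
  refine sp_congr fun p s _ => ?_
  rw [LinearMap.toAddMonoidHom_coe, pf_single]

end M2

end Vale.Agent.P239.M
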