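import Vale.Agent.P239.S.M_Sup
import Vale.Agent.P239.S.M_Sp
import Vale.Agent.P239.S.M_Ker
import Vale.Agent.P239.S.M_Box

/-!
Block M6: charts.
-/

namespace Vale.Agent.P239.M

open Metric Set Topology

section M6

variable {X : Type*} [MetricSpace X] {n : ℕ} {β : (Fin n → ℝ) → X}

theorem Chart.ext_pf {k : Type*} [CommRing k] {X Y A : Type*} [AddCommGroup A] [Module k A] (f : X → Y)
    (u : List Y → A) (c : Ch k X) : ext u (pf f c) = ext (fun l => u (l.map f)) c := by
  simp only [pf, Finsupp.lmapDomain_apply]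
  rw [Finsupp.linearCombination_mapDomain]
  rfl

theorem Chart.isCompact_Q (n : ℕ) (r : ℝ) : IsCompact (Q n r) := isCompact_closedBall _ _

omit [MetricSpace X] in
theorem Chart.exists_map {A : Set (Fin n → ℝ)} {l : List X} (h : In (β '' A) l) :
    ∃ l' : List (Fin n → ℝ), In A l' ∧ l = l'.map β := by
  induction l with
  | nil => exact ⟨[], by intro x hx; simp at hx, rfl⟩
  | cons x l ih =>
    obtain ⟨u, hu, rfl⟩ := h x (List.mem_cons_self)
    obtain ⟨l', hl', rfl⟩ := ih fun y hy => h y (List.mem_cons_of_mem _ hy)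
    refine ⟨u :: l', ?_, rfl⟩
    intro y hy
    rcases List.mem_cons.1 hy with rfl | hy
    · exact hu
    · exact hl' y hy

omit [MetricSpace X] in
theorem Chart.in_map {A : Set (Fin n → ℝ)} {l : List (Fin n → ℝ)} (h : In A l) :
    In (β '' A) (l.map β) := by
  intro x hx
  obtain ⟨u, hu, rfl⟩ := List.mem_map.1 hx
  exact ⟨u, h u hu, rfl⟩

theorem chart_unif (hβ : IsOpenEmbedding β) (R : ℝ) {κ : ℝ} (hκ : 0 < κ) :
    ∃ κ' > 0, ∀ u ∈ Q n R, ∀ v ∈ Q n R, dist u v < κ' → dist (β u) (β v) < κ := by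
  have h := (Chart.isCompact_Q n R).uniformContinuousOn_of_continuous
    hβ.continuous.continuousOn
  obtain ⟨δ, hδ, h⟩ := Metric.uniformContinuousOn_iff.1 h κ hκ
  exact ⟨δ, hδ, fun u hu v hv => h u hu v hv⟩

theorem Chart.inv (hβ : IsOpenEmbedding β) (R : ℝ) {κ : ℝ} (hκ : 0 < κ) :
    ∃ κ' > 0, ∀ u ∈ Q n R, ∀ v ∈ Q n R, dist (β u) (β v) < κ' → dist u v < κ := by
  let K : Set ((Fin n → ℝ) × (Fin n → ℝ)) := (Q n R ×ˢ Q n R) ∩ {w | κ ≤ dist w.1 w.2}
  have hK : IsCompact K := ((Chart.isCompact_Q n R).prod (Chart.isCompact_Q n R)).inter_right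
    (isClosed_le continuous_const continuous_dist)
  have hf : Continuous fun w : (Fin n → ℝ) × (Fin n → ℝ) => dist (β w.1) (β w.2) :=
    (hβ.continuous.comp continuous_fst).dist (hβ.continuous.comp continuous_snd)
  rcases K.eq_empty_or_nonempty with hE | hN
  · refine ⟨1, one_pos, fun u hu v hv _ => ?_⟩
    by_contra hcon
    have : (u, v) ∈ K := ⟨⟨hu, hv⟩, not_lt.1 hcon⟩
    rw [hE] at this
    exact this
  · obtain ⟨w, hw, hmin⟩ := hK.exists_isMinOn hN hf.continuousOn
    refine ⟨dist (β w.1) (β w.2), ?_, fun u hu v hv huv => ?_⟩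
    · rw [gt_iff_lt, dist_pos]
      intro h
      have h1 : w.1 = w.2 := hβ.injective h
      have h2 : κ ≤ dist w.1 w.2 := hw.2
      rw [h1, dist_self] at h2
      linarith
    · by_contra hcon
      have : (u, v) ∈ K := ⟨⟨hu, hv⟩, not_lt.1 hcon⟩
      have h3 := hmin this
      simp only [mem_ofPred_eq] at h3
      linarith

theorem chart_mod (hβ : IsOpenEmbedding β) {r R : ℝ} (h : r < R) {κ : ℝ} (hκ : 0 < κ) :
    ∃ κ' > 0, ∀ u ∈ Q n r, ∀ y : X, dist (β u) y < κ' → ∃ v ∈ Q n R, β v = y ∧ dist u v < κ := by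
  obtain ⟨κ₁, h1, hinv⟩ := Chart.inv hβ R hκ
  have hsub : β '' Q n r ⊆ β '' ball 0 R := image_mono (closedBall_subset_ball h)
  obtain ⟨κ₂, h2, hth⟩ := ((Chart.isCompact_Q n r).image hβ.continuous).exists_thickening_subset_open
    (hβ.isOpenMap _ isOpen_ball) hsub
  refine ⟨min κ₁ κ₂, lt_min h1 h2, fun u hu y hy => ?_⟩
  have hy' : y ∈ thickening κ₂ (β '' Q n r) := by
    rw [mem_thickening_iff]
    exact ⟨β u, mem_image_of_mem _ hu, by rw [dist_comm]; exact hy.trans_le (min_le_right _ _)⟩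
  obtain ⟨v, hv, rfl⟩ := hth hy'
  have hv' : v ∈ Q n R := ball_subset_closedBall hv
  exact ⟨v, hv', rfl, hinv u (closedBall_subset_closedBall h.le hu) v hv'
    (hy.trans_le (min_le_left _ _))⟩

theorem co_apply (hβ : IsOpenEmbedding β) (i : Fin n) (u : Fin n → ℝ) : co β i (β u) = u i := by
  rw [co, Function.leftInverse_invFun hβ.injective u]

theorem KerC_map (hβ : IsOpenEmbedding β) (a b : List (Fin n → ℝ)) :
    KerC β (a.map β) (b.map β) = Ker (crd n) a b := by
  rw [KerC, Ker_comap, List.map_map, crd]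
  congr 1
  apply List.map_congr_left
  intro i _
  funext u
  exact co_apply hβ i u

theorem KerC_bd (_hβ : IsOpenEmbedding β) (a b : List X) :
    ext (fun a' => KerC β a' b) (bdL (ZMod 2) a) =
      ext (fun b' => KerC β a b') (bdL (ZMod 2) b) := Ker_bd _ a b

theorem Chart.mem_crd (i : Fin n) : (fun y : Fin n → ℝ => y i) ∈ crd n :=
  List.mem_map.2 ⟨i, List.mem_finRange i, rfl⟩

/-- coordinate locality -/
theorem Chart.Ker_crd_local {a b : List (Fin n → ℝ)} (h : Ker (crd n) a b ≠ 0) {κ κ' : ℝ}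
    (hκ : 0 ≤ κ + κ')
    (ha : ∀ x ∈ a, ∀ x' ∈ a, dist x x' ≤ κ) (hb : ∀ y ∈ b, ∀ y' ∈ b, dist y y' ≤ κ') :
    ∀ x ∈ a, ∀ y ∈ b, dist x y ≤ κ + κ' := by
  intro x hx y hy
  rw [dist_pi_le_iff hκ]
  intro i
  rw [Real.dist_eq]
  exact Ker_local (crd n) a b h _ (Chart.mem_crd i)
    (fun x hx x' hx' => by
      rw [← Real.dist_eq]; exact (dist_le_pi_dist x x' i).trans (ha x hx x' hx'))
    (fun y hy y' hy' => by
      rw [← Real.dist_eq]; exact (dist_le_pi_dist y y' i).trans (hb y hy y' hy')) x hx y hy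

/-- locality in the metric of `X` -/
theorem KerC_local (hβ : IsOpenEmbedding β) {κ : ℝ} (hκ : 0 < κ) : ∃ κ' > 0, ∀ a b : List X,
    Sm κ' a → Sm κ' b → In (β '' Q n 8) a → In (β '' Q n 8) b → KerC β a b ≠ 0 →
      ∀ x ∈ a, ∀ y ∈ b, dist x y < κ := by
  obtain ⟨κ₁, h1, hu⟩ := chart_unif hβ 8 hκ
  obtain ⟨κ₂, h2, hi⟩ := Chart.inv hβ 8 (half_pos (half_pos h1))
  refine ⟨κ₂, h2, fun a b ha hb hIa hIb hne => ?_⟩
  obtain ⟨a, hIa', rfl⟩ := Chart.exists_map hIa
  obtain ⟨b, hIb', rfl⟩ := Chart.exists_map hIb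
  rw [KerC_map hβ] at hne
  have hloc := Chart.Ker_crd_local hne (κ := κ₁ / 2 / 2) (κ' := κ₁ / 2 / 2) (by positivity)
    (fun x hx x' hx' => (hi x (hIa' x hx) x' (hIa' x' hx')
      (ha _ (List.mem_map_of_mem hx) _ (List.mem_map_of_mem hx'))).le)
    (fun x hx x' hx' => (hi x (hIb' x hx) x' (hIb' x' hx')
      (hb _ (List.mem_map_of_mem hx) _ (List.mem_map_of_mem hx'))).le)
  intro x hx y hy
  obtain ⟨u, hu', rfl⟩ := List.mem_map.1 hx
  obtain ⟨v, hv', rfl⟩ := List.mem_map.1 hy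
  refine hu u (hIa' u hu') v (hIb' v hv') ?_
  have := hloc u hu' v hv'
  linarith

/-- fundamental chain of the chart -/
theorem sup_muC (hβ : IsOpenEmbedding β) {κ : ℝ} (hκ : 0 < κ) : ∃ N₀ : ℕ, ∀ N ≥ N₀,
    Sup (fun l => l.length = n + 1 ∧ Sm κ l ∧ In (β '' Q n 9) l) (muC β N) := by
  obtain ⟨κ₁, h1, hu⟩ := chart_unif hβ 9 hκ
  obtain ⟨N₁, hN₁⟩ := exists_nat_gt (18 / κ₁)
  refine ⟨N₁ + 1, fun N hN => ?_⟩
  have hN0 : 0 < N := by omega
  refine Sup.pf β ((sup_box n N hN0).mono ?_)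
  rintro l ⟨hl, hI, hd⟩
  refine ⟨by rw [List.length_map, hl], ?_, Chart.in_map hI⟩
  intro x hx y hy
  obtain ⟨u, hu', rfl⟩ := List.mem_map.1 hx
  obtain ⟨v, hv', rfl⟩ := List.mem_map.1 hy
  refine hu u (hI u hu') v (hI v hv') ((hd u hu' v hv').trans_lt ?_)
  have hNR : (0 : ℝ) < N := by exact_mod_cast hN0
  have hN1R : 18 / κ₁ < N := hN₁.trans (by exact_mod_cast (by omega : N₁ < N))
  rw [div_lt_iff₀ h1] at hN1R
  rw [div_lt_iff₀ hNR]
  linarith

theorem sup_bd_muC (hβ : IsOpenEmbedding β) (hn : 0 < n) (N : ℕ) (hN : 0 < N) :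
    Sup (fun l => ∃ i : Fin n, (∀ x ∈ l, co β i x = -9) ∨ (∀ x ∈ l, co β i x = 9))
      (bd (muC β N)) := by
  rw [muC, bd_pf]
  refine Sup.pf β ((sup_bd_box n N hn hN).mono ?_)
  rintro l ⟨i, h | h⟩
  · refine ⟨i, Or.inl fun x hx => ?_⟩
    obtain ⟨u, hu, rfl⟩ := List.mem_map.1 hx
    rw [co_apply hβ, h u hu]
  · refine ⟨i, Or.inr fun x hx => ?_⟩
    obtain ⟨u, hu, rfl⟩ := List.mem_map.1 hx
    rw [co_apply hβ, h u hu]

theorem Chart.abs_le_of_mem_Q {r : ℝ} {u : Fin n → ℝ} (hu : u ∈ Q n r) (i : Fin n) : |u i| ≤ r := by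
  have h := (dist_le_pi_dist u 0 i).trans (mem_closedBall.1 hu)
  rwa [Real.dist_eq, Pi.zero_apply, sub_zero] at h

theorem bd_muC_far (hβ : IsOpenEmbedding β) (hn : 0 < n) (N : ℕ) (hN : 0 < N) :
    Sup (fun l => ∀ x ∈ l, x ∉ β '' Q n 8) (bd (muC β N)) := by
  refine (sup_bd_muC hβ hn N hN).mono ?_
  rintro l ⟨i, h⟩ x hx ⟨u, hu, rfl⟩
  have h8 := abs_le.1 (Chart.abs_le_of_mem_Q hu i)
  rcases h with h | h
  · have := h _ hx
    rw [co_apply hβ] at this
    linarith [h8.1]
  · have := h _ hx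
    rw [co_apply hβ] at this
    linarith [h8.2]

theorem muC_right (hβ : IsOpenEmbedding β) (N : ℕ) (hN : 0 < N) (x : X)
    (hx : x ∈ β '' Q n 8) : ext (fun l => KerC β l [x]) (muC β N) = 1 := by
  obtain ⟨u, hu, rfl⟩ := hx
  rw [muC, Chart.ext_pf, ← box_right n N hN u hu]
  congr 1
  have : (fun l : List (Fin n → ℝ) => KerC β (l.map β) [β u]) =
      fun l => Ker (crd n) l [u] := by
    funext l
    exact KerC_map hβ l [u]
  rw [this]

theorem muC_left (hβ : IsOpenEmbedding β) (N : ℕ) (hN : 0 < N) (x : X)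
    (hx : x ∈ β '' Q n 8) : ext (fun l => KerC β [x] l) (muC β N) = 1 := by
  obtain ⟨u, hu, rfl⟩ := hx
  rw [muC, Chart.ext_pf, ← box_left n N hN u hu]
  congr 1
  have : (fun l : List (Fin n → ℝ) => KerC β [β u] (l.map β)) =
      fun l => Ker (crd n) [u] l := by
    funext l
    exact KerC_map hβ [u] l
  rw [this]

theorem Chart.mem_image_iff (hβ : IsOpenEmbedding β) {A : Set (Fin n → ℝ)} {u : Fin n → ℝ} :
    β u ∈ β '' A ↔ u ∈ A := hβ.injective.mem_set_image

theorem Chart.in_map_iff (hβ : IsOpenEmbedding β) {A : Set (Fin n → ℝ)} {l : List (Fin n → ℝ)} :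
    In (β '' A) (l.map β) ↔ In A l := by
  constructor
  · intro h u hu
    exact (Chart.mem_image_iff hβ).1 (h _ (List.mem_map_of_mem hu))
  · exact Chart.in_map

theorem dg_muC (hβ : IsOpenEmbedding β) : ∃ N₀ : ℕ, ∀ N ≥ N₀, ∀ x ∈ β '' Q n 7,
    dg β (muC β N) x = 1 ∧ dg' β (muC β N) x = 1 := by
  classical
  refine ⟨19, fun N hN x hx => ?_⟩
  obtain ⟨u, hu, rfl⟩ := hx
  have hN0 : 0 < N := by omega
  have hu8 : u ∈ Q n 8 := closedBall_subset_closedBall (by norm_num) hu
  have hNR : (18 : ℝ) / N < 1 := by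
    have : (18 : ℝ) < N := by exact_mod_cast (by omega : 18 < N)
    rw [div_lt_one (by linarith)]; exact this
  have hne : ∀ l : List (Fin n → ℝ), (∀ v ∈ l, ∀ w ∈ l, dist v w ≤ 18 / N) → ¬ In (Q n 8) l →
      Ker (crd n) l [u] = 0 ∧ Ker (crd n) [u] l = 0 := by
    intro l hd hI
    obtain ⟨v, hv, hv8⟩ : ∃ v ∈ l, v ∉ Q n 8 := by
      by_contra hcon
      push Not at hcon
      exact hI hcon
    have hfar : 18 / (N : ℝ) + 0 < dist v u := by
      rw [mem_closedBall, not_le] at hv8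
      have h1 := mem_closedBall.1 hu
      have := dist_triangle v u 0
      linarith
    constructor
    · by_contra h0
      have := Chart.Ker_crd_local h0 (κ := 18 / N) (κ' := 0) (by positivity) hd
        (by intro y hy y' hy'; rw [List.mem_singleton.1 hy, List.mem_singleton.1 hy', dist_self])
        v hv u (by simp)
      linarith
    · by_contra h0
      have := Chart.Ker_crd_local h0 (κ := 0) (κ' := 18 / N) (by positivity)
        (by intro y hy y' hy'; rw [List.mem_singleton.1 hy, List.mem_singleton.1 hy', dist_self])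
        hd u (by simp) v hv
      rw [dist_comm] at this
      linarith
  constructor
  · rw [dg, muC, Chart.ext_pf, ← box_right n N hN0 u hu8]
    refine ext_congr (sup_box n N hN0) ?_
    rintro l ⟨-, -, hd⟩
    split_ifs with hI
    · exact KerC_map hβ l [u]
    · exact (hne l hd fun h => hI (Chart.in_map h)).1.symm
  · rw [dg', muC, Chart.ext_pf, ← box_left n N hN0 u hu8]
    refine ext_congr (sup_box n N hN0) ?_
    rintro l ⟨-, -, hd⟩
    split_ifs with hI
    · exact KerC_map hβ [u] l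
    · exact (hne l hd fun h => hI (Chart.in_map h)).2.symm

/-- boundaries have degree zero -/
theorem dg_bd (hβ : IsOpenEmbedding β) : ∃ κ > 0, ∀ e : Ch (ZMod 2) X, Sup (Sm κ) e →
    ∀ x ∈ β '' Q n 7, dg β (bd e) x = 0 ∧ dg' β (bd e) x = 0 := by
  classical
  obtain ⟨κ₁, h1, hmod⟩ := chart_mod hβ (show (15 / 2 : ℝ) < 8 by norm_num) one_pos
  obtain ⟨κ₂, h2, hi⟩ := Chart.inv hβ 8 (show (0 : ℝ) < 1 / 4 by norm_num)
  refine ⟨min κ₁ κ₂, lt_min h1 h2, fun e he x hx => ?_⟩
  obtain ⟨u, hu, rfl⟩ := hx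
  have hu7 := mem_closedBall.1 hu
  -- a list which is not contained in the big box has no face seeing `u`
  have hout : ∀ t : List X, Sm (min κ₁ κ₂) t → ¬ In (β '' Q n 8) t → ∀ l : List X,
      l.Sublist t → In (β '' Q n 8) l → KerC β l [β u] = 0 ∧ KerC β [β u] l = 0 := by
    intro t ht hIt l hl hIl
    obtain ⟨l, hIl', rfl⟩ := Chart.exists_map hIl
    have hd : ∀ v ∈ l, ∀ w ∈ l, dist v w ≤ 1 / 4 := fun v hv w hw =>
      (hi v (hIl' v hv) w (hIl' w hw) ((ht _ (hl.subset (List.mem_map_of_mem hv)) _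
        (hl.subset (List.mem_map_of_mem hw))).trans_le (min_le_right _ _))).le
    have hs : ∀ y ∈ [u], ∀ y' ∈ [u], dist y y' ≤ 0 := by
      intro y hy y' hy'
      rw [List.mem_singleton.1 hy, List.mem_singleton.1 hy', dist_self]
    -- entries near `u` would force the whole list into the box
    have hcon : ∀ v ∈ l, dist v u ≤ 1 / 4 → False := by
      intro v hv hvu
      apply hIt
      intro y hy
      have hv2 : v ∈ Q n (15 / 2) := by
        rw [mem_closedBall]
        have := dist_triangle v u 0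
        linarith
      obtain ⟨w, hw, hwy, -⟩ := hmod v hv2 y ((ht _ (hl.subset (List.mem_map_of_mem hv)) y hy).trans_le
        (min_le_left _ _))
      exact ⟨w, hw, hwy⟩
    rw [← List.map_singleton, KerC_map hβ, KerC_map hβ]
    rcases l with _ | ⟨v, l⟩
    · exact ⟨Ker_nil_left _ _, Ker_nil_right _ _⟩
    · constructor
      · by_contra h0
        have := Chart.Ker_crd_local h0 (κ := 1 / 4) (κ' := 0) (by norm_num) hd hs v
          List.mem_cons_self u (by simp)
        exact hcon v List.mem_cons_self (by linarith)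
      · by_contra h0
        have := Chart.Ker_crd_local h0 (κ := 0) (κ' := 1 / 4) (by norm_num) hs hd u (by simp) v
          List.mem_cons_self
        exact hcon v List.mem_cons_self (by rw [dist_comm]; linarith)
  have hface : ∀ (t : List X) (P : List X → ZMod 2) , (∀ l, l.Sublist t → P l = 0) →
      ext P (bdL (ZMod 2) t) = 0 := by
    intro t P hP
    have h := ext_congr (v := fun _ : List X => (0 : ZMod 2)) (sup_bdL (k := ZMod 2) t)
      (u := P) (fun l hl => hP l hl.1)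
    rw [h]
    simp [Finsupp.linearCombination_apply]
  have hsing : bdL (ZMod 2) [β u] = Finsupp.single [] 1 := by
    simp [bdL]
  constructor
  · rw [dg, ext_bdL]
    have h := ext_congr (v := fun _ : List X => (0 : ZMod 2)) he (u := fun t =>
      ext (fun l => if In (β '' Q n 8) l then KerC β l [β u] else 0) (bdL (ZMod 2) t)) ?_
    · rw [h]; simp [Finsupp.linearCombination_apply]
    intro t ht
    by_cases hI : In (β '' Q n 8) t
    · have h1 : ext (fun l => if In (β '' Q n 8) l then KerC β l [β u] else 0)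
          (bdL (ZMod 2) t) = ext (fun l => KerC β l [β u]) (bdL (ZMod 2) t) :=
        ext_congr (sup_bdL (k := ZMod 2) t) fun l hl =>
          if_pos fun x hx => hI x (hl.1.subset hx)
      simp only [h1]
      rw [KerC_bd hβ, hsing, Finsupp.linearCombination_single, one_smul]
      exact Ker_nil_right _ _
    · refine hface t _ fun l hl => ?_
      split_ifs with hIl
      · exact (hout t ht hI l hl hIl).1
      · rfl
  · rw [dg', ext_bdL]
    have h := ext_congr (v := fun _ : List X => (0 : ZMod 2)) he (u := fun t =>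
      ext (fun l => if In (β '' Q n 8) l then KerC β [β u] l else 0) (bdL (ZMod 2) t)) ?_
    · rw [h]; simp [Finsupp.linearCombination_apply]
    intro t ht
    by_cases hI : In (β '' Q n 8) t
    · have h1 : ext (fun l => if In (β '' Q n 8) l then KerC β [β u] l else 0)
          (bdL (ZMod 2) t) = ext (fun l => KerC β [β u] l) (bdL (ZMod 2) t) :=
        ext_congr (sup_bdL (k := ZMod 2) t) fun l hl =>
          if_pos fun x hx => hI x (hl.1.subset hx)
      simp only [h1]
      rw [← KerC_bd hβ [β u] t, hsing, Finsupp.linearCombination_single, one_smul]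
      exact Ker_nil_left _ _
    · refine hface t _ fun l hl => ?_
      split_ifs with hIl
      · exact (hout t ht hI l hl hIl).2
      · rfl

/-- the degree only sees lists near `x` -/
theorem dg_far (hβ : IsOpenEmbedding β) {ρ : ℝ} (hρ : 0 < ρ) : ∃ κ > 0,
    ∀ c : Ch (ZMod 2) X, ∀ x ∈ β '' Q n 7,
      Sup (fun l => Sm κ l ∧ ∃ y ∈ l, ρ ≤ dist x y) c → dg β c x = 0 ∧ dg' β c x = 0 := by
  classical
  obtain ⟨κ, hκ, hloc⟩ := KerC_local hβ hρ
  refine ⟨κ, hκ, fun c x hx hc => ?_⟩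
  have hx8 : In (β '' Q n 8) [x] := by
    intro y hy
    rw [List.mem_singleton.1 hy]
    exact image_mono (closedBall_subset_closedBall (by norm_num)) hx
  have hxs : Sm κ [x] := by
    intro y hy z hz
    rw [List.mem_singleton.1 hy, List.mem_singleton.1 hz, dist_self]; exact hκ
  constructor
  · have h := ext_congr (v := fun _ : List X => (0 : ZMod 2)) hc (u := fun l =>
      if In (β '' Q n 8) l then KerC β l [x] else 0) ?_
    · rw [dg, h]; simp [Finsupp.linearCombination_apply]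
    rintro l ⟨hs, y, hy, hρy⟩
    split_ifs with hI
    · by_contra h0
      have := hloc l [x] hs hxs hI hx8 h0 y hy x (by simp)
      rw [dist_comm] at this
      linarith
    · rfl
  · have h := ext_congr (v := fun _ : List X => (0 : ZMod 2)) hc (u := fun l =>
      if In (β '' Q n 8) l then KerC β [x] l else 0) ?_
    · rw [dg', h]; simp [Finsupp.linearCombination_apply]
    rintro l ⟨hs, y, hy, hρy⟩
    split_ifs with hI
    · by_contra h0
      have := hloc [x] l hxs hs hx8 hI h0 x (by simp) y hy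
      linarith
    · rfl

end M6

end Vale.Agent.P239.M
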