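import Vale.Agent.P239.S.M_Sup
import Vale.Agent.P239.S.M_Chart

/-!
Module M, block M9: fundamental chains of a finite atlas.
-/

namespace Vale.Agent.P239.M

open Metric Set Topology
open scoped unitInterval

section Fund

variable {X : Type*}

theorem fund_min {m : ℕ} (f : Fin m → ℝ) (hf : ∀ a, 0 < f a) : ∃ κ > 0, ∀ a, κ ≤ f a := by
  classical
  have key : ∀ s : Finset (Fin m), ∃ κ > 0, ∀ a ∈ s, κ ≤ f a := by
    intro s
    induction s using Finset.induction_on with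
    | empty => exact ⟨1, one_pos, fun a ha => by simp at ha⟩
    | insert b s _ ih =>
      obtain ⟨κ, hκ, h⟩ := ih
      refine ⟨min κ (f b), lt_min hκ (hf b), fun a ha => ?_⟩
      rcases Finset.mem_insert.1 ha with rfl | ha
      · exact min_le_right _ _
      · exact (min_le_left _ _).trans (h a ha)
  obtain ⟨κ, hκ, h⟩ := key Finset.univ
  exact ⟨κ, hκ, fun a => h a (Finset.mem_univ a)⟩

theorem fund_max {m : ℕ} (f : Fin m → ℕ) : ∃ N, ∀ a, f a ≤ N :=
  ⟨∑ a, f a, fun a => Finset.single_le_sum (f := f) (fun _ _ => Nat.zero_le _) (Finset.mem_univ a)⟩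

theorem fund_self (v : Ch (ZMod 2) X) : v + v = 0 := by
  ext l
  have : ∀ z : ZMod 2, z + z = 0 := by decide
  simp [this]

theorem fund_sup_filter {P R : List X → Prop} [DecidablePred R] {c : Ch (ZMod 2) X}
    (hc : Sup P c) : Sup (fun l => P l ∧ R l) (c.filter R) := by
  intro l hl
  rw [Finsupp.support_filter, Finset.mem_filter] at hl
  exact ⟨hc l hl.1, hl.2⟩

variable [MetricSpace X] {n : ℕ}

theorem fund_sm {δ ε : ℝ} (h : δ ≤ ε) {l l' : List X} (hs : l'.Sublist l) (hl : Sm δ l) :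
    Sm ε l' :=
  fun x hx y hy => (hl x (hs.subset hx) y (hs.subset hy)).trans_le h

omit [MetricSpace X] in
theorem fund_dg_add (β : (Fin n → ℝ) → X) (c d : Ch (ZMod 2) X) (x : X) :
    dg β (c + d) x = dg β c x + dg β d x := by
  unfold dg
  exact map_add _ _ _

omit [MetricSpace X] in
theorem fund_dg'_add (β : (Fin n → ℝ) → X) (c d : Ch (ZMod 2) X) (x : X) :
    dg' β (c + d) x = dg' β c x + dg' β d x := by
  unfold dg'
  exact map_add _ _ _

/-- the inductive statement -/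
def FundP {m : ℕ} (β : Fin m → (Fin n → ℝ) → X) (s : Set (Fin m)) : Prop :=
  ∃ η > 0, ∀ δ > 0, ∃ μ : Ch (ZMod 2) X, Sup (fun l => l.length = n + 1 ∧ Sm δ l) μ ∧
    Sup (fun l => ∀ a ∈ s, Far η (β a '' Q n 1) l) (bd μ) ∧
    ∀ a, ∀ x ∈ β a '' Q n 2, (∃ b ∈ s, ∃ z ∈ β b '' Q n 1, dist x z < η) →
      dg (β a) μ x = 1 ∧ dg' (β a) μ x = 1

omit [MetricSpace X] in
theorem fund_Q {r R : ℝ} (h : r ≤ R) (β : (Fin n → ℝ) → X) : β '' Q n r ⊆ β '' Q n R :=
  Set.image_mono (closedBall_subset_closedBall h)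

theorem fund_near {β : (Fin n → ℝ) → X} (hβ : IsOpenEmbedding β) {r R : ℝ} (h : r < R) :
    ∃ ρ > 0, ∀ x ∈ β '' Q n r, ∀ y, dist x y < ρ → y ∈ β '' Q n R := by
  obtain ⟨ρ, hρ, H⟩ := chart_mod hβ h one_pos
  refine ⟨ρ, hρ, ?_⟩
  rintro x ⟨u, hu, rfl⟩ y hy
  obtain ⟨v, hv, hvy, _⟩ := H u hu y hy
  exact ⟨v, hv, hvy⟩

theorem fund_step (hn : 0 < n) {m : ℕ} (β : Fin m → (Fin n → ℝ) → X)
    (hβ : ∀ a, IsOpenEmbedding (β a)) (hL : ∀ a, LD1S (β a)) (hI : ∀ a b, InvS (β a) (β b))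
    (j : Fin m) (s : Set (Fin m)) (ih : FundP β s) : FundP β (insert j s) := by
  classical
  obtain ⟨η, hη, H⟩ := ih
  obtain ⟨h1, hh1, Hh1⟩ := fund_near (hβ j) (show (1 : ℝ) < 2 by norm_num)
  obtain ⟨h, hh, h4η, h4h1⟩ : ∃ h > 0, 4 * h ≤ η ∧ 4 * h ≤ h1 :=
    ⟨min (η / 4) (h1 / 4), lt_min (by positivity) (by positivity),
      by linarith [min_le_left (η / 4) (h1 / 4)], by linarith [min_le_right (η / 4) (h1 / 4)]⟩
  have hB : ∀ x b, b ∈ β j '' Q n 1 → dist x b < 3 * h → x ∈ β j '' Q n 2 := by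
    intro x b hb hx
    refine Hh1 b hb x ?_
    rw [dist_comm]
    linarith
  refine ⟨h, hh, fun δ hδ => ?_⟩
  obtain ⟨ρ0, hρ0, Hρ0⟩ := fund_near (hβ j) (show (2 : ℝ) < 6 by norm_num)
  obtain ⟨κ1, hκ1, Hκ1⟩ := dg_far (hβ j) hρ0
  have hh2 : 0 < h / 2 := by positivity
  choose κb hκb Hκb using fun a => dg_bd (hβ a)
  choose κf hκf Hκf using fun a => dg_far (hβ a) hh2
  obtain ⟨k1, hk1, Hk1⟩ := fund_min κb hκb
  obtain ⟨k2, hk2, Hk2⟩ := fund_min κf hκf
  obtain ⟨κ', hκ', hκδ, hκh, hκb', hκf'⟩ : ∃ κ' > 0, κ' ≤ δ ∧ κ' ≤ h / 2 ∧ κ' ≤ k1 ∧ κ' ≤ k2 :=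
    ⟨min (min δ (h / 2)) (min k1 k2), lt_min (lt_min hδ hh2) (lt_min hk1 hk2),
      (min_le_left _ _).trans (min_le_left _ _), (min_le_left _ _).trans (min_le_right _ _),
      (min_le_right _ _).trans (min_le_left _ _), (min_le_right _ _).trans (min_le_right _ _)⟩
  obtain ⟨κL, hκL, HL⟩ := hL j κ' hκ'
  obtain ⟨κ, hκ, hκκL, hκκ', hκκ1, hκρ⟩ : ∃ κ > 0, κ ≤ κL ∧ κ ≤ κ' ∧ κ ≤ κ1 ∧ κ ≤ ρ0 :=
    ⟨min (min κL κ') (min κ1 ρ0), lt_min (lt_min hκL hκ') (lt_min hκ1 hρ0),
      (min_le_left _ _).trans (min_le_left _ _), (min_le_left _ _).trans (min_le_right _ _),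
      (min_le_right _ _).trans (min_le_left _ _), (min_le_right _ _).trans (min_le_right _ _)⟩
  obtain ⟨μ', hμ1, hμ2, hμ3⟩ := H κ hκ
  obtain ⟨N1, HN1⟩ := sup_muC (hβ j) hκ
  obtain ⟨N2, HN2⟩ := dg_muC (hβ j)
  choose N3 HN3 using fun a => hI j a
  obtain ⟨N4, HN4⟩ := fund_max N3
  set N := N1 + N2 + N4 + 1 with hN
  have hM1 := HN1 N (by omega)
  have hM2 := HN2 N (by omega)
  have hM3 : ∀ a, ∀ x ∈ β j '' Q n 2 ∩ β a '' Q n 2,
      dg (β a) (muC (β j) N) x = 1 ∧ dg' (β a) (muC (β j) N) x = 1 := fun a =>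
    HN3 a N ((HN4 a).trans (by omega))
  have hM4 := bd_muC_far (hβ j) hn N (by omega)
  set M := muC (β j) N with hMdef
  -- the sum and its two parts
  have hs1 : Sup (fun l => l.length = n + 1 ∧ Sm κ l) (μ' + M) :=
    Sup.add hμ1 (Sup.mono (fun l hl => ⟨hl.1, hl.2.1⟩) hM1)
  set c : Ch (ZMod 2) X := (μ' + M).filter (In (β j '' Q n 6)) with hc
  set s' : Ch (ZMod 2) X := (μ' + M).filter (fun l => ¬ In (β j '' Q n 6) l) with hs'
  have hcs : c + s' = μ' + M := Finsupp.filter_add_filter_not _ _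
  have hc1 : Sup (fun l => (l.length = n + 1 ∧ Sm κ l) ∧ In (β j '' Q n 6) l) c :=
    fund_sup_filter hs1
  have hs'1 : Sup (fun l => (l.length = n + 1 ∧ Sm κ l) ∧ ¬ In (β j '' Q n 6) l) s' :=
    fund_sup_filter hs1
  set A : Set X := {z | ∃ b ∈ s, z ∈ β b '' Q n 1} with hA
  set L : Set X := {z | (∃ a ∈ A, dist z a ≤ 2 * h) ∧ ∃ b ∈ β j '' Q n 1, dist z b ≤ 2 * h} with hLdef
  -- small lists meeting the `2`-cube are inside the `6`-cube
  have hin : ∀ l : List X, Sm κ l → ∀ x ∈ l, x ∈ β j '' Q n 2 → In (β j '' Q n 6) l :=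
    fun l hl x hx hx2 y hy => Hρ0 x hx2 y ((hl x hx y hy).trans_le hκρ)
  have hbdc : Sup (Far h L) (bd c) := by
    intro l hl x hx z hz
    by_contra hlt
    push Not at hlt
    obtain ⟨⟨a, ha, hza⟩, b, hb, hzb⟩ := hz
    have hxB : x ∈ β j '' Q n 2 := hB x b hb (by linarith [dist_triangle x z b])
    have hl' : l ∈ (bd (μ' + M)).support := by
      refine mem_bd_filter hl hx ?_
      intro l' hl' hxl'
      exact hin l' (hs1 l' hl').2 x hxl' hxB
    rw [map_add] at hl'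
    rcases Finset.mem_union.1 (Finsupp.support_add hl') with h5 | h5
    · obtain ⟨b0, hb0, ha0⟩ := ha
      have := hμ2 l h5 b0 hb0 x hx a ha0
      linarith [dist_triangle x z a]
    · exact hM4 l h5 x hx (fund_Q (by norm_num) _ hxB)
  have hdeg : ∀ y, (∃ z ∈ L, dist y z < h) → dg (β j) c y = 0 := by
    rintro y ⟨z, ⟨⟨a, ⟨b0, hb0, ha0⟩, hza⟩, b, hb, hzb⟩, hyz⟩
    have hyB : y ∈ β j '' Q n 2 := hB y b hb (by linarith [dist_triangle y z b])
    have e1 : dg (β j) μ' y = 1 :=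
      (hμ3 j y hyB ⟨b0, hb0, a, ha0, by linarith [dist_triangle y z a]⟩).1
    have e2 : dg (β j) M y = 1 := (hM2 y (fund_Q (by norm_num) _ hyB)).1
    have e3 : dg (β j) s' y = 0 := by
      refine (Hκ1 s' y (fund_Q (by norm_num) _ hyB) ?_).1
      refine Sup.mono (fun l hl => ⟨fund_sm hκκ1 (List.Sublist.refl l) hl.1.2, ?_⟩) hs'1
      have h6 := hl.2
      unfold In at h6
      push Not at h6
      obtain ⟨y', hy', hy6⟩ := h6
      refine ⟨y', hy', ?_⟩
      by_contra h7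
      push Not at h7
      exact hy6 (Hρ0 y hyB y' h7)
    have e4 := congrArg (fun v => dg (β j) v y) hcs
    simp only [fund_dg_add, e1, e2, e3, add_zero] at e4
    rw [e4]
    decide
  obtain ⟨e, cm, hce, he, hcm⟩ := HL c
    (Sup.mono (fun l hl => ⟨hl.1.1, fund_sm hκκL (List.Sublist.refl l) hl.1.2, hl.2⟩) hc1)
    L h (by linarith) hbdc hdeg
  set R : List X → Prop := fun l => ∀ x ∈ l, ∀ a ∈ A, 2 * h - κ' < dist x a with hR
  set c1 : Ch (ZMod 2) X := cm.filter R with hc1def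
  set c2 : Ch (ZMod 2) X := cm.filter (fun l => ¬ R l) with hc2def
  have hc12 : c1 + c2 = cm := Finsupp.filter_add_filter_not _ _
  have hc1' : Sup (fun l => (l.length = n + 1 ∧ Sm κ' l) ∧ R l) c1 :=
    fund_sup_filter (Sup.mono (fun l hl => ⟨hl.1, hl.2.1⟩) hcm)
  have hc2' : Sup (fun l => (l.length = n + 1 ∧ Sm κ' l) ∧
      ∀ x ∈ l, ∀ b ∈ β j '' Q n 1, 2 * h < dist x b) c2 := by
    intro l hl
    rw [hc2def, Finsupp.support_filter, Finset.mem_filter] at hl
    obtain ⟨hl1, hl2⟩ := hl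
    obtain ⟨g1, g2, g3, g4, g5⟩ := hcm l hl1
    refine ⟨⟨g1, g2⟩, fun y hy b hb => ?_⟩
    by_contra h7
    push Not at h7
    rw [hR] at hl2
    push Not at hl2
    obtain ⟨x0, hx0, a, ha, hxa⟩ := hl2
    have h8 : dist y x0 < κ' := g2 y hy x0 hx0
    have h9 : y ∈ L := ⟨⟨a, ha, by linarith [dist_triangle y x0 a]⟩, b, hb, h7⟩
    have h10 := g4 y hy y h9
    rw [dist_self] at h10
    linarith
  have hne : ∀ l : List X, l.length = n + 1 → ∃ y, y ∈ l := by
    intro l hl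
    cases l with
    | nil => simp at hl
    | cons y l => exact ⟨y, by simp⟩
  have hμ'' : μ' + bd e + c1 = M + s' + c2 := by
    have f1 : bd e + c1 + c2 + s' = μ' + M := by
      rw [← hcs, hce, ← hc12, add_assoc (bd e)]
    have f2 := fund_self μ'
    have f3 := fund_self s'
    have f4 := fund_self c2
    calc μ' + bd e + c1 = μ' + (bd e + c1 + c2 + s') + (s' + c2) := by
          have : μ' + (bd e + c1 + c2 + s') + (s' + c2) =
              μ' + bd e + c1 + ((s' + s') + (c2 + c2)) := by abel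
          rw [this, f3, f4, add_zero, add_zero]
      _ = (μ' + μ') + M + s' + c2 := by rw [f1]; abel
      _ = M + s' + c2 := by rw [f2, zero_add]
  refine ⟨μ' + bd e + c1, ?_, ?_, ?_⟩
  · refine Sup.add (Sup.add ?_ ?_) ?_
    · exact Sup.mono (fun l hl => ⟨hl.1, fund_sm (hκκ'.trans hκδ) (List.Sublist.refl l) hl.2⟩) hμ1
    · refine Sup.bd (P := fun l => l.length = n + 2 ∧ Sm κ' l) ?_
        (Sup.mono (fun l hl => ⟨hl.1, hl.2.1⟩) he)
      intro l l' hs hlen hl
      exact ⟨by have := hl.1; omega, fund_sm hκδ hs hl.2⟩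
    · exact Sup.mono (fun l hl => ⟨hl.1.1, fund_sm hκδ (List.Sublist.refl l) hl.1.2⟩) hc1'
  · have hold : Sup (fun l => ∀ a ∈ s, Far h (β a '' Q n 1) l) (bd (μ' + bd e + c1)) := by
      rw [map_add, map_add, bd_bd, add_zero]
      refine Sup.add ?_ ?_
      · exact Sup.mono (fun l hl a ha x hx z hz => by have := hl a ha x hx z hz; linarith) hμ2
      · refine Sup.bd (P := R) ?_ (Sup.mono (fun l hl => hl.2) hc1')
        intro l l' hs _ hl a ha x hx z hz
        have := hl x (hs.subset hx) z ⟨a, ha, hz⟩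
        linarith
    have hnew : Sup (fun l => Far h (β j '' Q n 1) l) (bd (μ' + bd e + c1)) := by
      rw [hμ'', map_add, map_add]
      refine Sup.add (Sup.add ?_ ?_) ?_
      · intro l hl x hx b hb
        by_contra h7
        push Not at h7
        exact hM4 l hl x hx (fund_Q (by norm_num) _ (hB x b hb (by linarith)))
      · refine Sup.bd ?_ hs'1
        intro l l' hs _ hl x hx b hb
        by_contra h7
        push Not at h7
        exact hl.2 (hin l hl.1.2 x (hs.subset hx) (hB x b hb (by linarith)))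
      · refine Sup.bd ?_ hc2'
        intro l l' hs _ hl x hx b hb
        have := hl.2 x (hs.subset hx) b hb
        linarith
    intro l hl a ha
    rcases Set.mem_insert_iff.1 ha with rfl | ha
    · exact hnew l hl
    · exact hold l hl a ha
  · intro a x hxa hx
    have hx7 : x ∈ β a '' Q n 7 := fund_Q (by norm_num) _ hxa
    obtain ⟨b, hb, z, hz, hxz⟩ := hx
    rcases Set.mem_insert_iff.1 hb with rfl | hb
    · have hxB : x ∈ β b '' Q n 2 := hB x z hz (by linarith)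
      have e1 := hM3 a x ⟨hxB, hxa⟩
      have e2 := Hκf a s' x hx7 (by
        refine Sup.mono (fun l hl => ⟨fund_sm (hκκ'.trans (hκf'.trans (Hk2 a)))
          (List.Sublist.refl l) hl.1.2, ?_⟩) hs'1
        obtain ⟨y, hy⟩ := hne l hl.1.1
        refine ⟨y, hy, ?_⟩
        by_contra h7
        push Not at h7
        refine hl.2 (hin l hl.1.2 y hy (hB y z hz ?_))
        have := dist_triangle y x z
        rw [dist_comm y x] at this
        linarith)
      have e3 := Hκf a c2 x hx7 (by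
        refine Sup.mono (fun l hl => ⟨fund_sm (hκf'.trans (Hk2 a))
          (List.Sublist.refl l) hl.1.2, ?_⟩) hc2'
        obtain ⟨y, hy⟩ := hne l hl.1.1
        refine ⟨y, hy, ?_⟩
        have h8 := hl.2 y hy z hz
        have := dist_triangle y x z
        rw [dist_comm y x] at this
        linarith)
      rw [hμ'']
      constructor
      · rw [fund_dg_add, fund_dg_add, e1.1, e2.1, e3.1, add_zero, add_zero]
      · rw [fund_dg'_add, fund_dg'_add, e1.2, e2.2, e3.2, add_zero, add_zero]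
    · have e1 := hμ3 a x hxa ⟨b, hb, z, hz, by linarith⟩
      have e2 := Hκb a e (Sup.mono (fun l hl => fund_sm (hκb'.trans (Hk1 a))
        (List.Sublist.refl l) hl.2.1) he) x hx7
      have e3 := Hκf a c1 x hx7 (by
        refine Sup.mono (fun l hl => ⟨fund_sm (hκf'.trans (Hk2 a))
          (List.Sublist.refl l) hl.1.2, ?_⟩) hc1'
        obtain ⟨y, hy⟩ := hne l hl.1.1
        refine ⟨y, hy, ?_⟩
        have h8 := hl.2 y hy z ⟨b, hb, hz⟩
        have := dist_triangle y x z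
        rw [dist_comm y x] at this
        linarith)
      constructor
      · rw [fund_dg_add, fund_dg_add, e1.1, e2.1, e3.1, add_zero, add_zero]
      · rw [fund_dg'_add, fund_dg'_add, e1.2, e2.2, e3.2, add_zero, add_zero]

/-- file `M_Fund.lean` -/
theorem fundS (hn : 0 < n) {m : ℕ} (β : Fin m → (Fin n → ℝ) → X)
    (hβ : ∀ a, IsOpenEmbedding (β a)) (hL : ∀ a, LD1S (β a)) (hI : ∀ a b, InvS (β a) (β b)) :
    FundS β := by
  classical
  have key : ∀ s : Finset (Fin m), FundP β (s : Set (Fin m)) := by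
    intro s
    induction s using Finset.induction_on with
    | empty =>
      refine ⟨1, one_pos, fun δ _ => ⟨0, Sup.zero, by rw [map_zero]; exact Sup.zero, ?_⟩⟩
      rintro a x _ ⟨b, hb, _⟩
      simp at hb
    | insert j s _ ih =>
      rw [Finset.coe_insert]
      exact fund_step hn β hβ hL hI j s ih
  obtain ⟨η, hη, H⟩ := key Finset.univ
  refine ⟨η, hη, fun δ hδ => ?_⟩
  obtain ⟨μ, h1, h2, h3⟩ := H δ hδ
  refine ⟨μ, h1, Sup.mono (fun l hl a => hl a (by simp)) h2, fun a x hx hb => h3 a x hx ?_⟩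
  obtain ⟨b, z, hz, hxz⟩ := hb
  exact ⟨b, by simp, z, hz, hxz⟩

end Fund

end Vale.Agent.P239.M
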