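import Vale.Agent.P239.S.M_Out

/-! Vanishing of the second cohomology with finite supports, in the form of `M_Skel`. -/

namespace Vale.Agent.P239.M

variable {Γ : Type*} [Group Γ]

theorem h2fill_of_cpush (h1 : CPushS Γ 2) (h2 : CFillS (ZMod 2) Γ 2) (h3 : CFillS (ZMod 2) Γ 3)
    (S : Finset Γ) : ∃ T₀ : Finset Γ, ∀ T : Finset Γ, T₀ ⊆ T → (∀ s ∈ T, s⁻¹ ∈ T) →
      F.H2Fill S T := by
  obtain ⟨T₀, h⟩ := Out.h2Fill_of h1 h2 h3 S
  exact ⟨T₀, fun T hT _ => h T hT⟩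

end Vale.Agent.P239.M
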