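import Vale.Agent.P239.S.M_Sup
import Vale.Agent.P239.S.M_Chart

/-!
Block M8: invariance of the local degree.
-/

namespace Vale.Agent.P239.M

open Metric Set Topology

section Inv

variable {X : Type*} [MetricSpace X] {n : ℕ}

omit [MetricSpace X] in
theorem inv_dg_add (β : (Fin n → ℝ) → X) (c d : Ch (ZMod 2) X) (x : X) :
    dg β (c + d) x = dg β c x + dg β d x := by
  unfold dg; rw [map_add]

omit [MetricSpace X] in
theorem inv_dg'_add (β : (Fin n → ℝ) → X) (c d : Ch (ZMod 2) X) (x : X) :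
    dg' β (c + d) x = dg' β c x + dg' β d x := by
  unfold dg'; rw [map_add]

open Classical in
/-- cutting a small chain to a ball does not change the degree at the centre -/
theorem inv_cut {β : (Fin n → ℝ) → X} (hβ : IsOpenEmbedding β) {ρ : ℝ} (hρ : 0 < ρ) :
    ∃ κ > 0, ∀ c : Ch (ZMod 2) X, Sup (Sm κ) c → ∀ x ∈ β '' Q n 7,
      dg β (c.filter (In (ball x ρ))) x = dg β c x ∧
      dg' β (c.filter (In (ball x ρ))) x = dg' β c x := by
  obtain ⟨κ, hκ, h⟩ := dg_far hβ hρ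
  refine ⟨κ, hκ, fun c hc x hx => ?_⟩
  have h1 := h (c.filter (fun l => ¬ In (ball x ρ) l)) x hx (by
    intro l hl
    rw [Finsupp.support_filter, Finset.mem_filter] at hl
    refine ⟨hc l hl.1, ?_⟩
    have h2 := hl.2
    unfold In at h2
    push Not at h2
    obtain ⟨y, hy, hyb⟩ := h2
    refine ⟨y, hy, ?_⟩
    rw [mem_ball, dist_comm] at hyb
    exact not_lt.1 hyb)
  have e := Finsupp.filter_add_filter_not c (In (ball x ρ))
  constructor
  · have h3 := inv_dg_add β (c.filter (In (ball x ρ))) (c.filter (fun l => ¬ In (ball x ρ) l)) x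
    rw [e, h1.1, add_zero] at h3
    exact h3.symm
  · have h3 := inv_dg'_add β (c.filter (In (ball x ρ))) (c.filter (fun l => ¬ In (ball x ρ) l)) x
    rw [e, h1.2, add_zero] at h3
    exact h3.symm

open Classical in
theorem inv_bdfar {c : Ch (ZMod 2) X} {x : X} {ρ : ℝ} (hc : Sup (Sm (ρ / 4)) c)
    (hb : Sup (fun l => ∀ y ∈ l, ρ / 4 ≤ dist y x) (bd c)) :
    Sup (Far (ρ / 4) {x}) (bd (c.filter (In (ball x (ρ / 2))))) := by
  intro l hl y hy z hz
  rw [mem_singleton_iff] at hz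
  subst hz
  by_contra hlt
  rw [not_le] at hlt
  have h1 : l ∈ (bd c).support := mem_bd_filter hl hy (fun l' hl' hyl' w hw => by
    rw [mem_ball]
    have h2 := hc l' hl' w hw y hyl'
    have h3 := dist_triangle w y z
    linarith)
  exact absurd (hb l h1 y hy) (not_le.2 hlt)

/-- the degree does not change along short steps -/
theorem inv_step (hn : 0 < n) {β : (Fin n → ℝ) → X} (hβ : IsOpenEmbedding β) {ρ : ℝ}
    (hρ : 0 < ρ) : ∃ κ > 0, ∀ (c : Ch (ZMod 2) X) (x : X),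
      Sup (fun l => l.length = n + 1 ∧ Sm κ l ∧ In (ball x (ρ / 2)) l) c →
      ball x ρ ⊆ β '' Q n 8 → Sup (Far (ρ / 4) {x}) (bd c) →
      ∀ y y' : X, dist y x < ρ / 8 → dist y' x < ρ / 8 → dist y y' < κ →
        dg β c y = dg β c y' := by
  obtain ⟨κ, hκ, hloc⟩ := KerC_local hβ (show (0 : ℝ) < ρ / 8 by linarith)
  refine ⟨κ, hκ, fun c x hc hball hbd y y' hy hy' hyy => ?_⟩
  have hIn : ∀ l : List X, In (ball x (ρ / 2)) l → In (β '' Q n 8) l := fun l hl w hw =>
    hball (ball_subset_ball (by linarith) (hl w hw))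
  have e1 : ∀ z : X, dg β c z = ext (fun l => KerC β l [z]) c := by
    intro z
    unfold dg
    refine ext_congr hc fun l hl => ?_
    rw [if_pos (hIn l hl.2.2)]
  have e2 : ext (fun a' => KerC β a' [y, y']) (bd c) = dg β c y' - dg β c y := by
    rw [ext_bdL, e1, e1]
    have e3 : ∀ l : List X, ext (fun a' => KerC β a' [y, y']) (bdL (ZMod 2) l) =
        KerC β l [y'] - KerC β l [y] := by
      intro l
      rw [KerC_bd hβ]
      simp [bdL, cone_single, Finsupp.linearCombination_single]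
    rw [show (fun l => ext (fun a' => KerC β a' [y, y']) (bdL (ZMod 2) l)) =
      fun l => KerC β l [y'] - KerC β l [y] from funext e3]
    rw [Finsupp.linearCombination_apply, Finsupp.linearCombination_apply,
      Finsupp.linearCombination_apply, ← Finsupp.sum_sub]
    refine Finsupp.sum_congr fun l _ => ?_
    rw [smul_sub]
  have e4 : ext (fun a' => KerC β a' [y, y']) (bd c) = 0 := by
    have hsup : Sup (fun l' : List X => l'.length = n ∧ Sm κ l' ∧ In (ball x (ρ / 2)) l')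
        (bd c) := by
      refine Sup.bd (fun l l' hs hlen hl => ⟨by omega, fun a ha b hb =>
        hl.2.1 a (hs.subset ha) b (hs.subset hb), fun a ha => hl.2.2 a (hs.subset ha)⟩) hc
    rw [Finsupp.linearCombination_apply]
    refine Finset.sum_eq_zero fun l hl => ?_
    dsimp only
    obtain ⟨hlen, hsm, hin⟩ := hsup l hl
    have hfar := hbd l hl
    suffices h0 : KerC β l [y, y'] = 0 by rw [h0, smul_zero]
    by_contra hne
    have hlne : l ≠ [] := by
      intro h; rw [h] at hlen; simp at hlen; omega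
    obtain ⟨w, hw⟩ := List.exists_mem_of_ne_nil l hlne
    have hsm2 : Sm κ [y, y'] := by
      intro a ha b hb
      simp only [List.mem_cons, List.not_mem_nil, or_false] at ha hb
      rcases ha with rfl | rfl <;> rcases hb with rfl | rfl
      · rw [dist_self]; exact hκ
      · exact hyy
      · rw [dist_comm]; exact hyy
      · rw [dist_self]; exact hκ
    have hin2 : In (β '' Q n 8) [y, y'] := by
      intro a ha
      simp only [List.mem_cons, List.not_mem_nil, or_false] at ha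
      rcases ha with rfl | rfl
      · exact hball (by rw [mem_ball]; linarith)
      · exact hball (by rw [mem_ball]; linarith)
    have h1 := hloc l [y, y'] hsm hsm2 (hIn l hin) hin2 hne w hw y (by simp)
    have h2 := hfar w hw x (mem_singleton x)
    have h3 := dist_triangle w y x
    linarith
  rw [e4] at e2
  exact (sub_eq_zero.1 e2.symm).symm

/-- the degree is constant on a small coordinate ball -/
theorem inv_cell (hn : 0 < n) {β : (Fin n → ℝ) → X} (hβ : IsOpenEmbedding β) {ρ : ℝ}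
    (hρ : 0 < ρ) : ∃ r > 0, ∃ κ > 0, ∀ (c : Ch (ZMod 2) X), ∀ x ∈ β '' Q n 2,
      Sup (fun l => l.length = n + 1 ∧ Sm κ l ∧ In (ball x (ρ / 2)) l) c →
      ball x ρ ⊆ β '' Q n 8 → Sup (Far (ρ / 4) {x}) (bd c) →
      ∀ y : X, dist y x < r → dg β c y = dg β c x := by
  obtain ⟨κ, hκ, hstep⟩ := inv_step hn hβ hρ
  obtain ⟨s', hs', hunif⟩ := chart_unif hβ 3 (show (0 : ℝ) < ρ / 8 by linarith)
  have hs : 0 < min (s' / 2) 1 := lt_min (by linarith) one_pos
  obtain ⟨r, hr, hmod⟩ := chart_mod hβ (show (2 : ℝ) < 3 by norm_num) hs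
  refine ⟨r, hr, κ, hκ, fun c x hx hc hball hbd y hy => ?_⟩
  obtain ⟨u, hu, rfl⟩ := hx
  obtain ⟨v, hv, rfl, huv⟩ := hmod u hu y (by rw [dist_comm]; exact hy)
  have hnear : ∀ w ∈ closedBall u (min (s' / 2) 1), dist (β w) (β u) < ρ / 8 := by
    intro w hw
    rw [mem_closedBall] at hw
    have h1 : dist w u ≤ 1 := hw.trans (min_le_right _ _)
    have h2 : dist w u ≤ s' / 2 := hw.trans (min_le_left _ _)
    refine hunif w ?_ u ?_ (by linarith)
    · rw [mem_closedBall] at hu ⊢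
      have := dist_triangle w u 0
      linarith
    · rw [mem_closedBall] at hu ⊢
      linarith
  have hcont : ContinuousOn (fun w => dg β c (β w)) (closedBall u (min (s' / 2) 1)) := by
    intro w hw
    have h1 : ∀ᶠ w' in 𝓝 w, dist (β w') (β w) < κ := by
      have := (hβ.continuous.continuousAt (x := w)).eventually (ball_mem_nhds (β w) hκ)
      exact this
    have h2 : ∀ᶠ w' in 𝓝[closedBall u (min (s' / 2) 1)] w,
        dg β c (β w') = dg β c (β w) := by
      filter_upwards [nhdsWithin_le_nhds h1, self_mem_nhdsWithin] with w' h3 h4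
      exact hstep c (β u) hc hball hbd (β w') (β w) (hnear w' h4) (hnear w hw) h3
    exact (continuousWithinAt_const (b := dg β c (β w))).congr_of_eventuallyEq h2 rfl
  have hpre : IsPreconnected (closedBall u (min (s' / 2) 1)) :=
    (convex_closedBall u _).isPreconnected
  refine hpre.constant hcont (x := v) (y := u) ?_ (mem_closedBall_self hs.le)
  rw [mem_closedBall, dist_comm]
  exact huv.le

/-- a chain of degree zero is homologous to a chain far from the centre -/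
theorem inv_zero (hn : 0 < n) {β : (Fin n → ℝ) → X} (hβ : IsOpenEmbedding β) (hL : LD1S β)
    {ρ : ℝ} (hρ : 0 < ρ) : ∃ r > 0, ∀ κ' > 0, ∃ κ > 0, ∀ (c : Ch (ZMod 2) X), ∀ x ∈ β '' Q n 2,
      Sup (fun l => l.length = n + 1 ∧ Sm κ l ∧ In (ball x (ρ / 2)) l) c →
      ball x ρ ⊆ β '' Q n 6 → Sup (Far (ρ / 4) {x}) (bd c) → dg β c x = 0 →
      ∃ e cm : Ch (ZMod 2) X, c = bd e + cm ∧ Sup (Sm κ') e ∧
        Sup (fun l => Sm κ' l ∧ ∃ y ∈ l, r ≤ dist x y) cm := by
  obtain ⟨r, hr, κ₁, hκ₁, hcell⟩ := inv_cell hn hβ hρ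
  have hr1 : 0 < min r (ρ / 4) := lt_min hr (by linarith)
  refine ⟨min r (ρ / 4) / 2, by linarith, fun κ' hκ' => ?_⟩
  have hκ2 : 0 < min κ' (min r (ρ / 4) / 2) := lt_min hκ' (by linarith)
  obtain ⟨κ₂, hκ₂, hld⟩ := hL _ hκ2
  refine ⟨min κ₁ κ₂, lt_min hκ₁ hκ₂, fun c x hx hc hball hbd h0 => ?_⟩
  have hball8 : ball x ρ ⊆ β '' Q n 8 := hball.trans
    (image_mono (closedBall_subset_closedBall (by norm_num)))
  have hc1 : Sup (fun l => l.length = n + 1 ∧ Sm κ₁ l ∧ In (ball x (ρ / 2)) l) c :=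
    Sup.mono (fun l hl => ⟨hl.1, fun a ha b hb => (hl.2.1 a ha b hb).trans_le (min_le_left _ _),
      hl.2.2⟩) hc
  have hc2 : Sup (fun l => l.length = n + 1 ∧ Sm κ₂ l ∧ In (β '' Q n 6) l) c :=
    Sup.mono (fun l hl => ⟨hl.1, fun a ha b hb => (hl.2.1 a ha b hb).trans_le (min_le_right _ _),
      fun a ha => hball (ball_subset_ball (by linarith) (hl.2.2 a ha))⟩) hc
  have hfar : Sup (Far (min r (ρ / 4)) {x}) (bd c) :=
    Sup.mono (fun l hl a ha z hz => (min_le_right _ _).trans (hl a ha z hz)) hbd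
  obtain ⟨e, cm, hce, he, hcm⟩ := hld c hc2 {x} (min r (ρ / 4))
    ((min_le_right _ _).trans (by linarith)) hfar (by
      rintro y ⟨z, hz, hyz⟩
      rw [mem_singleton_iff] at hz
      subst hz
      rw [hcell c z hx hc1 hball8 hbd y (hyz.trans_le (min_le_left _ _)), h0])
  refine ⟨e, cm, hce, Sup.mono (fun l hl a ha b hb =>
    (hl.2.1 a ha b hb).trans_le (min_le_left _ _)) he, Sup.mono (fun l hl => ?_) hcm⟩
  refine ⟨fun a ha b hb => (hl.2.1 a ha b hb).trans_le (min_le_left _ _), ?_⟩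
  have hlne : l ≠ [] := by
    intro h; have := hl.1; rw [h] at this; simp at this
  obtain ⟨w, hw⟩ := List.exists_mem_of_ne_nil l hlne
  refine ⟨w, hw, ?_⟩
  have h1 := hl.2.2.2.1 w hw x (mem_singleton x)
  have h2 : min κ' (min r (ρ / 4) / 2) ≤ min r (ρ / 4) / 2 := min_le_right _ _
  rw [dist_comm]
  linarith

/-- file `M_Inv.lean` -/
theorem invS (hn : 0 < n) {β β' : (Fin n → ℝ) → X} (hβ : IsOpenEmbedding β)
    (hβ' : IsOpenEmbedding β') (hL : LD1S β') : InvS β β' := by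
  classical
  obtain ⟨ρ₁, hρ₁, hm1⟩ := chart_mod hβ (show (2 : ℝ) < 3 by norm_num) one_pos
  obtain ⟨ρ₂, hρ₂, hm2⟩ := chart_mod hβ' (show (2 : ℝ) < 3 by norm_num) one_pos
  obtain ⟨ρ, hρ, hρ1, hρ2⟩ : ∃ ρ > 0, ρ ≤ ρ₁ ∧ ρ ≤ ρ₂ :=
    ⟨min ρ₁ ρ₂, lt_min hρ₁ hρ₂, min_le_left _ _, min_le_right _ _⟩
  obtain ⟨r, hr, hzero⟩ := inv_zero hn hβ' hL hρ
  obtain ⟨k1, hk1, hb1⟩ := dg_bd hβ
  obtain ⟨k2, hk2, hb2⟩ := dg_bd hβ'
  obtain ⟨k3, hk3, hf1⟩ := dg_far hβ hr
  obtain ⟨k4, hk4, hf2⟩ := dg_far hβ' hr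
  obtain ⟨k, hk, hkk1, hkk2, hkk3, hkk4⟩ : ∃ k > 0, k ≤ k1 ∧ k ≤ k2 ∧ k ≤ k3 ∧ k ≤ k4 :=
    ⟨min (min k1 k2) (min k3 k4), lt_min (lt_min hk1 hk2) (lt_min hk3 hk4),
      (min_le_left _ _).trans (min_le_left _ _), (min_le_left _ _).trans (min_le_right _ _),
      (min_le_right _ _).trans (min_le_left _ _), (min_le_right _ _).trans (min_le_right _ _)⟩
  obtain ⟨κ₀, hκ₀, hz⟩ := hzero k hk
  obtain ⟨q1, hq1, hcut1⟩ := inv_cut hβ (show (0 : ℝ) < ρ / 2 by linarith)
  obtain ⟨q2, hq2, hcut2⟩ := inv_cut hβ' (show (0 : ℝ) < ρ / 2 by linarith)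
  obtain ⟨κ, hκ, hκa, hκb, hκc, hκd⟩ : ∃ κ > 0, κ ≤ κ₀ ∧ κ ≤ q1 ∧ κ ≤ q2 ∧ κ ≤ ρ / 4 :=
    ⟨min (min κ₀ q1) (min q2 (ρ / 4)), lt_min (lt_min hκ₀ hq1) (lt_min hq2 (by linarith)),
      (min_le_left _ _).trans (min_le_left _ _), (min_le_left _ _).trans (min_le_right _ _),
      (min_le_right _ _).trans (min_le_left _ _), (min_le_right _ _).trans (min_le_right _ _)⟩
  obtain ⟨N1, hN1⟩ := sup_muC hβ hκ
  obtain ⟨N2, hN2⟩ := sup_muC hβ' hκ
  obtain ⟨N3, hN3⟩ := dg_muC hβ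
  obtain ⟨N4, hN4⟩ := dg_muC hβ'
  refine ⟨max 1 (max (max N1 N2) (max N3 N4)), fun N hN x hx => ?_⟩
  have hN0 : 0 < N := lt_of_lt_of_le one_pos ((le_max_left _ _).trans hN)
  have hN' := (le_max_right _ _).trans hN
  have hn1 : N1 ≤ N := ((le_max_left _ _).trans (le_max_left _ _)).trans hN'
  have hn2 : N2 ≤ N := ((le_max_right _ _).trans (le_max_left _ _)).trans hN'
  have hn3 : N3 ≤ N := ((le_max_left _ _).trans (le_max_right _ _)).trans hN'
  have hn4 : N4 ≤ N := ((le_max_right _ _).trans (le_max_right _ _)).trans hN'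
  have hsmono : ∀ {a b : ℝ} {l : List X}, a ≤ b → Sm a l → Sm b l := fun hab h x hx y hy =>
    (h x hx y hy).trans_le hab
  have hx7 : x ∈ β '' Q n 7 := image_mono (closedBall_subset_closedBall (by norm_num)) hx.1
  have hx7' : x ∈ β' '' Q n 7 := image_mono (closedBall_subset_closedBall (by norm_num)) hx.2
  have hbx : ball x ρ ⊆ β '' Q n 8 := by
    intro y hy
    obtain ⟨u, hu, hux⟩ := hx.1
    obtain ⟨v, hv, hvy, _⟩ := hm1 u hu y (by
      rw [hux, dist_comm]; exact (mem_ball.1 hy).trans_le hρ1)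
    exact ⟨v, closedBall_subset_closedBall (by norm_num) hv, hvy⟩
  have hbx' : ball x ρ ⊆ β' '' Q n 6 := by
    intro y hy
    obtain ⟨u, hu, hux⟩ := hx.2
    obtain ⟨v, hv, hvy, _⟩ := hm2 u hu y (by
      rw [hux, dist_comm]; exact (mem_ball.1 hy).trans_le hρ2)
    exact ⟨v, closedBall_subset_closedBall (by norm_num) hv, hvy⟩
  have hbx8 : ball x ρ ⊆ β' '' Q n 8 := hbx'.trans
    (image_mono (closedBall_subset_closedBall (by norm_num)))
  set c : Ch (ZMod 2) X := (muC β N).filter (In (ball x (ρ / 2))) with hcdef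
  set c' : Ch (ZMod 2) X := (muC β' N).filter (In (ball x (ρ / 2))) with hcdef'
  have hmu := hN1 N hn1
  have hmu' := hN2 N hn2
  -- supports
  have hgen : ∀ μ : Ch (ZMod 2) X, Sup (fun l => l.length = n + 1 ∧ Sm κ l) μ →
      Sup (fun l => l.length = n + 1 ∧ Sm κ₀ l ∧ In (ball x (ρ / 2)) l)
        (μ.filter (In (ball x (ρ / 2)))) := by
    intro μ hμ l hl
    rw [Finsupp.support_filter, Finset.mem_filter] at hl
    exact ⟨(hμ l hl.1).1, hsmono hκa (hμ l hl.1).2, hl.2⟩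
  have hcs := hgen (muC β N) (Sup.mono (fun l hl => ⟨hl.1, hl.2.1⟩) hmu)
  have hcs' := hgen (muC β' N) (Sup.mono (fun l hl => ⟨hl.1, hl.2.1⟩) hmu')
  -- boundaries
  have hcb : Sup (Far (ρ / 4) {x}) (bd c) := by
    refine inv_bdfar (Sup.mono (fun l hl => hsmono hκd hl.2.1) hmu) ?_
    refine Sup.mono (fun l hl y hy => ?_) (bd_muC_far hβ hn N hN0)
    by_contra hlt
    rw [not_le] at hlt
    exact hl y hy (hbx (mem_ball.2 (by linarith)))
  have hcb' : Sup (Far (ρ / 4) {x}) (bd c') := by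
    refine inv_bdfar (Sup.mono (fun l hl => hsmono hκd hl.2.1) hmu') ?_
    refine Sup.mono (fun l hl y hy => ?_) (bd_muC_far hβ' hn N hN0)
    by_contra hlt
    rw [not_le] at hlt
    exact hl y hy (hbx8 (mem_ball.2 (by linarith)))
  -- degrees of the cut chains
  have hd1 := hcut1 (muC β N) (Sup.mono (fun l hl => hsmono hκb hl.2.1) hmu) x hx7
  have hd2 := hcut2 (muC β N) (Sup.mono (fun l hl => hsmono hκc hl.2.1) hmu) x hx7'
  have hd3 := hcut2 (muC β' N) (Sup.mono (fun l hl => hsmono hκc hl.2.1) hmu') x hx7'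
  have hone := hN3 N hn3 x hx7
  have hone' := hN4 N hn4 x hx7'
  -- first degree
  have hfirst : dg β' c x = 1 := by
    by_contra hne
    have h0 : dg β' c x = 0 := by
      rcases (show ∀ z : ZMod 2, z = 0 ∨ z = 1 by decide) (dg β' c x) with h | h
      · exact h
      · exact absurd h hne
    obtain ⟨e, cm, hce, he, hcm⟩ := hz c x hx.2 hcs hbx' hcb h0
    have h1 : dg β c x = 0 := by
      rw [hce, inv_dg_add, (hb1 e (Sup.mono (fun l hl => hsmono hkk1 hl) he) x hx7).1,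
        (hf1 cm x hx7 (Sup.mono (fun l hl => ⟨hsmono hkk3 hl.1, hl.2⟩) hcm)).1, add_zero]
    rw [hd1.1, hone.1] at h1
    exact one_ne_zero h1
  -- second degree
  have hcc : Sup (fun l => l.length = n + 1 ∧ Sm κ₀ l ∧ In (ball x (ρ / 2)) l) (c + c') :=
    Sup.add hcs hcs'
  have hccb : Sup (Far (ρ / 4) {x}) (bd (c + c')) := by
    rw [map_add]; exact Sup.add hcb hcb'
  have hcc0 : dg β' (c + c') x = 0 := by
    rw [inv_dg_add, hfirst, hd3.1, hone'.1]; decide
  obtain ⟨e, cm, hce, he, hcm⟩ := hz (c + c') x hx.2 hcc hbx' hccb hcc0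
  have hsecond : dg' β' (c + c') x = 0 := by
    rw [hce, inv_dg'_add, (hb2 e (Sup.mono (fun l hl => hsmono hkk2 hl) he) x hx7').2,
      (hf2 cm x hx7' (Sup.mono (fun l hl => ⟨hsmono hkk4 hl.1, hl.2⟩) hcm)).2, add_zero]
  rw [inv_dg'_add, hd3.2, hone'.2] at hsecond
  refine ⟨?_, ?_⟩
  · rw [← hd2.1]; exact hfirst
  · rw [← hd2.2]
    have h2 : ∀ z : ZMod 2, z + 1 = 0 → z = 1 := by decide
    exact h2 _ hsecond

end Inv

end Vale.Agent.P239.M
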