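import Vale.Agent.P239.S.M_Defs

/-!
Module M, block M5: filling of small cycles in a contractible metric space, and in balls of
normed spaces.
-/

namespace Vale.Agent.P239.M.Fill

open Vale.Agent.P239.M Metric Set

section SupLemmas

variable {k : Type*} [CommRing k] {X Y : Type*}

theorem sup_add' {P : List X → Prop} {a b : Ch k X} (ha : Sup P a) (hb : Sup P b) :
    Sup P (a + b) := by
  classical
  intro l hl
  rcases Finset.mem_union.1 (Finsupp.support_add hl) with h | h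
  · exact ha l h
  · exact hb l h

theorem sup_zero' {P : List X → Prop} : Sup P (0 : Ch k X) := by
  intro l hl; simp at hl

theorem sup_neg' {P : List X → Prop} {a : Ch k X} (ha : Sup P a) : Sup P (-a) := by
  intro l hl; rw [Finsupp.support_neg] at hl; exact ha l hl

theorem sup_sub' {P : List X → Prop} {a b : Ch k X} (ha : Sup P a) (hb : Sup P b) :
    Sup P (a - b) := by
  rw [sub_eq_add_neg]; exact sup_add' ha (sup_neg' hb)

theorem sup_smul' {P : List X → Prop} {a : Ch k X} (r : k) (ha : Sup P a) :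
    Sup P (r • a) := fun l hl => ha l (Finsupp.support_smul hl)

theorem sup_sum' {ι : Type*} {P : List X → Prop} (s : Finset ι) (f : ι → Ch k X)
    (h : ∀ i ∈ s, Sup P (f i)) : Sup P (∑ i ∈ s, f i) := by
  classical
  induction s using Finset.induction_on with
  | empty => simpa using sup_zero'
  | insert a s ha ih =>
    rw [Finset.sum_insert ha]
    exact sup_add' (h a (Finset.mem_insert_self _ _))
      (ih fun i hi => h i (Finset.mem_insert_of_mem hi))

theorem sup_single' {P : List X → Prop} {l : List X} (r : k) (h : P l) :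
    Sup P (Finsupp.single l r) := by
  intro m hm
  have := Finsupp.support_single_subset hm
  rw [Finset.mem_singleton] at this
  rw [this]; exact h

theorem sup_mono' {P Q : List X → Prop} {a : Ch k X} (h : ∀ l, P l → Q l) (ha : Sup P a) :
    Sup Q a := fun l hl => h l (ha l hl)

theorem sup_ext' {Q : List Y → Prop} (u : List X → Ch k Y) (c : Ch k X)
    (h : ∀ l ∈ c.support, Sup Q (u l)) : Sup Q (ext u c) := by
  rw [ext, Finsupp.linearCombination_apply, Finsupp.sum]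
  exact sup_sum' _ _ fun l hl => sup_smul' _ (h l hl)

/-- support of the image under a linear map -/
theorem sup_lin' {Q : List Y → Prop} (T : Ch k X →ₗ[k] Ch k Y) (c : Ch k X)
    (h : ∀ l ∈ c.support, Sup Q (T (Finsupp.single l 1))) : Sup Q (T c) := by
  have : T c = ∑ l ∈ c.support, c l • T (Finsupp.single l 1) := by
    conv_lhs => rw [← Finsupp.sum_single c]
    rw [Finsupp.sum, map_sum]
    refine Finset.sum_congr rfl fun l _ => ?_
    rw [← map_smul, Finsupp.smul_single, smul_eq_mul, mul_one]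
  rw [this]
  exact sup_sum' _ _ fun l hl => sup_smul' _ (h l hl)

theorem sup_cone' {P Q : List X → Prop} (x : X) {c : Ch k X} (hc : Sup P c)
    (h : ∀ l, P l → Q (x :: l)) : Sup Q (cone x c) :=
  sup_lin' _ _ fun l hl => by rw [cone_single]; exact sup_single' _ (h l (hc l hl))

/-- the lists of a prism -/
theorem sup_prL' (f g : X → Y) (l : List X) :
    Sup (fun m => m.length = l.length + 1 ∧ ∀ y ∈ m, ∃ x ∈ l, y = f x ∨ y = g x)
      (prL k f g l) := by
  induction l with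
  | nil => exact sup_zero'
  | cons x l ih =>
    rw [prL]
    refine sup_sub' (sup_single' _ ⟨by simp, ?_⟩) (sup_cone' _ ih fun m hm => ⟨by simp [hm.1], ?_⟩)
    · intro y hy
      rcases List.mem_cons.1 hy with rfl | hy
      · exact ⟨x, by simp, Or.inl rfl⟩
      rcases List.mem_cons.1 hy with rfl | hy
      · exact ⟨x, by simp, Or.inr rfl⟩
      · obtain ⟨z, hz, rfl⟩ := List.mem_map.1 hy
        exact ⟨z, List.mem_cons_of_mem _ hz, Or.inr rfl⟩
    · intro y hy
      rcases List.mem_cons.1 hy with rfl | hy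
      · exact ⟨x, by simp, Or.inl rfl⟩
      · obtain ⟨z, hz, h⟩ := hm.2 y hy
        exact ⟨z, List.mem_cons_of_mem _ hz, h⟩

end SupLemmas

section Op

variable (k : Type*) [CommRing k] {X : Type*}

/-- the homotopy operator of `h`, in `N` steps -/
noncomputable def DN (h : ℝ → X → X) (N : ℕ) : Ch k X →ₗ[k] Ch k X :=
  ∑ a ∈ Finset.range N, pr (h ((a : ℝ) / N)) (h (((a : ℝ) + 1) / N))

/-- the filling operator -/
noncomputable def fil (h : ℝ → X → X) (x₀ : X) (N : ℕ) : Ch k X →ₗ[k] Ch k X :=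
  (cone x₀).comp (pf (h 1)) - DN k h N

variable {k}

theorem DN_apply (h : ℝ → X → X) (N : ℕ) (c : Ch k X) :
    DN k h N c = ∑ a ∈ Finset.range N, pr (h ((a : ℝ) / N)) (h (((a : ℝ) + 1) / N)) c := by
  rw [DN, LinearMap.sum_apply]

theorem fil_apply (h : ℝ → X → X) (x₀ : X) (N : ℕ) (c : Ch k X) :
    fil k h x₀ N c = cone x₀ (pf (h 1) c) - DN k h N c := rfl

theorem bd_DN (h : ℝ → X → X) {N : ℕ} (hN : 0 < N) (c : Ch k X) :
    bd (DN k h N c) + DN k h N (bd c) = pf (h 1) c - pf (h 0) c := by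
  have hN' : (N : ℝ) ≠ 0 := by exact_mod_cast hN.ne'
  rw [DN_apply, DN_apply, map_sum, ← Finset.sum_add_distrib]
  have : ∀ a ∈ Finset.range N, bd (pr (h ((a : ℝ) / N)) (h (((a : ℝ) + 1) / N)) c) +
      pr (h ((a : ℝ) / N)) (h (((a : ℝ) + 1) / N)) (bd c) =
      pf (h (((a + 1 : ℕ) : ℝ) / N)) c - pf (h ((a : ℝ) / N)) c := by
    intro a _
    rw [bd_pr]; push_cast; rfl
  rw [Finset.sum_congr rfl this, Finset.sum_range_sub (fun a : ℕ => pf (h ((a : ℝ) / N)) c)]
  simp [div_self hN']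

theorem pf_id' (c : Ch k X) : pf (id : X → X) c = c := by
  induction c using Finsupp.induction_linear with
  | zero => simp
  | add a b ha hb => rw [map_add, ha, hb]
  | single l r => rw [pf_single, List.map_id]

theorem bd_fil {h : ℝ → X → X} {x₀ : X} {N : ℕ} (hN : 0 < N) (h0 : h 0 = id) (c : Ch k X) :
    bd (fil k h x₀ N c) + fil k h x₀ N (bd c) = c := by
  have e1 := bd_DN (k := k) h hN c
  rw [h0, pf_id'] at e1
  rw [fil_apply, fil_apply, map_sub, bd_cone, bd_pf]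
  have e2 : bd (DN k h N c) = pf (h 1) c - c - DN k h N (bd c) := by rw [← e1]; abel
  rw [e2]; abel

/-- support of the filling operator -/
theorem sup_fil {h : ℝ → X → X} {x₀ : X} {N : ℕ} (h1 : h 1 = fun _ => x₀) (l : List X)
    (Q : List X → Prop) (hQ : Q (x₀ :: l.map fun _ => x₀))
    (hP : ∀ a < N, ∀ m : List X, m.length = l.length + 1 →
      (∀ y ∈ m, ∃ x ∈ l, y = h ((a : ℝ) / N) x ∨ y = h (((a : ℝ) + 1) / N) x) → Q m) :
    Sup Q (fil k h x₀ N (Finsupp.single l 1)) := by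
  rw [fil_apply, h1, pf_single, cone_single, DN_apply]
  refine sup_sub' (sup_single' _ hQ) (sup_sum' _ _ fun a ha => ?_)
  rw [pr_single, one_smul]
  exact sup_mono' (fun m hm => hP a (Finset.mem_range.1 ha) m hm.1 hm.2) (sup_prL' _ _ l)

end Op

section Top

variable {k : Type*} [CommRing k] {X : Type*} [MetricSpace X]

theorem exists_htpy [ContractibleSpace X] : ∃ (x₀ : X) (h : ℝ → X → X),
    Continuous (fun p : ℝ × X => h p.1 p.2) ∧ h 0 = id ∧ h 1 = fun _ => x₀ := by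
  obtain ⟨x₀, ⟨H⟩⟩ := id_nullhomotopic X
  refine ⟨x₀, fun t x => H (projIcc 0 1 zero_le_one t, x), ?_, ?_, ?_⟩
  · exact H.continuous.comp ((continuous_projIcc.comp continuous_fst).prodMk continuous_snd)
  · funext x
    have : projIcc (0 : ℝ) 1 zero_le_one 0 = 0 := projIcc_left zero_le_one
    show H (projIcc (0 : ℝ) 1 zero_le_one 0, x) = x
    rw [this]
    simp
  · funext x
    have : projIcc (0 : ℝ) 1 zero_le_one 1 = 1 := projIcc_right zero_le_one
    show H (projIcc (0 : ℝ) 1 zero_le_one 1, x) = x₀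
    rw [this]
    simp

/-- uniform continuity of the homotopy in small steps -/
theorem unif {h : ℝ → X → X} (hh : Continuous (fun p : ℝ × X => h p.1 p.2)) {A : Set X}
    (hA : IsCompact A) {ε : ℝ} (hε : 0 < ε) : ∃ κ > 0, ∃ N₀ : ℕ, ∀ N ≥ N₀, 0 < N → ∀ a < N,
      ∀ x ∈ A, ∀ y ∈ A, dist x y < κ → ∀ s t : ℝ,
        (s = (a : ℝ) / N ∨ s = ((a : ℝ) + 1) / N) → (t = (a : ℝ) / N ∨ t = ((a : ℝ) + 1) / N) →
        dist (h s x) (h t y) < ε := by
  have hK : IsCompact (Icc (0 : ℝ) 1 ×ˢ A) := isCompact_Icc.prod hA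
  have hu := hK.uniformContinuousOn_of_continuous hh.continuousOn
  rw [Metric.uniformContinuousOn_iff] at hu
  obtain ⟨κ, hκ, hu⟩ := hu ε hε
  obtain ⟨N₀, hN₀⟩ := exists_nat_gt (1 / κ)
  refine ⟨κ, hκ, N₀, fun N hN hN0 a ha x hx y hy hxy s t hs ht => ?_⟩
  have hN' : (0 : ℝ) < N := by exact_mod_cast hN0
  have ha' : (a : ℝ) + 1 ≤ N := by exact_mod_cast ha
  have hκN : 1 / (N : ℝ) < κ := by
    rw [div_lt_iff₀ hN']
    have : (1 / κ) < N := hN₀.trans_le (by exact_mod_cast hN)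
    rwa [div_lt_iff₀ hκ, mul_comm] at this
  have h1 : (a : ℝ) / N ∈ Icc (0 : ℝ) 1 :=
    ⟨by positivity, by rw [div_le_one hN']; linarith⟩
  have h2 : ((a : ℝ) + 1) / N ∈ Icc (0 : ℝ) 1 :=
    ⟨by positivity, by rw [div_le_one hN']; exact ha'⟩
  have h3 : ((a : ℝ) + 1) / N - (a : ℝ) / N = 1 / N := by field_simp; ring
  have hs' : s ∈ Icc (0 : ℝ) 1 := by rcases hs with rfl | rfl <;> assumption
  have ht' : t ∈ Icc (0 : ℝ) 1 := by rcases ht with rfl | rfl <;> assumption
  have hst : dist s t < κ := by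
    rw [Real.dist_eq]
    have h4 : (0 : ℝ) < 1 / N := by positivity
    rcases hs with rfl | rfl <;> rcases ht with rfl | rfl
    · simpa using hκ
    · rw [abs_sub_comm, h3, abs_of_pos h4]; exact hκN
    · rw [h3, abs_of_pos h4]; exact hκN
    · simpa using hκ
  refine hu (s, x) ⟨hs', hx⟩ (t, y) ⟨ht', hy⟩ ?_
  rw [Prod.dist_eq]
  exact max_lt hst hxy

/-- The filling operator on a compact set. -/
theorem exists_op [ContractibleSpace X] {A : Set X} (hA : IsCompact A) :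
    ∃ A' : Set X, IsCompact A' ∧ A ⊆ A' ∧ ∀ ε > 0, ∃ κ > 0, ∃ T : Ch k X →ₗ[k] Ch k X,
      (∀ c, bd (T c) + T (bd c) = c) ∧ ∀ l, Sm κ l → In A l →
        Sup (fun m => m.length = l.length + 1 ∧ Sm ε m ∧ In A' m)
          (T (Finsupp.single l 1)) := by
  obtain ⟨x₀, h, hh, h0, h1⟩ := exists_htpy (X := X)
  have hK : IsCompact (Icc (0 : ℝ) 1 ×ˢ A) := isCompact_Icc.prod hA
  refine ⟨insert x₀ ((fun p : ℝ × X => h p.1 p.2) '' (Icc (0 : ℝ) 1 ×ˢ A)),
    (hK.image hh).insert _, ?_, fun ε hε => ?_⟩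
  · intro x hx
    right
    exact ⟨(0, x), ⟨⟨le_rfl, zero_le_one⟩, hx⟩, by simp [h0]⟩
  · obtain ⟨κ, hκ, N₀, hu⟩ := unif hh hA hε
    refine ⟨κ, hκ, fil k h x₀ (N₀ + 1), fun c => bd_fil (Nat.succ_pos _) h0 c, fun l hl hlA => ?_⟩
    refine sup_fil h1 l _ ⟨by simp, ?_, ?_⟩ fun a ha m hm hm' => ⟨hm, ?_, ?_⟩
    · have hx : ∀ x ∈ (x₀ :: l.map fun _ => x₀), x = x₀ := by
        intro x hx
        rcases List.mem_cons.1 hx with rfl | hx
        · rfl
        · obtain ⟨y, -, rfl⟩ := List.mem_map.1 hx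
          rfl
      intro x hx' y hy'
      rw [hx x hx', hx y hy', dist_self]
      exact hε
    · intro x hx
      left
      rcases List.mem_cons.1 hx with rfl | hx
      · rfl
      · obtain ⟨y, -, rfl⟩ := List.mem_map.1 hx
        rfl
    · intro y hy z hz
      obtain ⟨x, hx, hyx⟩ := hm' y hy
      obtain ⟨x', hx', hzx⟩ := hm' z hz
      have hd := hu (N₀ + 1) (Nat.le_succ _) (Nat.succ_pos _) a ha x (hlA x hx) x' (hlA x' hx')
        (hl x hx x' hx')
      rcases hyx with rfl | rfl <;> rcases hzx with rfl | rfl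
      · exact hd _ _ (Or.inl rfl) (Or.inl rfl)
      · exact hd _ _ (Or.inl rfl) (Or.inr rfl)
      · exact hd _ _ (Or.inr rfl) (Or.inl rfl)
      · exact hd _ _ (Or.inr rfl) (Or.inr rfl)
    · intro y hy
      right
      obtain ⟨x, hx, hyx⟩ := hm' y hy
      have hN' : (0 : ℝ) < ((N₀ + 1 : ℕ) : ℝ) := by exact_mod_cast Nat.succ_pos _
      have ha' : (a : ℝ) + 1 ≤ ((N₀ + 1 : ℕ) : ℝ) := by exact_mod_cast ha
      rcases hyx with rfl | rfl
      · exact ⟨(_, x), ⟨⟨by positivity, by rw [div_le_one hN']; linarith⟩, hlA x hx⟩, rfl⟩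
      · exact ⟨(_, x), ⟨⟨by positivity, by rw [div_le_one hN']; exact ha'⟩, hlA x hx⟩, rfl⟩

/-- **(M5)** -/
theorem fillS [ContractibleSpace X] : FillS k X := by
  intro A hA
  obtain ⟨A', hA', hAA', H⟩ := exists_op (k := k) hA
  refine ⟨A', hA', hAA', fun ε hε => ?_⟩
  obtain ⟨κ, hκ, T, hT, hT'⟩ := H ε hε
  refine ⟨κ, hκ, fun n c hc hs => ⟨T c, ?_, ?_⟩⟩
  · have := hT c
    rwa [hc, map_zero, add_zero] at this
  · refine sup_lin' T c fun l hl => ?_
    obtain ⟨h1, h2, h3⟩ := hs l hl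
    rw [← h1]
    exact hT' l h2 h3

end Top

section Ball

variable {k : Type*} [CommRing k] {E : Type*} [NormedAddCommGroup E] [NormedSpace ℝ E]

/-- **(M5')** filling in balls -/
theorem fill_ball {u : E} {r δ ε : ℝ} (hr : 0 ≤ r) (hε : 0 < ε) (hδ : δ < ε) {n : ℕ}
    {c : Ch k E} (hc : bd c = 0)
    (hs : Sup (fun l => l.length = n ∧ Sm δ l ∧ In (closedBall u r) l) c) :
    ∃ e : Ch k E, bd e = c ∧
      Sup (fun l => l.length = n + 1 ∧ Sm ε l ∧ In (closedBall u r) l) e := by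
  set h : ℝ → E → E := fun t x => x + t • (u - x) with hh
  have h0 : h 0 = id := by funext x; simp [hh]
  have h1 : h 1 = fun _ => u := by funext x; simp [hh]
  obtain ⟨N, hN⟩ := exists_nat_gt (r / (ε - δ))
  have hed : 0 < ε - δ := by linarith
  have hN0 : 0 < N + 1 := Nat.succ_pos _
  have hN' : (0 : ℝ) < ((N + 1 : ℕ) : ℝ) := by exact_mod_cast hN0
  have hrN : r / ((N + 1 : ℕ) : ℝ) ≤ ε - δ := by
    rw [div_le_iff₀ hN']
    rw [div_lt_iff₀ hed] at hN
    push_cast
    nlinarith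
  -- the estimates
  have hd : ∀ (s t : ℝ), 0 ≤ s → s ≤ 1 → 0 ≤ t → t ≤ 1 → |s - t| ≤ 1 / ((N + 1 : ℕ) : ℝ) →
      ∀ x ∈ closedBall u r, ∀ y ∈ closedBall u r, dist (h s x) (h t y) ≤ dist x y + (ε - δ) := by
    intro s t hs0 hs1 ht0 ht1 hst x hx y hy
    have e1 : h s x - h t y = (1 - s) • (x - y) + (t - s) • (y - u) := by
      simp only [hh, smul_sub, sub_smul, one_smul]; abel
    rw [dist_eq_norm, e1]
    refine (norm_add_le _ _).trans ?_
    rw [norm_smul, norm_smul, Real.norm_eq_abs, Real.norm_eq_abs, abs_of_nonneg (by linarith),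
      ← dist_eq_norm, ← dist_eq_norm]
    have h2 : (1 - s) * dist x y ≤ dist x y := by
      have := @dist_nonneg _ _ x y
      nlinarith
    have h3 : |t - s| * dist y u ≤ ε - δ := by
      have h4 : dist y u ≤ r := hy
      have h5 : |t - s| ≤ 1 / ((N + 1 : ℕ) : ℝ) := by rw [abs_sub_comm]; exact hst
      calc |t - s| * dist y u ≤ (1 / ((N + 1 : ℕ) : ℝ)) * r :=
            mul_le_mul h5 h4 dist_nonneg (by positivity)
        _ = r / ((N + 1 : ℕ) : ℝ) := by ring
        _ ≤ ε - δ := hrN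
    linarith
  have hb : ∀ s : ℝ, 0 ≤ s → s ≤ 1 → ∀ x ∈ closedBall u r, h s x ∈ closedBall u r := by
    intro s hs0 hs1 x hx
    have e1 : h s x - u = (1 - s) • (x - u) := by
      simp only [hh, smul_sub, sub_smul, one_smul]; abel
    rw [mem_closedBall, dist_eq_norm, e1, norm_smul, Real.norm_eq_abs,
      abs_of_nonneg (by linarith), ← dist_eq_norm]
    have h4 : dist x u ≤ r := hx
    have := @dist_nonneg _ _ x u
    nlinarith
  refine ⟨fil k h u (N + 1) c, ?_, sup_lin' _ c fun l hl => ?_⟩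
  · have := bd_fil (k := k) (x₀ := u) hN0 h0 c
    rwa [hc, map_zero, add_zero] at this
  obtain ⟨hl1, hl2, hl3⟩ := hs l hl
  have hall : ∀ x ∈ (u :: l.map fun _ => u), x = u := by
    intro x hx
    rcases List.mem_cons.1 hx with rfl | hx
    · rfl
    · obtain ⟨y, -, rfl⟩ := List.mem_map.1 hx
      rfl
  refine sup_fil h1 l _ ⟨by simp [hl1], ?_, ?_⟩ fun a ha m hm hm' => ⟨by rw [hm, hl1], ?_, ?_⟩
  · intro x hx y hy
    rw [hall x hx, hall y hy, dist_self]
    exact hε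
  · intro x hx
    rw [hall x hx]
    exact mem_closedBall_self hr
  · have ha' : (a : ℝ) + 1 ≤ ((N + 1 : ℕ) : ℝ) := by exact_mod_cast ha
    have b1 : (0 : ℝ) ≤ (a : ℝ) / ((N + 1 : ℕ) : ℝ) := by positivity
    have b2 : (a : ℝ) / ((N + 1 : ℕ) : ℝ) ≤ 1 := by rw [div_le_one hN']; linarith
    have b3 : (0 : ℝ) ≤ ((a : ℝ) + 1) / ((N + 1 : ℕ) : ℝ) := by positivity
    have b4 : ((a : ℝ) + 1) / ((N + 1 : ℕ) : ℝ) ≤ 1 := by rw [div_le_one hN']; exact ha'
    have b5 : ((a : ℝ) + 1) / ((N + 1 : ℕ) : ℝ) - (a : ℝ) / ((N + 1 : ℕ) : ℝ) =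
      1 / ((N + 1 : ℕ) : ℝ) := by rw [← sub_div]; congr 1; ring
    have b6 : (0 : ℝ) < 1 / ((N + 1 : ℕ) : ℝ) := by positivity
    intro y hy z hz
    obtain ⟨x, hx, hyx⟩ := hm' y hy
    obtain ⟨x', hx', hzx⟩ := hm' z hz
    have hxx := hl2 x hx x' hx'
    rcases hyx with rfl | rfl <;> rcases hzx with rfl | rfl
    · refine (hd _ _ b1 b2 b1 b2 ?_ x (hl3 x hx) x' (hl3 x' hx')).trans_lt (by linarith)
      rw [sub_self, abs_zero]; exact b6.le
    · refine (hd _ _ b1 b2 b3 b4 ?_ x (hl3 x hx) x' (hl3 x' hx')).trans_lt (by linarith)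
      rw [abs_sub_comm, b5, abs_of_pos b6]
    · refine (hd _ _ b3 b4 b1 b2 ?_ x (hl3 x hx) x' (hl3 x' hx')).trans_lt (by linarith)
      rw [b5, abs_of_pos b6]
    · refine (hd _ _ b3 b4 b3 b4 ?_ x (hl3 x hx) x' (hl3 x' hx')).trans_lt (by linarith)
      rw [sub_self, abs_zero]; exact b6.le
  · have ha' : (a : ℝ) + 1 ≤ ((N + 1 : ℕ) : ℝ) := by exact_mod_cast ha
    intro y hy
    obtain ⟨x, hx, hyx⟩ := hm' y hy
    rcases hyx with rfl | rfl
    · exact hb _ (by positivity) (by rw [div_le_one hN']; linarith) x (hl3 x hx)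
    · exact hb _ (by positivity) (by rw [div_le_one hN']; exact ha') x (hl3 x hx)

end Ball

end Vale.Agent.P239.M.Fill

namespace Vale.Agent.P239.M

open Metric Set

/-- **(M5)**, verbatim form of the skeleton -/
theorem fillS (k : Type*) [CommRing k] (X : Type*) [MetricSpace X] [ContractibleSpace X] :
    FillS k X := Fill.fillS

/-- **(M5')**, verbatim form of the skeleton -/
theorem fill_ball {n : ℕ} (k : Type*) [CommRing k] (u : Fin n → ℝ) (r : ℝ) (hr : 0 ≤ r) (δ ε : ℝ)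
    (hδ : 0 < δ) (h : δ < ε) (m : ℕ) (c : Ch k (Fin n → ℝ)) (hc : bd c = 0)
    (hs : Sup (fun l => l.length = m ∧ Sm δ l ∧ In (closedBall u r) l) c) :
    ∃ e : Ch k (Fin n → ℝ), bd e = c ∧
      Sup (fun l => l.length = m + 1 ∧ Sm ε l ∧ In (closedBall u r) l) e :=
  Fill.fill_ball hr (hδ.trans h) h hc hs

end Vale.Agent.P239.M
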