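import Vale.Agent.P239.S.M_Sup
import Vale.Agent.P239.S.M_Sp
import Vale.Agent.P239.S.M_Ker
import Vale.Agent.P239.S.M_Box
import Vale.Agent.P239.S.M_Fill
import Vale.Agent.P239.S.M_Chart

/-!
Module M, block M10: local cohomology (compact supports) of a chart.
-/

namespace Vale.Agent.P239.M

open Metric Set Topology

section LCAlg

variable {X Y : Type*}

private theorem lc_ext_ext {A : Type*} [AddCommGroup A] [Module (ZMod 2) A] (u : List Y → A)
    (v : List X → Ch (ZMod 2) Y) (c : Ch (ZMod 2) X) :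
    ext u (ext v c) = ext (fun l => ext u (v l)) c := by
  induction c using Finsupp.induction_linear with
  | zero => simp
  | add a b ha hb => rw [map_add, map_add, ha, hb, map_add]
  | single l r => simp [Finsupp.linearCombination_single]

private theorem lc_ext_pf {A : Type*} [AddCommGroup A] [Module (ZMod 2) A] (u : List Y → A)
    (f : X → Y) (c : Ch (ZMod 2) X) : ext u (pf f c) = ext (fun l => u (l.map f)) c := by
  induction c using Finsupp.induction_linear with
  | zero => simp
  | add a b ha hb => rw [map_add, map_add, ha, hb, map_add]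
  | single l r => rw [pf_single]; simp [Finsupp.linearCombination_single]

private theorem lc_pf_ext (f : X → Y) {Z : Type*} (v : List Z → Ch (ZMod 2) X)
    (c : Ch (ZMod 2) Z) : pf f (ext v c) = ext (fun l => pf f (v l)) c := by
  induction c using Finsupp.induction_linear with
  | zero => simp
  | add a b ha hb => rw [map_add, map_add, ha, hb, map_add]
  | single l r => simp [Finsupp.linearCombination_single]

private theorem lc_ext_add {A : Type*} [AddCommGroup A] [Module (ZMod 2) A] (u v : List X → A)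
    (c : Ch (ZMod 2) X) : ext (fun l => u l + v l) c = ext u c + ext v c := by
  induction c using Finsupp.induction_linear with
  | zero => simp
  | add a b ha hb => rw [map_add, map_add, map_add, ha, hb]; abel
  | single l r => simp [Finsupp.linearCombination_single]

private theorem lc_ext_zero {A : Type*} [AddCommGroup A] [Module (ZMod 2) A]
    (c : Ch (ZMod 2) X) : ext (fun _ => (0 : A)) c = 0 := by
  induction c using Finsupp.induction_linear with
  | zero => simp
  | add a b ha hb => rw [map_add, ha, hb, add_zero]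
  | single l r => simp [Finsupp.linearCombination_single]

private theorem lc_ext_smul {A : Type*} [AddCommGroup A] [Module (ZMod 2) A] (r : ZMod 2)
    (u : List X → A) (c : Ch (ZMod 2) X) : ext (fun l => r • u l) c = r • ext u c := by
  induction c using Finsupp.induction_linear with
  | zero => simp
  | add a b ha hb => rw [map_add, map_add, ha, hb, smul_add]
  | single l s =>
    simp only [Finsupp.linearCombination_single]
    rw [smul_comm]

private theorem lc_swap {A : Type*} [AddCommGroup A] [Module (ZMod 2) A]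
    (f : List X → List Y → A) (c : Ch (ZMod 2) X) (d : Ch (ZMod 2) Y) :
    ext (fun a => ext (fun b => f a b) d) c = ext (fun b => ext (fun a => f a b) c) d := by
  induction c using Finsupp.induction_linear with
  | zero => simp [lc_ext_zero]
  | add a b ha hb =>
    rw [map_add, ha, hb, ← lc_ext_add]
    simp only [map_add]
  | single l r =>
    simp only [Finsupp.linearCombination_single]
    rw [lc_ext_smul]

private theorem lc_sp_add {A : Type*} [AddCommGroup A] (B B' : List X → List X → A)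
    (l : List X) : sp (fun p s => B p s + B' p s) l = sp B l + sp B' l := by
  induction l generalizing B B' with
  | nil => simp [sp]
  | cons x l ih =>
    simp only [sp]
    rw [ih (fun p s => B (x :: p) s) (fun p s => B' (x :: p) s)]
    abel

private theorem lc_sp_lin {A A' : Type*} [AddCommGroup A] [AddCommGroup A'] (L : A →+ A')
    (B : List X → List X → A) (l : List X) : L (sp B l) = sp (fun p s => L (B p s)) l := by
  induction l generalizing B with
  | nil => simp [sp]
  | cons x l ih =>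
    simp only [sp]
    rw [map_add, ih (fun p s => B (x :: p) s)]

private theorem lc_sp_zero {A : Type*} [AddCommGroup A] (l : List X) :
    sp (fun _ _ => (0 : A)) l = 0 := by
  induction l with
  | nil => simp [sp]
  | cons x l ih =>
    simp only [sp]
    rw [ih, add_zero]

/-- duality of the two cap products -/
private theorem lc_dual (θ ω : List X → ZMod 2) (y : List X) :
    ext θ (capL ω y) = ext ω (capS θ y) := by
  have h1 := lc_sp_lin (ext θ).toAddMonoidHom (fun p s => Finsupp.single p (ω s)) y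
  have h2 := lc_sp_lin (ext ω).toAddMonoidHom (fun p s => Finsupp.single s (θ p)) y
  have e1 : ext θ (capL ω y) = sp (fun p s => ω s • θ p) y := by
    refine h1.trans ?_
    congr 1
    funext p s
    exact Finsupp.linearCombination_single _ _ _
  have e2 : ext ω (capS θ y) = sp (fun p s => θ p • ω s) y := by
    refine h2.trans ?_
    congr 1
    funext p s
    exact Finsupp.linearCombination_single _ _ _
  rw [e1, e2]
  congr 1
  funext p s
  rw [smul_eq_mul, smul_eq_mul, mul_comm]

private theorem lc_capL_ext (f : List X → List Y → ZMod 2) (d : Ch (ZMod 2) Y) (y : List X) :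
    capL (fun l => ext (fun b => f l b) d) y = ext (fun b => capL (fun l => f l b) y) d := by
  induction d using Finsupp.induction_linear with
  | zero =>
    simp only [map_zero]
    unfold capL
    simp only [Finsupp.single_zero]
    exact lc_sp_zero y
  | add a b ha hb =>
    rw [map_add, ← ha, ← hb]
    simp only [map_add]
    unfold capL
    simp only [Finsupp.single_add]
    rw [lc_sp_add]
  | single b r =>
    simp only [Finsupp.linearCombination_single]
    unfold capL
    have h := lc_sp_lin (A := Ch (ZMod 2) X) (DistribSMul.toAddMonoidHom (Ch (ZMod 2) X) r)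
      (fun p s => Finsupp.single p (f s b)) y
    refine Eq.trans ?_ h.symm
    congr 1
    funext p s
    simp

private theorem lc_eq_zero {c : Ch (ZMod 2) X} (h : Sup (fun _ => False) c) : c = 0 := by
  rw [← Finsupp.support_eq_empty, Finset.eq_empty_iff_forall_notMem]
  exact fun l hl => h l hl

private theorem lc_capS_zero (θ : List X → ZMod 2) (y : List X)
    (h : ∀ p x s, y = p ++ x :: s → θ (p ++ [x]) = 0) : capS θ y = 0 :=
  lc_eq_zero ((sup_capS θ y).mono fun _ ⟨p, x, s, h1, _, h2⟩ => h2 (h p x s h1))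

private theorem lc_capL_zero (ω : List X → ZMod 2) (y : List X)
    (h : ∀ p x s, y = p ++ x :: s → ω (x :: s) = 0) : capL ω y = 0 :=
  lc_eq_zero ((sup_capL ω y).mono fun _ ⟨p, x, s, h1, _, h2⟩ => h2 (h p x s h1))

private theorem lc_ext_eq_zero {A : Type*} [AddCommGroup A] [Module (ZMod 2) A]
    {P : List X → Prop} {u : List X → A} {c : Ch (ZMod 2) X} (hc : Sup P c)
    (h : ∀ l, P l → u l = 0) : ext u c = 0 := by
  rw [ext_congr (v := fun _ => (0 : A)) hc h, lc_ext_zero]

end LCAlg

section LCPhi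

variable {X : Type*} [MetricSpace X] {n : ℕ} {β : (Fin n → ℝ) → X}

open Classical in
/-- cap product with the kernel of a list -/
noncomputable def lcPhi (β : (Fin n → ℝ) → X) (N : ℕ) (t : List X) : Ch (ZMod 2) X :=
  if t = [] then Finsupp.single [] 1 else ext (capL fun s => KerC β s t) (muC β N)

omit [MetricSpace X] in
theorem lcPhi_nil (N : ℕ) : lcPhi β N [] = Finsupp.single [] 1 := if_pos rfl

omit [MetricSpace X] in
theorem lcPhi_of_ne (N : ℕ) {t : List X} (ht : t ≠ []) :
    lcPhi β N t = ext (capL fun s => KerC β s t) (muC β N) := if_neg ht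

omit [MetricSpace X] in
private theorem lc_muC_length (N : ℕ) (hN : 0 < N) :
    Sup (fun l => l.length = n + 1) (muC β N) :=
  Sup.pf β ((sup_box n N hN).mono fun l h => by rw [List.length_map]; exact h.1)

private theorem lc_co_mem (hβ : IsOpenEmbedding β) {r : ℝ} {y : X} (hy : y ∈ β '' Q n r)
    (i : Fin n) : |co β i y| ≤ r := by
  obtain ⟨u, hu, rfl⟩ := hy
  rw [co_apply hβ]
  have h1 : ‖u‖ ≤ r := by simpa using hu
  exact (norm_le_pi_norm u i).trans h1

private theorem lc_KerC_edge (hβ : IsOpenEmbedding β) {t : List X} (ht : In (β '' Q n 8) t)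
    {l : List X} (h : ∃ i : Fin n, (∀ x ∈ l, co β i x = -9) ∨ ∀ x ∈ l, co β i x = 9) :
    KerC β l t = 0 := by
  obtain ⟨i, h⟩ := h
  rcases h with h | h
  · refine Ker_eq_zero _ _ _ (co β i) (List.mem_map.2 ⟨i, List.mem_finRange i, rfl⟩) 1
      fun x hx y hy => ?_
    unfold hh
    rw [if_pos]
    rw [h x hx]
    have := abs_le.1 (lc_co_mem hβ (ht y hy) i)
    linarith
  · refine Ker_eq_zero _ _ _ (co β i) (List.mem_map.2 ⟨i, List.mem_finRange i, rfl⟩) 0
      fun x hx y hy => ?_
    unfold hh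
    rw [if_neg]
    rw [h x hx]
    have := abs_le.1 (lc_co_mem hβ (ht y hy) i)
    linarith

theorem bd_lcPhi (hn : 0 < n) (hβ : IsOpenEmbedding β) {N : ℕ} (hN : 0 < N) (t : List X)
    (ht : In (β '' Q n 8) t) : bd (lcPhi β N t) = ext (lcPhi β N) (bdL (ZMod 2) t) := by
  rcases t with _ | ⟨x, t⟩
  · rw [lcPhi_nil, bd_single]
    simp [bdL]
  rw [lcPhi_of_ne N (List.cons_ne_nil x t), bd_ext_capL]
  have h1 : ext (capL fun s => KerC β s (x :: t)) (bd (muC β N)) = 0 := by
    refine lc_ext_eq_zero (sup_bd_muC hβ hn N hN) fun l hl => lc_capL_zero _ _ ?_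
    intro p y s hy
    refine lc_KerC_edge hβ ht ?_
    obtain ⟨i, hi⟩ := hl
    refine ⟨i, hi.imp (fun h z hz => h z ?_) fun h z hz => h z ?_⟩ <;>
    · rw [hy]
      exact List.mem_append_right _ hz
  have h4 : KerC β [] (x :: t) = 0 := Ker_nil_left _ _
  have h2 : ext (capL fun l => ext (fun s => KerC β s (x :: t)) (bdL (ZMod 2) l)) (muC β N) =
      ext (fun b => ext (capL fun l => KerC β l b) (muC β N)) (bdL (ZMod 2) (x :: t)) := by
    rw [← lc_swap (fun l b => capL (fun l => KerC β l b) l)]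
    refine congrFun (congrArg _ ?_) _
    congr 1
    funext y
    rw [← lc_capL_ext]
    congr 1
    funext l
    exact KerC_bd hβ l (x :: t)
  rw [h1, h2, h4, zero_smul, add_zero, zero_add]
  rcases t with _ | ⟨x', t⟩
  · have h5 : bdL (ZMod 2) [x] = Finsupp.single [] 1 := by simp [bdL]
    rw [h5, Finsupp.linearCombination_single, Finsupp.linearCombination_single, one_smul, one_smul,
      lcPhi_nil, muC_right hβ N hN x (ht x (List.mem_cons_self ..))]
    have h6 : ext (capL fun l => KerC β l []) (muC β N) = 0 := by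
      have : (fun l => KerC β l []) = fun _ => (0 : ZMod 2) := by
        funext l
        exact Ker_nil_right _ _
      rw [this]
      have h7 : capL (fun _ : List X => (0 : ZMod 2)) = fun _ => 0 := by
        funext y
        exact lc_capL_zero _ _ fun _ _ _ _ => rfl
      rw [h7, lc_ext_zero]
    rw [h6, zero_add]
  · have h5 : ext (fun s => KerC β s (x :: x' :: t)) (muC β N) = 0 := by
      refine lc_ext_eq_zero (lc_muC_length N hN) fun l hl => ?_
      by_contra hne
      have h6 := Ker_length _ _ _ hne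
      simp only [List.length_cons, List.length_map, List.length_finRange] at h6
      omega
    rw [h5, Finsupp.single_zero, add_zero]
    refine ext_congr (sup_bdL _) fun b hb => ?_
    rw [lcPhi_of_ne]
    rintro rfl
    have := hb.2
    simp at this

/-- the lists of `lcPhi β N t` are near `t` -/
theorem sup_lcPhi (hβ : IsOpenEmbedding β) {κ₃ : ℝ} (hκ : 0 < κ₃) : ∃ k > 0,
    ∀ N : ℕ, 0 < N → Sup (fun l => Sm k l ∧ In (β '' Q n 9) l) (muC β N) →
    ∀ t : List X, Sm k t → In (β '' Q n 6) t →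
      Sup (fun l => l.length = t.length ∧ In {y | ∃ x ∈ t, dist x y < κ₃} l) (lcPhi β N t) := by
  obtain ⟨k1, hk1, h1⟩ := KerC_local hβ (κ := κ₃ / 2) (by linarith)
  obtain ⟨k2, hk2, h2⟩ := chart_mod hβ (r := 9) (R := 10) (by norm_num) (κ := 1 / 2) (by norm_num)
  refine ⟨min k1 (min k2 (κ₃ / 2)), lt_min hk1 (lt_min hk2 (by linarith)), ?_⟩
  intro N hN hμ t ht ht6
  rcases t with _ | ⟨x, t⟩
  · rw [lcPhi_nil]
    refine Sup.single _ ⟨rfl, ?_⟩
    intro y hy
    simp at hy
  rw [lcPhi_of_ne N (List.cons_ne_nil x t)]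
  have hμ' : Sup (fun l => l.length = n + 1 ∧ Sm (min k1 (min k2 (κ₃ / 2))) l ∧
      In (β '' Q n 9) l) (muC β N) := fun l hl => ⟨lc_muC_length N hN l hl, hμ l hl⟩
  refine Sup.ext hμ' fun y hy => (sup_capL _ y).mono ?_
  rintro l ⟨p, z, s, hys, hl, hK⟩
  obtain ⟨hy1, hy2, hy3⟩ := hy
  have hsub : ∀ w ∈ z :: s, w ∈ y := fun w hw => by
    rw [hys]
    exact List.mem_append_right _ hw
  have hsubl : ∀ w ∈ l, w ∈ y := fun w hw => by
    rw [hl] at hw
    rw [hys]
    rcases List.mem_append.1 hw with h | h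
    · exact List.mem_append_left _ h
    · rw [List.mem_singleton] at h
      rw [h]
      exact List.mem_append_right _ (List.mem_cons_self ..)
  -- coordinates
  have hc9 : ∀ w ∈ y, ∀ w' ∈ y, ∀ i : Fin n, |co β i w - co β i w'| ≤ 1 / 2 := by
    intro w hw w' hw' i
    obtain ⟨a, ha, rfl⟩ := hy3 w hw
    obtain ⟨v, -, rfl, hv2⟩ := h2 a ha w' (lt_of_lt_of_le (hy2 _ hw _ hw')
      ((min_le_right _ _).trans (min_le_left _ _)))
    rw [co_apply hβ, co_apply hβ]
    have h5 := dist_le_pi_dist a v i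
    rw [Real.dist_eq] at h5
    linarith
  have hct : ∀ w ∈ x :: t, ∀ w' ∈ x :: t, ∀ i : Fin n, |co β i w - co β i w'| ≤ 1 / 2 := by
    intro w hw w' hw' i
    obtain ⟨a, ha, rfl⟩ := ht6 w hw
    obtain ⟨v, -, rfl, hv2⟩ := h2 a (closedBall_subset_closedBall (by norm_num) ha) w'
      (lt_of_lt_of_le (ht _ hw _ hw') ((min_le_right _ _).trans (min_le_left _ _)))
    rw [co_apply hβ, co_apply hβ]
    have h5 := dist_le_pi_dist a v i
    rw [Real.dist_eq] at h5
    linarith
  have hx6 := ht6 x (List.mem_cons_self ..)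
  have h8 : In (β '' Q n 8) (z :: s) := by
    intro w hw
    obtain ⟨a, ha, rfl⟩ := hy3 w (hsub w hw)
    refine ⟨a, ?_, rfl⟩
    rw [mem_closedBall_zero_iff, pi_norm_le_iff_of_nonneg (by norm_num)]
    intro i
    have h5 := Ker_local _ _ _ hK (co β i) (List.mem_map.2 ⟨i, List.mem_finRange i, rfl⟩)
      (fun w hw w' hw' => hc9 w (hsub w hw) w' (hsub w' hw') i)
      (fun w hw w' hw' => hct w hw w' hw' i) _ hw x (List.mem_cons_self ..)
    rw [co_apply hβ] at h5
    have h6 := lc_co_mem hβ hx6 i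
    rw [Real.norm_eq_abs]
    have h7 := abs_sub_abs_le_abs_sub (a i) (co β i x)
    linarith
  have hloc := h1 (z :: s) (x :: t)
    (fun w hw w' hw' => lt_of_lt_of_le (hy2 w (hsub w hw) w' (hsub w' hw')) (min_le_left _ _))
    (fun w hw w' hw' => lt_of_lt_of_le (ht w hw w' hw') (min_le_left _ _)) h8
    (fun w hw => image_mono (closedBall_subset_closedBall (by norm_num)) (ht6 w hw)) hK
  refine ⟨?_, fun w hw => ⟨x, List.mem_cons_self .., ?_⟩⟩
  · have h5 := Ker_length _ _ _ hK
    rw [hys] at hy1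
    rw [hl]
    simp only [List.length_cons, List.length_map, List.length_finRange, List.length_append,
      List.length_nil] at h5 hy1 ⊢
    omega
  · have h5 := hloc z (List.mem_cons_self ..) x (List.mem_cons_self ..)
    have h6 : dist w z < κ₃ / 2 := lt_of_lt_of_le (hy2 w (hsubl w hw) z
      (hsub z (List.mem_cons_self ..))) ((min_le_right _ _).trans (min_le_right _ _))
    calc dist x w = dist w x := dist_comm _ _
      _ ≤ dist w z + dist z x := dist_triangle _ _ _
      _ < κ₃ / 2 + κ₃ / 2 := add_lt_add h6 h5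
      _ = κ₃ := by ring

end LCPhi

section LCMain

variable {X : Type*} [MetricSpace X] {n : ℕ}

/-- cochains cut to one length -/
private theorem lc_cut {X : Type*} {φ : List X → ZMod 2} {q : ℕ} {P : List X → Prop}
    (h : ∀ b, P b → b.length = q + 2 → ext φ (bdL (ZMod 2) b) = 0) (l : List X) (hl : P l) :
    ext (fun b => if b.length = q + 1 then φ b else 0) (bdL (ZMod 2) l) = 0 := by
  by_cases hq : l.length = q + 2
  · rw [ext_congr (v := φ) (sup_bdL l) fun b hb => if_pos (by have := hb.2; omega)]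
    exact h l hl hq
  · refine lc_ext_eq_zero (sup_bdL l) fun b hb => if_neg ?_
    have := hb.2
    omega

private theorem lc_sm_map {β : (Fin n → ℝ) → X} {k κ δ : ℝ}
    (H : ∀ u ∈ Q n 9, ∀ v ∈ Q n 9, dist u v < k → dist (β u) (β v) < κ) (hδ : δ < k)
    {y : List (Fin n → ℝ)} (h9 : In (Q n 9) y) (hy : ∀ a ∈ y, ∀ b ∈ y, dist a b ≤ δ) :
    Sm κ (y.map β) := by
  intro a ha b hb
  obtain ⟨a', ha', rfl⟩ := List.mem_map.1 ha
  obtain ⟨b', hb', rfl⟩ := List.mem_map.1 hb
  exact H a' (h9 a' ha') b' (h9 b' hb') ((hy a' ha' b' hb').trans_lt hδ)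

theorem lcS (hn : 0 < n) {β : (Fin n → ℝ) → X} (hβ : IsOpenEmbedding β) (q : ℕ) (hq : 1 ≤ q)
    (hqn : q ≤ n) : LCS β q := by
  classical
  intro ρ hρ
  obtain ⟨k1, hk1, H1⟩ := chart_mod hβ (r := 3) (R := 5) (by norm_num) (κ := 1) one_pos
  obtain ⟨ρ', hρ'0, hρ'ρ, hρ'k⟩ : ∃ ρ' > 0, ρ' ≤ ρ ∧ ρ' ≤ k1 :=
    ⟨min ρ k1, lt_min hρ hk1, min_le_left _ _, min_le_right _ _⟩
  obtain ⟨k2, hk2, H2⟩ := chart_unif hβ 9 (κ := ρ' / 4) (by linarith)
  obtain ⟨r₁, hr₁0, hr₁1, hr₁2⟩ : ∃ r₁ > 0, r₁ ≤ 1 ∧ r₁ ≤ k2 / 3 :=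
    ⟨min 1 (k2 / 3), lt_min one_pos (by linarith), min_le_left _ _, min_le_right _ _⟩
  obtain ⟨k3, hk3, H3⟩ := chart_mod hβ (r := 3) (R := 5) (by norm_num) (κ := r₁) hr₁0
  obtain ⟨ρ₁, hρ₁0, hρ₁k, hρ₁ρ⟩ : ∃ ρ₁ > 0, ρ₁ ≤ k3 ∧ ρ₁ ≤ ρ' / 4 :=
    ⟨min k3 (ρ' / 4), lt_min hk3 (by linarith), min_le_left _ _, min_le_right _ _⟩
  refine ⟨ρ₁, hρ₁0, fun κ hκ => ?_⟩
  obtain ⟨κ₃, hκ₃0, hκ₃1, hκ₃2⟩ : ∃ κ₃ > 0, κ₃ ≤ κ / 4 ∧ κ₃ ≤ ρ' / 8 :=
    ⟨min (κ / 4) (ρ' / 8), lt_min (by linarith) (by linarith), min_le_left _ _, min_le_right _ _⟩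
  obtain ⟨k4, hk4, H4⟩ := sup_lcPhi hβ hκ₃0
  obtain ⟨k5, hk5, H5⟩ := KerC_local hβ (κ := κ₃ / 2) (by linarith)
  obtain ⟨κ', hκ'0, hκ'4, hκ'5, hκ'3⟩ : ∃ κ' > 0, κ' ≤ k4 ∧ κ' ≤ k5 ∧ κ' ≤ κ₃ / 2 :=
    ⟨min (min k4 k5) (κ₃ / 2), lt_min (lt_min hk4 hk5) (by linarith),
      (min_le_left _ _).trans (min_le_left _ _), (min_le_left _ _).trans (min_le_right _ _),
      min_le_right _ _⟩
  obtain ⟨N₁, hN₁⟩ := sup_muC hβ hκ'0
  obtain ⟨k7, hk7, H7⟩ := chart_unif hβ 9 hκ'0
  refine ⟨κ', hκ'0, fun x hx φ hφ1 hφ2 hφ3 => ?_⟩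
  obtain ⟨u, hu, rfl⟩ := hx
  -- the choice of `N`
  obtain ⟨η, hη0, hη7, hη1⟩ : ∃ η > 0, 2 * η ≤ k7 ∧ 2 * η ≤ r₁ :=
    ⟨min (k7 / 2) (r₁ / 2), lt_min (by linarith) (by linarith),
      by have := min_le_left (k7 / 2) (r₁ / 2); linarith,
      by have := min_le_right (k7 / 2) (r₁ / 2); linarith⟩
  obtain ⟨N, hN0, hNN, hNη, hNφ⟩ : ∃ N : ℕ, 0 < N ∧ N₁ ≤ N ∧ (18 : ℝ) / N < η ∧
      (q = n → ext φ (muC β N) = 0) := by
    obtain ⟨M, hM⟩ := exists_nat_gt (18 / η)
    have hM0 : (0 : ℝ) < M := lt_trans (by positivity) hM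
    obtain ⟨N₀, hN₀⟩ : ∃ N₀ : ℕ, q = n → ∀ N ≥ N₀, ext φ (muC β N) = 0 := by
      by_cases h : q = n
      · obtain ⟨N₀, h0⟩ := hφ3 h
        exact ⟨N₀, fun _ => h0⟩
      · exact ⟨0, fun h' => absurd h' h⟩
    have hM1 : 0 < M := by exact_mod_cast hM0
    refine ⟨max M (max N₁ N₀), lt_of_lt_of_le hM1 (le_max_left _ _),
      (le_max_left _ _).trans (le_max_right _ _), ?_,
      fun h => hN₀ h _ ((le_max_right _ _).trans (le_max_right _ _))⟩
    have h1 : (M : ℝ) ≤ (max M (max N₁ N₀) : ℕ) := by exact_mod_cast le_max_left _ _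
    calc (18 : ℝ) / (max M (max N₁ N₀) : ℕ) ≤ 18 / M := by gcongr
      _ < η := by rwa [div_lt_comm₀ hM0 hη0]
  have hκ'κ : κ' ≤ κ := by linarith
  -- the cochain cut to length `q + 1`
  set φ' : List X → ZMod 2 := fun b => if b.length = q + 1 then φ b else 0 with hφ'
  have hφ'ne : ∀ b, φ' b ≠ 0 → b.length = q + 1 ∧ φ b ≠ 0 := by
    intro b hb
    by_cases h : b.length = q + 1
    · simp only [hφ', if_pos h] at hb
      exact ⟨h, hb⟩
    · simp only [hφ', if_neg h] at hb
      exact absurd rfl hb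
  have hφ'0 : φ' [] = 0 := by
    by_contra h
    have := (hφ'ne _ h).1
    simp at this
  have hφ'd : ∀ l, Sm κ l → ext φ' (bdL (ZMod 2) l) = 0 := fun l hl =>
    lc_cut (P := Sm κ) hφ1 l hl
  have hφ'x : ∀ l, Sm κ l → φ' l ≠ 0 → ∀ y ∈ l, dist (β u) y < ρ₁ := fun l hl h =>
    hφ2 l hl (hφ'ne l h).1 (hφ'ne l h).2
  -- the chain in coordinates
  set θ : List (Fin n → ℝ) → ZMod 2 := fun l => φ' (l.map β) with hθ
  have hbox := sup_box n N hN0
  have hsm : ∀ y : List (Fin n → ℝ), In (Q n 9) y → (∀ a ∈ y, ∀ b ∈ y, dist a b ≤ 18 / N) →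
      Sm κ' (y.map β) := fun y h9 hy => lc_sm_map H7 (by linarith) h9 hy
  have hθx : ∀ y : List (Fin n → ℝ), In (Q n 9) y → (∀ a ∈ y, ∀ b ∈ y, dist a b ≤ 18 / N) →
      θ y ≠ 0 → ∀ a ∈ y, a ∈ Q n 5 ∧ dist u a < r₁ := by
    intro y h9 hy hne a ha
    have h1 := hφ'x (y.map β) (fun a ha b hb => (hsm y h9 hy a ha b hb).trans_le hκ'κ) hne (β a)
      (List.mem_map.2 ⟨a, ha, rfl⟩)
    obtain ⟨v, hv5, hv, hvd⟩ := H3 u hu (β a) (h1.trans_le hρ₁k)
    rw [hβ.injective hv] at hv5 hvd
    exact ⟨hv5, hvd⟩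
  have hz₀ : bd (ext (capS θ) (box n N)) = 0 := by
    rw [bd_ext_capS]
    have t1 : ext (capS θ) (bd (box n N)) = 0 := by
      have hb1 := sup_bd_box n N hn hN0
      have hb2 : Sup (fun l => In (Q n 9) l ∧ ∀ a ∈ l, ∀ b ∈ l, dist a b ≤ 18 / N)
          (bd (box n N)) := Sup.bd (fun l l' hs _ h => ⟨fun a ha => h.2.1 a (hs.subset ha),
            fun a ha b hb => h.2.2 a (hs.subset ha) b (hs.subset hb)⟩) hbox
      have hb3 : Sup (fun l => (∃ i : Fin n, (∀ u ∈ l, u i = -9) ∨ (∀ u ∈ l, u i = 9)) ∧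
          In (Q n 9) l ∧ ∀ a ∈ l, ∀ b ∈ l, dist a b ≤ 18 / N) (bd (box n N)) :=
        fun l hl => ⟨hb1 l hl, hb2 l hl⟩
      refine lc_ext_eq_zero hb3 fun l hl => lc_capS_zero _ _ fun p y s hy => ?_
      obtain ⟨⟨i, hi⟩, h9, hd⟩ := hl
      by_contra hne
      have hsub : ∀ a ∈ p ++ [y], a ∈ l := by
        intro a ha
        rw [hy]
        rcases List.mem_append.1 ha with h | h
        · exact List.mem_append_left _ h
        · rw [List.mem_singleton] at h
          rw [h]
          exact List.mem_append_right _ (List.mem_cons_self ..)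
      have hyl : y ∈ l := hsub y (List.mem_append_right _ (List.mem_singleton_self y))
      have h1 := (hθx (p ++ [y]) (fun a ha => h9 a (hsub a ha))
        (fun a ha b hb => hd a (hsub a ha) b (hsub b hb)) hne y
        (List.mem_append_right _ (List.mem_singleton_self y))).1
      have h2 : ‖y‖ ≤ 5 := by simpa using h1
      have h3 := (norm_le_pi_norm y i).trans h2
      rw [Real.norm_eq_abs, abs_le] at h3
      rcases hi with hi | hi
      · have := hi y hyl
        linarith [h3.1]
      · have := hi y hyl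
        linarith [h3.2]
    have t2 : ext (capS fun l => ext θ (bdL (ZMod 2) l)) (box n N) = 0 := by
      refine lc_ext_eq_zero hbox fun l hl => lc_capS_zero _ _ fun p y s hy => ?_
      have hsub : ∀ a ∈ p ++ [y], a ∈ l := by
        intro a ha
        rw [hy]
        rcases List.mem_append.1 ha with h | h
        · exact List.mem_append_left _ h
        · rw [List.mem_singleton] at h
          rw [h]
          exact List.mem_append_right _ (List.mem_cons_self ..)
      have e : ext θ (bdL (ZMod 2) (p ++ [y])) = ext φ' (bdL (ZMod 2) ((p ++ [y]).map β)) := by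
        rw [← pf_bdL, lc_ext_pf]
      rw [e]
      refine hφ'd _ fun a ha b hb => ?_
      exact (hsm (p ++ [y]) (fun a ha => hl.2.1 a (hsub a ha))
        (fun a ha b hb => hl.2.2 a (hsub a ha) b (hsub b hb)) a ha b hb).trans_le hκ'κ
    have t4 : ext θ (box n N) = 0 := by
      have e : ext θ (box n N) = ext φ' (muC β N) := by
        unfold muC
        rw [lc_ext_pf]
      rw [e]
      by_cases h : q = n
      · rw [ext_congr (v := φ) (lc_muC_length N hN0) fun l hl => if_pos (by omega)]
        exact hNφ h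
      · exact lc_ext_eq_zero (lc_muC_length N hN0) fun l hl => if_neg (by omega)
    have t3 : θ [] = 0 := hφ'0
    rw [t1, t2, t3, t4, zero_smul, Finsupp.single_zero]
    simp
  have hz₀s : Sup (fun l => l.length = n + 1 - q ∧ Sm η l ∧ In (closedBall u (2 * r₁)) l)
      (ext (capS θ) (box n N)) := by
    refine Sup.ext hbox fun y hy => (sup_capS θ y).mono ?_
    rintro l ⟨p, a, s, hys, hl, hne⟩
    obtain ⟨hy1, hy9, hyd⟩ := hy
    have hsub : ∀ b ∈ p ++ [a], b ∈ y := by
      intro b hb
      rw [hys]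
      rcases List.mem_append.1 hb with h | h
      · exact List.mem_append_left _ h
      · rw [List.mem_singleton] at h
        rw [h]
        exact List.mem_append_right _ (List.mem_cons_self ..)
    have hsubl : ∀ b ∈ l, b ∈ y := fun b hb => by
      rw [hys]
      rw [hl] at hb
      exact List.mem_append_right _ hb
    have h1 := (hφ'ne _ hne).1
    have h2 := (hθx (p ++ [a]) (fun b hb => hy9 b (hsub b hb))
        (fun b hb c hc => hyd b (hsub b hb) c (hsub c hc)) hne a
        (List.mem_append_right _ (List.mem_singleton_self a))).2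
    have hay : a ∈ y := hsub a (List.mem_append_right _ (List.mem_singleton_self a))
    refine ⟨?_, fun b hb c hc => (hyd b (hsubl b hb) c (hsubl c hc)).trans_lt hNη,
      fun b hb => ?_⟩
    · rw [hys] at hy1
      rw [hl]
      simp only [List.length_map, List.length_append, List.length_cons, List.length_nil]
        at h1 hy1 ⊢
      omega
    · rw [mem_closedBall]
      calc dist b u = dist u b := dist_comm _ _
        _ ≤ dist u a + dist a b := dist_triangle _ _ _
        _ ≤ r₁ + r₁ := add_le_add h2.le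
            ((hyd a hay b (hsubl b hb)).trans (hNη.le.trans (by linarith)))
        _ = 2 * r₁ := by ring
  obtain ⟨w₀, hw₀, hw₀s⟩ := fill_ball (ZMod 2) u (2 * r₁) (by linarith) η (2 * η) hη0
    (by linarith) (n + 1 - q) _ hz₀ hz₀s
  have hball : ∀ v ∈ closedBall u (2 * r₁), v ∈ Q n 5 ∧ dist (β u) (β v) < ρ' / 4 := by
    intro v hv
    rw [mem_closedBall] at hv
    have hu3 : ‖u‖ ≤ 3 := by simpa using hu
    have hv5 : ‖v‖ ≤ 5 := by
      have h1 : ‖v‖ ≤ ‖v - u‖ + ‖u‖ := by
        have := norm_add_le (v - u) u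
        rwa [sub_add_cancel] at this
      rw [← dist_eq_norm] at h1
      linarith
    refine ⟨by simpa using hv5, H2 u ?_ v ?_ ?_⟩
    · simpa using hu3.trans (by norm_num)
    · simpa using hv5.trans (by norm_num)
    · rw [dist_comm]
      linarith
  set w := pf β w₀ with hw
  have hws : Sup (fun l => l.length = n + 1 - q + 1 ∧ Sm κ' l ∧ In (β '' Q n 5) l ∧
      ∀ y ∈ l, dist (β u) y < ρ' / 4) w := by
    refine Sup.pf β (hw₀s.mono fun l hl => ⟨by rw [List.length_map]; exact hl.1, ?_, ?_, ?_⟩)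
    · intro a ha b hb
      obtain ⟨a', ha', rfl⟩ := List.mem_map.1 ha
      obtain ⟨b', hb', rfl⟩ := List.mem_map.1 hb
      refine H7 a' ?_ b' ?_ ((hl.2.1 a' ha' b' hb').trans_le hη7)
      · exact closedBall_subset_closedBall (by norm_num) (hball a' (hl.2.2 a' ha')).1
      · exact closedBall_subset_closedBall (by norm_num) (hball b' (hl.2.2 b' hb')).1
    · intro a ha
      obtain ⟨a', ha', rfl⟩ := List.mem_map.1 ha
      exact ⟨a', (hball a' (hl.2.2 a' ha')).1, rfl⟩
    · intro a ha
      obtain ⟨a', ha', rfl⟩ := List.mem_map.1 ha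
      exact (hball a' (hl.2.2 a' ha')).2
  have hbw : bd w = ext (capS φ') (muC β N) := by
    rw [hw, bd_pf, hw₀, lc_pf_ext]
    unfold muC
    rw [lc_ext_pf]
    congr 1
    congr 1
    funext l
    exact pf_capS β φ' l
  -- the homotopy
  set H := htp (fun l => l.headD (β u)) (lcPhi β N) with hH
  set P : List X → Prop := fun l => Sm κ' l ∧ In (β '' Q n 6) l with hP
  set R : List X → Set X := fun l => {y | ∃ x ∈ l, dist x y < κ₃} with hR
  have hPs : ∀ l l' : List X, l'.Sublist l → P l → P l' := fun l l' hs h =>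
    ⟨fun a ha b hb => h.1 a (hs.subset ha) b (hs.subset hb), fun a ha => h.2 a (hs.subset ha)⟩
  have hRs : ∀ l l' : List X, l'.Sublist l → R l' ⊆ R l := by
    rintro l l' hs y ⟨a, ha, hay⟩
    exact ⟨a, hs.subset ha, hay⟩
  have hlR : ∀ l, P l → ∀ x ∈ l, x ∈ R l := fun l _ x hx => ⟨x, hx, by rwa [dist_self]⟩
  have hξ : ∀ l : List X, l ≠ [] → P l → l.headD (β u) ∈ R l := by
    rintro (_ | ⟨a, l⟩) hne hl
    · exact absurd rfl hne
    · exact hlR _ hl a (List.mem_cons_self ..)
  have hμ : Sup (fun l => Sm k4 l ∧ In (β '' Q n 9) l) (muC β N) :=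
    (hN₁ N hNN).mono fun l hl => ⟨fun a ha b hb => (hl.2.1 a ha b hb).trans_le hκ'4, hl.2.2⟩
  have hΦs : ∀ l, P l → Sup (fun l' => l'.length = l.length ∧ In (R l) l') (lcPhi β N l) :=
    fun l hl => H4 N hN0 hμ l (fun a ha b hb => (hl.1 a ha b hb).trans_le hκ'4) hl.2
  have hΦ : ∀ l, P l → bd (lcPhi β N l) = ext (lcPhi β N) (bdL (ZMod 2) l) := fun l hl =>
    bd_lcPhi hn hβ hN0 l fun a ha =>
      image_mono (closedBall_subset_closedBall (by norm_num)) (hl.2 a ha)
  have hHs : ∀ l, P l → Sup (fun l' => l'.length = l.length + 1 ∧ In (R l) l') (H l) :=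
    fun l hl => sup_htp _ _ R hPs hRs hlR hξ hΦs l hl
  have hHb : ∀ l, P l → bd (H l) + ext H (bdL (ZMod 2) l) =
      Finsupp.single l 1 - lcPhi β N l := fun l hl => bd_htp _ _ hPs (lcPhi_nil N) hΦ l hl
  have hRsm : ∀ l, P l → ∀ l', In (R l) l' → Sm κ l' := by
    intro l hl l' hl' a ha b hb
    obtain ⟨a', ha', h1⟩ := hl' a ha
    obtain ⟨b', hb', h2⟩ := hl' b hb
    calc dist a b ≤ dist a a' + dist a' b' + dist b' b := dist_triangle4 _ _ _ _
      _ < κ₃ + κ' + κ₃ := add_lt_add (add_lt_add (by rwa [dist_comm]) (hl.1 a' ha' b' hb')) h2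
      _ ≤ κ := by linarith
  set W : List X → ZMod 2 := fun s => ext (fun a => KerC β a s) w with hW
  have hmain : ∀ b, P b → b.length = q + 1 →
      φ b = ext (fun s => W s + ext φ' (H s)) (bdL (ZMod 2) b) := by
    intro b hb hbl
    have h1 := congrArg (ext φ') (hHb b hb)
    rw [map_add, map_sub, Finsupp.linearCombination_single, one_smul] at h1
    have hA : ext φ' (bd (H b)) = 0 := by
      rw [ext_bdL]
      exact lc_ext_eq_zero (hHs b hb) fun l hl => hφ'd l (hRsm b hb l hl.2)
    have hB : ext φ' (ext H (bdL (ZMod 2) b)) = ext (fun s => ext φ' (H s)) (bdL (ZMod 2) b) :=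
      lc_ext_ext _ _ _
    have hbne : b ≠ [] := by
      rintro rfl
      simp at hbl
    have hC : ext φ' (lcPhi β N b) = ext W (bdL (ZMod 2) b) := by
      rw [lcPhi_of_ne N hbne, lc_ext_ext]
      have e1 : (fun l => ext φ' (capL (fun s => KerC β s b) l)) =
          fun l => ext (fun s => KerC β s b) (capS φ' l) := by
        funext l
        exact lc_dual _ _ _
      rw [e1, ← lc_ext_ext, ← hbw, ext_bdL]
      have e2 : (fun l => ext (fun s => KerC β s b) (bdL (ZMod 2) l)) =
          fun l => ext (fun b' => KerC β l b') (bdL (ZMod 2) b) := by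
        funext l
        exact KerC_bd hβ l b
      rw [e2, lc_swap]
    have hφb : φ' b = φ b := if_pos hbl
    rw [lc_ext_add, ← hC, ← hB]
    rw [hA, zero_add, hφb] at h1
    rw [h1]
    ring
  -- the solution
  refine ⟨fun s => if ∀ y ∈ s, dist (β u) y < ρ' then W s + ext φ' (H s) else 0,
    fun b _ _ hne y hy => ?_, fun b hbs hbl => ?_⟩
  · by_cases h : ∀ y ∈ b, dist (β u) y < ρ'
    · exact (h y hy).trans_le hρ'ρ
    · simp only [if_neg h] at hne
      exact absurd rfl hne
  have hin5 : ∀ l : List X, (∀ y ∈ l, dist (β u) y < ρ') → In (β '' Q n 5) l := by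
    intro l hl y hy
    obtain ⟨v, hv, hvy, -⟩ := H1 u hu y ((hl y hy).trans_le hρ'k)
    exact ⟨v, hv, hvy⟩
  by_cases hnear : ∀ y ∈ b, dist (β u) y < ρ'
  · rw [hmain b ⟨hbs, fun y hy => image_mono (closedBall_subset_closedBall (by norm_num))
      (hin5 b hnear y hy)⟩ hbl]
    exact ext_congr (sup_bdL b) fun s hs => if_pos fun y hy => hnear y (hs.1.subset hy)
  · push Not at hnear
    obtain ⟨y0, hy0, hy0d⟩ := hnear
    have hφb : φ b = 0 := by
      by_contra hne
      have h1 := hφ2 b (fun a ha c hc => (hbs a ha c hc).trans_le hκ'κ) hbl hne y0 hy0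
      linarith
    rw [hφb]
    refine lc_ext_eq_zero (sup_bdL b) fun s hs => ?_
    by_cases h : ∀ y ∈ s, dist (β u) y < ρ'
    swap
    · exact if_neg h
    rw [if_pos h]
    have hss : Sm κ' s := fun a ha c hc => hbs a (hs.1.subset ha) c (hs.1.subset hc)
    have hs5 := hin5 s h
    have hsP : P s := ⟨hss, fun y hy => image_mono (closedBall_subset_closedBall (by norm_num))
      (hs5 y hy)⟩
    have hsl : s.length = q := by
      have := hs.2
      omega
    have hfar : ∀ y ∈ s, ρ' - κ' < dist (β u) y := by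
      intro y hy
      have h1 := hbs y (hs.1.subset hy) y0 hy0
      have h2 := dist_triangle (β u) y y0
      linarith
    have e1 : W s = 0 := by
      refine lc_ext_eq_zero hws fun a ha => ?_
      by_contra hne
      obtain ⟨hal, has, ha5, had⟩ := ha
      obtain ⟨y, hy⟩ : ∃ y, y ∈ s := List.exists_mem_of_length_pos (by omega)
      obtain ⟨z, hz⟩ : ∃ z, z ∈ a := List.exists_mem_of_length_pos (by omega)
      have h1 := H5 a s (fun a ha b hb => (has a ha b hb).trans_le hκ'5)
        (fun a ha b hb => (hss a ha b hb).trans_le hκ'5)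
        (fun y hy => image_mono (closedBall_subset_closedBall (by norm_num)) (ha5 y hy))
        (fun y hy => image_mono (closedBall_subset_closedBall (by norm_num)) (hs5 y hy)) hne
        z hz y hy
      have h2 := dist_triangle (β u) z y
      have h3 := hfar y hy
      have h4 := had z hz
      linarith
    have e2 : ext φ' (H s) = 0 := by
      refine lc_ext_eq_zero (hHs s hsP) fun l hl => ?_
      by_contra hne
      obtain ⟨z, hz⟩ : ∃ z, z ∈ l := List.exists_mem_of_length_pos (by have := hl.1; omega)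
      have h1 := hφ'x l (hRsm s hsP l hl.2) hne z hz
      obtain ⟨y, hy, hyz⟩ := hl.2 z hz
      have h2 := dist_triangle (β u) z y
      have h3 := hfar y hy
      rw [dist_comm] at hyz
      linarith
    rw [e1, e2, add_zero]

end LCMain

end Vale.Agent.P239.M
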