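import Vale.Agent.P239.S.M_Defs
import Vale.Agent.P239.FGroup

/-! Facts on covers of closed 4-manifolds. -/

namespace Vale.Agent.P239.M

open Metric Set Topology

variable {M X Γ : Type*} [TopologicalSpace M] [T2Space M] [CompactSpace M]
  [ChartedSpace (EuclideanSpace ℝ (Fin 4)) M] [TopologicalSpace X] [ContractibleSpace X]
  [Group Γ] [MulAction Γ X] {p : X → M} (hp : IsQuotientCoveringMap p Γ)
include hp

omit [CompactSpace M] [ChartedSpace (EuclideanSpace ℝ (Fin 4)) M] [ContractibleSpace X] in
theorem t2_of_cover : T2Space X := by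
  refine ⟨fun x y hxy => ?_⟩
  by_cases h : p x = p y
  · exact hp.isCoveringMap.isSeparatedMap x y h hxy
  · obtain ⟨A, B, hA, hB, hxA, hyB, hAB⟩ := t2_separation h
    exact ⟨p ⁻¹' A, p ⁻¹' B, hA.preimage hp.continuous, hB.preimage hp.continuous, hxA, hyB,
      hAB.preimage p⟩

theorem Mfd.exists_cocomp : LocallyCompactSpace X ∧
    ∃ B : Set X, IsCompact B ∧ ∀ x : X, ∃ g : Γ, ∃ y ∈ B, x = g • y := by
  have : LocallyCompactSpace M := ChartedSpace.locallyCompactSpace (EuclideanSpace ℝ (Fin 4)) M
  have hX : LocallyCompactSpace X := locallyCompact_of_cover hp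
  refine ⟨hX, ?_⟩
  have hopen : IsOpenMap p := hp.isCoveringMap.isOpenMap
  have h1 : ∀ x : X, ∃ K : Set X, IsCompact K ∧ K ∈ 𝓝 x := fun x => exists_compact_mem_nhds x
  choose K hK hKx using h1
  obtain ⟨t, ht⟩ := isCompact_univ.elim_finite_subcover (fun x => p '' interior (K x))
    (fun x => hopen _ isOpen_interior) (by
      intro m _
      obtain ⟨x, rfl⟩ := hp.surjective m
      exact mem_iUnion.2 ⟨x, x, mem_interior_iff_mem_nhds.2 (hKx x), rfl⟩)
  refine ⟨⋃ x ∈ t, K x, t.isCompact_biUnion fun x _ => hK x, fun x => ?_⟩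
  obtain ⟨y, hy, z, hz, hzx⟩ := mem_iUnion₂.mp (ht (mem_univ (p x)))
  obtain ⟨g, hg⟩ := hp.apply_eq_iff_mem_orbit.mp hzx.symm
  exact ⟨g, z, mem_iUnion₂.2 ⟨y, hy, interior_subset hz⟩, Eq.symm hg⟩

omit [ContractibleSpace X] in
theorem Mfd.countable [ConnectedSpace X] [LocallyCompactSpace X] : Countable Γ := by
  have hfg : Group.FG Γ := fg_of_cover hp
  obtain ⟨S, hS⟩ := Group.fg_iff.1 hfg
  obtain ⟨hS, hfin⟩ := hS
  have : Countable S := hfin.countable.to_subtype
  have h : Function.Surjective (FreeGroup.lift (fun s : S => (s : Γ))) := by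
    rw [← MonoidHom.range_eq_top, FreeGroup.range_lift_eq_closure, Subtype.range_coe]
    exact hS
  exact h.countable

theorem metrizable_of_cover : TopologicalSpace.MetrizableSpace X := by
  obtain ⟨hX, B, hB, hcov⟩ := Mfd.exists_cocomp hp
  have hcs : ContinuousConstSMul Γ X := hp.toContinuousConstSMul
  have h2 : T2Space X := t2_of_cover hp
  have hcount : Countable Γ := Mfd.countable hp
  have hsig : SigmaCompactSpace X := by
    refine SigmaCompactSpace.of_countable (range fun g : Γ => (fun x => g • x) '' B)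
      (countable_range _) ?_ ?_
    · rintro _ ⟨g, rfl⟩
      exact hB.image (continuous_const_smul g)
    · refine eq_univ_of_forall fun x => ?_
      obtain ⟨g, y, hy, rfl⟩ := hcov x
      exact ⟨_, ⟨g, rfl⟩, y, hy, rfl⟩
  have hM : SecondCountableTopology M :=
    ChartedSpace.secondCountable_of_sigmaCompact (EuclideanSpace ℝ (Fin 4)) M
  have hsec : SecondCountableTopology X := by
    choose e he hpe using hp.isCoveringMap.isLocalHomeomorph
    obtain ⟨s, hs, hsu⟩ := countable_cover_nhds (fun x => (e x).open_source.mem_nhds (he x))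
    have hsc : Countable s := hs.to_subtype
    have hU : ∀ i : s, SecondCountableTopology (e i).source := by
      intro i
      exact ((e i).toHomeomorphSourceTarget).isEmbedding.secondCountableTopology
    exact TopologicalSpace.secondCountableTopology_of_countable_cover
      (fun i : s => (e i).open_source) (by
        rw [← hsu]
        ext x
        simp only [mem_iUnion, Subtype.exists, exists_prop])
  infer_instance

omit [T2Space M] [CompactSpace M] [ContractibleSpace X] in
theorem chart_of_cover (x : X) : ∃ β : (Fin 4 → ℝ) → X, IsOpenEmbedding β ∧ β 0 = x := by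
  obtain ⟨e, hx, -⟩ := hp.isCoveringMap.isLocalHomeomorph x
  let c := chartAt (EuclideanSpace ℝ (Fin 4)) (e x)
  let f : OpenPartialHomeomorph X (EuclideanSpace ℝ (Fin 4)) := e.trans c
  have hxf : x ∈ f.source := by
    rw [OpenPartialHomeomorph.trans_source]
    exact ⟨hx, mem_chart_source _ (e x)⟩
  obtain ⟨r, hr, hball⟩ := Metric.isOpen_iff.1 f.open_target (f x) (f.map_source hxf)
  let u : OpenPartialHomeomorph (EuclideanSpace ℝ (Fin 4)) (EuclideanSpace ℝ (Fin 4)) :=
    OpenPartialHomeomorph.univBall (f x) r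
  let g : OpenPartialHomeomorph (EuclideanSpace ℝ (Fin 4)) X := u.trans f.symm
  have hg : g.source = univ := by
    rw [OpenPartialHomeomorph.trans_source]
    refine eq_univ_of_forall fun y => ⟨?_, ?_⟩
    · rw [OpenPartialHomeomorph.univBall_source]; trivial
    · refine hball ?_
      rw [← OpenPartialHomeomorph.univBall_target (f x) hr]
      exact u.map_source (by rw [OpenPartialHomeomorph.univBall_source]; trivial)
  let L : (Fin 4 → ℝ) ≃ₜ EuclideanSpace ℝ (Fin 4) :=
    (EuclideanSpace.equiv (Fin 4) ℝ).symm.toHomeomorph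
  refine ⟨fun y => g (L y), (g.isOpenEmbedding hg).comp L.isOpenEmbedding, ?_⟩
  have h0 : L 0 = 0 := map_zero (EuclideanSpace.equiv (Fin 4) ℝ).symm
  change f.symm (u (L 0)) = x
  rw [h0]
  have h1 : u 0 = f x := OpenPartialHomeomorph.univBall_apply_zero _ _
  rw [h1, f.left_inv hxf]

theorem coAct_of_cover : CoAct Γ X := by
  obtain ⟨hX, hB⟩ := Mfd.exists_cocomp hp
  have hcs : ContinuousConstSMul Γ X := hp.toContinuousConstSMul
  refine ⟨fun g => continuous_const_smul g, fun g x hx => ?_, hB, fun C D hC hD => ?_⟩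
  · obtain ⟨U, hU, hU'⟩ := hp.disjoint x
    exact hU' g ⟨x, ⟨x, mem_of_mem_nhds hU, hx⟩, mem_of_mem_nhds hU⟩
  · refine (finite_meet hp hC hD).subset ?_
    rintro g ⟨y, hy, hgy⟩
    exact ⟨g • y, ⟨y, hy, rfl⟩, hgy⟩

end Vale.Agent.P239.M
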