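import Vale.Agent.P239.S.M_Defs
import Vale.Agent.P239.F.Base

/-!
Module M, block M16: coarse connectedness at infinity implies that the group is one-ended.
-/

namespace Vale.Agent.P239.M

open Metric Set Topology

variable {Γ : Type*} [Group Γ]

/-- The points where `A` changes under right multiplication by `r`. -/
def OE_ch (A : Set Γ) (r : Γ) : Set Γ := {x | ¬ (x ∈ A ↔ x * r ∈ A)}

theorem OE_finite (S : Finset Γ) (hS : Subgroup.closure (S : Set Γ) = ⊤) (A : Set Γ)
    (hA : {x | ∃ y, Adj S x y ∧ ¬ (x ∈ A ↔ y ∈ A)}.Finite) (r : Γ) : (OE_ch A r).Finite := by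
  have hr : r ∈ Subgroup.closure (S : Set Γ) := by rw [hS]; trivial
  induction hr using Subgroup.closure_induction with
  | mem s hs =>
    refine hA.subset ?_
    intro x hx
    exact ⟨x * s, ⟨s, hs, Or.inl rfl⟩, hx⟩
  | one =>
    have : OE_ch A 1 = ∅ := by
      ext x; simp [OE_ch]
    rw [this]; exact Set.finite_empty
  | mul a b _ _ iha ihb =>
    have h1 : ((fun x => x * a) ⁻¹' OE_ch A b).Finite :=
      ihb.preimage (mul_left_injective a).injOn
    refine (iha.union h1).subset ?_
    intro x hx
    by_contra hcon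
    simp only [Set.mem_union, not_or, Set.mem_preimage, OE_ch, Set.mem_ofPred_eq, not_not] at hcon
    apply hx
    rw [hcon.1, hcon.2, mul_assoc]
  | inv a _ iha =>
    have h1 : ((fun x => x * a⁻¹) ⁻¹' OE_ch A a).Finite :=
      iha.preimage (mul_left_injective a⁻¹).injOn
    refine h1.subset ?_
    intro x hx
    simp only [OE_ch, Set.mem_preimage, Set.mem_ofPred_eq, inv_mul_cancel_right] at hx ⊢
    exact fun h => hx h.symm

open Classical in
/-- The indicator of `A` as a function on lists of length one. -/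
noncomputable def OE_chi (A : Set Γ) : List Γ → ZMod 2
  | [x] => if x ∈ A then 1 else 0
  | _ => 0

omit [Group Γ] in
theorem OE_bd1 (g : Γ) : bdL (ZMod 2) [g] = Finsupp.single [] 1 := by
  simp [bdL]

omit [Group Γ] in
theorem OE_bd2 (x y : Γ) : bdL (ZMod 2) [x, y] = Finsupp.single [y] 1 - Finsupp.single [x] 1 := by
  rw [bdL, OE_bd1, cone_single]

omit [Group Γ] in
theorem OE_ext_bd (u : List Γ → ZMod 2) (c : Ch (ZMod 2) Γ) :
    ext u (bd c) = ∑ l ∈ c.support, c l * ext u (bdL (ZMod 2) l) := by
  have h1 : bd c = ∑ l ∈ c.support, c l • bdL (ZMod 2) l := rfl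
  rw [h1, map_sum]
  exact Finset.sum_congr rfl fun l _ => by rw [map_smul, smul_eq_mul]

theorem OE_two (n : ZMod 2) : n + n = 0 := CharTwo.add_self_eq_zero n

theorem oneEnded_of_cpush (h : CPushS Γ 1) (S : Finset Γ)
    (hS : Subgroup.closure (S : Set Γ) = ⊤) (hsym : ∀ s ∈ S, s⁻¹ ∈ S) : F.OneEnded S := by
  classical
  intro A hA
  have _ := hsym
  obtain ⟨R, _, hR⟩ := h {1}
  have hfin : (⋃ r ∈ R, OE_ch A r).Finite :=
    R.finite_toSet.biUnion fun r _ => OE_finite S hS A hA r
  obtain ⟨F', hF'⟩ := hR hfin.toFinset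
  by_contra hcon
  rw [not_or] at hcon
  obtain ⟨g, hgA, hgF⟩ := Set.Infinite.exists_notMem_finset hcon.1 F'
  obtain ⟨k, hkA, hkF⟩ := Set.Infinite.exists_notMem_finset hcon.2 F'
  have hbd : bd (Finsupp.single [g] 1 + Finsupp.single [k] 1 : Ch (ZMod 2) Γ) = 0 := by
    rw [map_add, bd_single, bd_single, OE_bd1, OE_bd1, one_smul, ← Finsupp.single_add, OE_two,
      Finsupp.single_zero]
  obtain ⟨c, hc, hcs⟩ := hF' (Finsupp.single [g] 1 + Finsupp.single [k] 1) hbd (by
    intro l hl
    have hl2 : l = [g] ∨ l = [k] := by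
      rcases Finset.mem_union.mp (Finsupp.support_add hl) with h1 | h1
      · exact Or.inl (Finset.mem_singleton.mp (Finsupp.support_single_subset h1))
      · exact Or.inr (Finset.mem_singleton.mp (Finsupp.support_single_subset h1))
    rcases hl2 with rfl | rfl
    · refine ⟨rfl, ?_, ?_⟩
      · intro x hx y hy
        rw [List.mem_singleton] at hx hy
        subst hx; subst hy; simp
      · intro x hx
        rw [List.mem_singleton] at hx
        subst hx; exact hgF
    · refine ⟨rfl, ?_, ?_⟩
      · intro x hx y hy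
        rw [List.mem_singleton] at hx hy
        subst hx; subst hy; simp
      · intro x hx
        rw [List.mem_singleton] at hx
        subst hx; exact hkF)
  have h0 : ext (OE_chi A) (bd c) = 0 := by
    rw [OE_ext_bd]
    refine Finset.sum_eq_zero fun l hl => ?_
    obtain ⟨hlen, hsm, hin⟩ := hcs l hl
    obtain ⟨x, y, rfl⟩ := List.length_eq_two.mp hlen
    have hxF : x ∉ hfin.toFinset := hin x (by simp)
    have hr : x⁻¹ * y ∈ R := hsm x (by simp) y (by simp)
    have hxy : x ∈ A ↔ y ∈ A := by
      by_contra hxy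
      apply hxF
      rw [Set.Finite.mem_toFinset]
      simp only [Set.mem_iUnion]
      exact ⟨x⁻¹ * y, hr, by simpa [OE_ch] using hxy⟩
    rw [OE_bd2, map_sub]
    simp only [ext, Finsupp.linearCombination_single, OE_chi, hxy, sub_self, mul_zero]
  rw [hc, map_add] at h0
  simp only [ext, Finsupp.linearCombination_single, OE_chi, one_smul] at h0
  rw [if_pos hgA, if_neg hkA] at h0
  simp at h0

end Vale.Agent.P239.M
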