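import Vale.Agent.P239.S.M_Sup
import Vale.Agent.P239.S.M_Ker
import Vale.Agent.P239.S.M_Chart

/-!
Block M11: the duality package.
-/

namespace Vale.Agent.P239.M

open Metric Set Topology

private theorem pkg_lb {m : ℕ} (f : Fin m → ℝ) (hf : ∀ a, 0 < f a) : ∃ ε > 0, ∀ a, ε ≤ f a := by
  rcases isEmpty_or_nonempty (Fin m) with h | h
  · exact ⟨1, one_pos, fun a => (h.false a).elim⟩
  · obtain ⟨a, ha⟩ := Finite.exists_min f
    exact ⟨f a, hf a, ha⟩

private theorem pkg_swap {X Y : Type*} (u : List X → List Y → ZMod 2) (c : Ch (ZMod 2) X)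
    (d : Ch (ZMod 2) Y) :
    ext (fun b => ext (fun a => u a b) c) d = ext (fun a => ext (u a) d) c := by
  induction d using Finsupp.induction_linear with
  | zero =>
    rw [map_zero]
    have : (fun a => ext (u a) (0 : Ch (ZMod 2) Y)) = fun _ => (0 : ZMod 2) := by
      funext a; rw [map_zero]
    rw [this]
    simp [ext, Finsupp.linearCombination_apply, Finsupp.sum]
  | add d e hd he =>
    rw [map_add, hd, he]
    have : (fun a => ext (u a) (d + e)) = fun a => ext (u a) d + ext (u a) e := by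
      funext a; rw [map_add]
    rw [this]
    simp only [ext, Finsupp.linearCombination_apply, smul_add, Finsupp.sum_add]
  | single l r =>
    have : (fun a => ext (u a) (Finsupp.single l r)) = fun a => r • u a l := by
      funext a
      simp [ext, Finsupp.linearCombination_single]
    rw [this]
    simp only [ext, Finsupp.linearCombination_single]
    simp only [Finsupp.linearCombination_apply, Finsupp.sum, smul_eq_mul]
    rw [Finset.mul_sum]
    apply Finset.sum_congr rfl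
    intro i _
    ring

private theorem pkg_ext_zero {X : Type*} {P : List X → Prop} {c : Ch (ZMod 2) X} (hc : Sup P c)
    {u : List X → ZMod 2} (h : ∀ l, P l → u l = 0) : ext u c = 0 := by
  rw [ext_congr (v := fun _ => 0) hc h]
  simp [ext, Finsupp.linearCombination_apply, Finsupp.sum]

private theorem pkg_bdL_one {X : Type*} (x : X) (u : List X → ZMod 2) :
    ext u (bdL (ZMod 2) [x]) = u [] := by
  rw [bdL, bdL, map_zero, sub_zero]
  simp [ext, Finsupp.linearCombination_single]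

private theorem pkg_bdL_two {X : Type*} (x x' : X) (u : List X → ZMod 2) :
    ext u (bdL (ZMod 2) [x, x']) = u [x'] - u [x] := by
  rw [bdL, bdL, bdL, map_zero, sub_zero, map_sub, cone_single]
  simp [ext, Finsupp.linearCombination_single]

section

variable {X : Type*} [MetricSpace X] {n : ℕ}

open Classical in
/-- the base kernel, cut off -/
private noncomputable def pkgB (β : (Fin n → ℝ) → X) (x : X) (b : List X) : ZMod 2 :=
  if In (β '' Q n 8) b ∧ b.length = n + 1 then KerC β [x] b else 0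

private theorem pkgB_len {β : (Fin n → ℝ) → X} {x : X} {b : List X} (h : pkgB β x b ≠ 0) :
    b.length = n + 1 := by
  unfold pkgB at h
  by_contra hcon
  apply h
  rw [if_neg]
  exact fun h' => hcon h'.2

private theorem pkgB_dg {β : (Fin n → ℝ) → X} {x : X} {μ : Ch (ZMod 2) X}
    (hμ : Sup (fun l => l.length = n + 1) μ) : ext (pkgB β x) μ = dg' β μ x := by
  unfold dg'
  apply ext_congr hμ
  intro l hl
  unfold pkgB
  by_cases h : In (β '' Q n 8) l
  · rw [if_pos ⟨h, hl⟩, if_pos h]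
  · rw [if_neg fun h' => h h'.1, if_neg h]

private theorem Q_mono {r s : ℝ} (h : r ≤ s) (β : (Fin n → ℝ) → X) : β '' Q n r ⊆ β '' Q n s :=
  Set.image_mono (closedBall_subset_closedBall h)

private theorem pkgB_loc {β : (Fin n → ℝ) → X} (hβ : IsOpenEmbedding β) {κ : ℝ} (hκ : 0 < κ) :
    ∃ κ' > 0, ∀ x ∈ β '' Q n 1, ∀ b, Sm κ' b → pkgB β x b ≠ 0 → ∀ y ∈ b, dist x y < κ := by
  obtain ⟨κ', hκ', h⟩ := KerC_local hβ hκ
  refine ⟨κ', hκ', fun x hx b hb hne y hy => ?_⟩
  have h1 : In (β '' Q n 8) b ∧ b.length = n + 1 := by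
    by_contra hcon
    apply hne
    unfold pkgB
    rw [if_neg hcon]
  have h2 : KerC β [x] b ≠ 0 := by
    unfold pkgB at hne
    rwa [if_pos h1] at hne
  refine h [x] b ?_ hb ?_ h1.1 h2 x (by simp) y hy
  · intro u hu v hv
    simp only [List.mem_singleton] at hu hv
    rw [hu, hv, dist_self]
    exact hκ'
  · intro u hu
    simp only [List.mem_singleton] at hu
    rw [hu]
    exact Q_mono (by norm_num) β hx

private theorem pkgB_bd {β : (Fin n → ℝ) → X} (hβ : IsOpenEmbedding β) :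
    ∃ κ' > 0, ∀ x ∈ β '' Q n 1, ∀ b, Sm κ' b → ext (pkgB β x) (bdL (ZMod 2) b) = 0 := by
  obtain ⟨κ₂, hκ₂, hmod⟩ := chart_mod hβ (r := 1) (R := 8) (by norm_num) (κ := 1) one_pos
  obtain ⟨κ₃, hκ₃, hloc⟩ := pkgB_loc hβ (κ := κ₂ / 2) (by positivity)
  refine ⟨min κ₃ (κ₂ / 2), lt_min hκ₃ (by positivity), fun x hx b hb => ?_⟩
  by_cases hnear : ∃ y ∈ b, dist x y < κ₂ / 2
  · obtain ⟨y, hy, hxy⟩ := hnear
    have hin : In (β '' Q n 8) b := by
      intro y' hy'
      obtain ⟨u, hu, rfl⟩ := hx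
      have h1 : dist (β u) y' < κ₂ := by
        have h2 := dist_triangle (β u) y y'
        have h3 := lt_of_lt_of_le (hb y hy y' hy') (min_le_right _ _)
        linarith
      obtain ⟨v, hv, hv2, _⟩ := hmod u hu y' h1
      exact ⟨v, hv, hv2⟩
    by_cases hlen : b.length = n + 2
    · have h1 : ext (pkgB β x) (bdL (ZMod 2) b) = ext (fun b' => KerC β [x] b') (bdL (ZMod 2) b) := by
        apply ext_congr (sup_bdL b)
        rintro l ⟨hl1, hl2⟩
        unfold pkgB
        rw [if_pos]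
        exact ⟨fun z hz => hin z (hl1.subset hz), by omega⟩
      rw [h1, ← KerC_bd hβ, pkg_bdL_one]
      exact Ker_nil_left _ _
    · apply pkg_ext_zero (sup_bdL b)
      rintro l ⟨_, hl2⟩
      by_contra hne
      have := pkgB_len hne
      omega
  · push Not at hnear
    apply pkg_ext_zero (sup_bdL b)
    rintro l ⟨hl1, hl2⟩
    by_contra hne
    have hl := pkgB_len hne
    have hsm : Sm κ₃ l := fun u hu v hv =>
      lt_of_lt_of_le (hb u (hl1.subset hu) v (hl1.subset hv)) (min_le_left _ _)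
    obtain ⟨z, hz⟩ : ∃ z, z ∈ l := by
      cases l with
      | nil => simp at hl
      | cons z l => exact ⟨z, by simp⟩
    have h1 := hloc x hx l hsm hne z hz
    have h2 := hnear z (hl1.subset hz)
    linarith

/-- the inductive statement -/
private def PkgI (n : ℕ) (N : Set X) (Θ₀ : X → List X → ZMod 2) (J : ℕ) : Prop :=
  ∀ ρ > 0, ∃ κ₀ > 0, ∃ κ₁ > 0, ∃ Θ : List X → List X → ZMod 2,
    (∀ b, Θ [] b = 0) ∧ (∀ a, Θ a [] = 0) ∧
    (∀ a b, Θ a b ≠ 0 → a.length + b.length = n + 2) ∧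
    (∀ a, In N a → Sm κ₀ a → a.length ≤ J + 1 → ∀ b, Sm κ₁ b → Θ a b ≠ 0 →
      ∀ x ∈ a, ∀ y ∈ b, dist x y < ρ) ∧
    (∀ a, In N a → Sm κ₀ a → a.length ≤ J + 1 → ∀ b, Sm κ₁ b →
      ext (Θ a) (bdL (ZMod 2) b) = ext (fun a' => Θ a' b) (bdL (ZMod 2) a)) ∧
    (∀ x ∈ N, ∀ b, Θ [x] b = Θ₀ x b)

/-- auxiliary: a function on lists of length one -/
private def pkgOne (Θ₀ : X → List X → ZMod 2) : List X → List X → ZMod 2
  | [x], b => Θ₀ x b
  | _, _ => 0

private theorem pkgI_zero {m : ℕ} {β : Fin m → (Fin n → ℝ) → X}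
    (hβ : ∀ a, IsOpenEmbedding (β a)) {N : Set X} (α : X → Fin m)
    (hα : ∀ x ∈ N, x ∈ β (α x) '' Q n 1) : PkgI n N (fun x b => pkgB (β (α x)) x b) 0 := by
  intro ρ hρ
  choose κa hκa hloc using fun a => pkgB_loc (hβ a) hρ
  choose κb hκb hbd using fun a => pkgB_bd (hβ a)
  obtain ⟨ε₁, hε₁, h1⟩ := pkg_lb κa hκa
  obtain ⟨ε₂, hε₂, h2⟩ := pkg_lb κb hκb
  refine ⟨1, one_pos, min ε₁ ε₂, lt_min hε₁ hε₂, pkgOne (fun x b => pkgB (β (α x)) x b),
    fun b => rfl, ?_, ?_, ?_, ?_, fun x _ b => rfl⟩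
  · intro a
    rcases a with _ | ⟨x, _ | ⟨y, a⟩⟩
    · rfl
    · show pkgB (β (α x)) x [] = 0
      by_contra hne
      have := pkgB_len hne
      simp at this
    · rfl
  · intro a b hab
    rcases a with _ | ⟨x, _ | ⟨y, a⟩⟩
    · exact absurd rfl hab
    · have := pkgB_len hab
      rw [this]
      simp only [List.length_singleton]
      omega
    · exact absurd rfl hab
  · intro a ha _ _ b hb hab x hx y hy
    rcases a with _ | ⟨z, _ | ⟨w, a⟩⟩
    · simp at hx
    · simp only [List.mem_singleton] at hx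
      subst hx
      have hxN : x ∈ N := ha x (by simp)
      refine hloc (α x) x (hα x hxN) b (fun u hu v hv => ?_) hab y hy
      exact lt_of_lt_of_le (hb u hu v hv) ((min_le_left _ _).trans (h1 _))
    · exact absurd rfl hab
  · intro a ha _ hlen b hb
    rcases a with _ | ⟨z, _ | ⟨w, a⟩⟩
    · rw [bdL, map_zero]
      have : pkgOne (fun x b => pkgB (β (α x)) x b) [] = fun _ => 0 := rfl
      rw [this]
      exact pkg_ext_zero (sup_bdL b) fun _ _ => rfl
    · rw [pkg_bdL_one]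
      have hzN : z ∈ N := ha z (by simp)
      refine (hbd (α z) z (hα z hzN) b (fun u hu v hv => ?_)).trans rfl
      exact lt_of_lt_of_le (hb u hu v hv) ((min_le_right _ _).trans (h2 _))
    · simp at hlen

private theorem pkgI_succ {m : ℕ} {β : Fin m → (Fin n → ℝ) → X}
    (hβ : ∀ a, IsOpenEmbedding (β a)) (hI : ∀ a b, InvS (β a) (β b))
    (hLC : ∀ a q, 1 ≤ q → q ≤ n → LCS (β a) q) {N : Set X} (α : X → Fin m)
    (hα : ∀ x ∈ N, x ∈ β (α x) '' Q n 1) {J : ℕ} (hJ : J + 1 ≤ n)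
    (ih : PkgI n N (fun x b => pkgB (β (α x)) x b) J) :
    PkgI n N (fun x b => pkgB (β (α x)) x b) (J + 1) := by
  classical
  intro ρ hρ
  obtain ⟨q, hq⟩ : ∃ q, q = n - J := ⟨_, rfl⟩
  have hq1 : 1 ≤ q := by omega
  have hqn : q ≤ n := by omega
  choose r hr hLC1 using fun a => hLC a q hq1 hqn (ρ / 2) (by positivity)
  obtain ⟨ρ₁, hρ₁, hr1⟩ := pkg_lb r hr
  obtain ⟨κ₀', hκ₀', κ₁', hκ₁', Θ, hΘ0, hΘ1, hlen, hloc, hch, hbase⟩ :=
    ih (min (ρ₁ / 2) ρ) (lt_min (by positivity) hρ)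
  choose k hk hLC2 using fun a => hLC1 a κ₁' hκ₁'
  obtain ⟨κ₂, hκ₂, hk2⟩ := pkg_lb k hk
  choose c hc hmod using fun a => chart_mod (hβ a) (r := 1) (R := 2) (by norm_num) (κ := 1) one_pos
  obtain ⟨κ₃, hκ₃, hc3⟩ := pkg_lb c hc
  obtain ⟨κ₀, hκ₀def⟩ : ∃ κ₀, κ₀ = min (min κ₀' (ρ₁ / 2)) (min (ρ / 2) κ₃) := ⟨_, rfl⟩
  have hκ₀ : 0 < κ₀ := by
    rw [hκ₀def]
    exact lt_min (lt_min hκ₀' (by positivity)) (lt_min (by positivity) hκ₃)
  have e1 : κ₀ ≤ κ₀' := by rw [hκ₀def]; exact (min_le_left _ _).trans (min_le_left _ _)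
  have e2 : κ₀ ≤ ρ₁ / 2 := by rw [hκ₀def]; exact (min_le_left _ _).trans (min_le_right _ _)
  have e3 : κ₀ ≤ ρ / 2 := by rw [hκ₀def]; exact (min_le_right _ _).trans (min_le_left _ _)
  have e4 : κ₀ ≤ κ₃ := by rw [hκ₀def]; exact (min_le_right _ _).trans (min_le_right _ _)
  -- the new values
  have key : ∀ A : List X, In N A ∧ Sm κ₀ A ∧ A.length = J + 2 → ∃ ψ : List X → ZMod 2,
      (∀ b, Sm κ₂ b → b.length = q → ψ b ≠ 0 → ∀ x ∈ A, ∀ y ∈ b, dist x y < ρ) ∧
      (∀ b, Sm κ₂ b → b.length = q + 1 →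
        ext ψ (bdL (ZMod 2) b) = ext (fun a' => Θ a' b) (bdL (ZMod 2) A)) := by
    rintro A ⟨hA1, hA2, hA3⟩
    obtain ⟨x, A', rfl⟩ : ∃ x A', A = x :: A' := by
      cases A with
      | nil => simp at hA3
      | cons x A' => exact ⟨x, A', rfl⟩
    have hxN : x ∈ N := hA1 x (by simp)
    have hx1 := hα x hxN
    obtain ⟨φ, hφ⟩ : ∃ φ : List X → ZMod 2,
      φ = fun b => ext (fun a' => Θ a' b) (bdL (ZMod 2) (x :: A')) := ⟨_, rfl⟩
    have hface : Sup (fun l' => In N l' ∧ Sm κ₀' l' ∧ l'.length = J + 1 ∧ ∀ z ∈ l', z ∈ x :: A')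
        (bdL (ZMod 2) (x :: A')) := by
      refine Sup.mono ?_ (sup_bdL _)
      rintro l ⟨hl1, hl2⟩
      refine ⟨fun z hz => hA1 z (hl1.subset hz), fun z hz w hw => ?_, by omega,
        fun z hz => hl1.subset hz⟩
      exact lt_of_lt_of_le (hA2 z (hl1.subset hz) w (hl1.subset hw)) e1
    have c1 : ∀ b, Sm κ₁' b → b.length = q + 2 → ext φ (bdL (ZMod 2) b) = 0 := by
      intro b hb _
      rw [hφ, pkg_swap]
      rw [ext_congr (v := fun a' => ext (fun a'' => Θ a'' b) (bdL (ZMod 2) a')) hface]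
      · rw [← ext_bdL, bd_bdL, map_zero]
      · rintro l ⟨h1, h2, h3, _⟩
        exact hch l h1 h2 h3.le b hb
    have c2 : ∀ b, Sm κ₁' b → b.length = q + 1 → φ b ≠ 0 → ∀ y ∈ b, dist x y < r (α x) := by
      intro b hb _ hne y hy
      by_contra hcon
      rw [not_lt] at hcon
      apply hne
      rw [hφ]
      apply pkg_ext_zero hface
      rintro l ⟨h1, h2, h3, h4⟩
      by_contra hl
      obtain ⟨z, hz⟩ : ∃ z, z ∈ l := by
        cases l with
        | nil => simp at h3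
        | cons z l => exact ⟨z, by simp⟩
      have h5 := hloc l h1 h2 h3.le b hb hl z hz y hy
      have h6 := lt_of_lt_of_le h5 (min_le_left _ _)
      have h7 := hA2 x (by simp) z (h4 z hz)
      have h8 := dist_triangle x z y
      have h9 := hr1 (α x)
      linarith
    have c3 : q = n → ∃ N₀ : ℕ, ∀ M ≥ N₀, ext φ (muC (β (α x)) M) = 0 := by
      intro hqn'
      have hJ0 : J = 0 := by omega
      subst hJ0
      obtain ⟨x', rfl⟩ : ∃ x', A' = [x'] := by
        rcases A' with _ | ⟨x', _ | ⟨z, A'⟩⟩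
        · simp at hA3
        · exact ⟨x', rfl⟩
        · simp at hA3
      have hx'N : x' ∈ N := hA1 x' (by simp)
      have hx'1 := hα x' hx'N
      have hx'2 : x' ∈ β (α x) '' Q n 2 := by
        obtain ⟨u, hu, hux⟩ := hx1
        have h1 : dist (β (α x) u) x' < c (α x) := by
          rw [hux]
          exact lt_of_lt_of_le (hA2 x (by simp) x' (by simp)) (e4.trans (hc3 _))
        obtain ⟨v, hv, hv2, _⟩ := hmod (α x) u hu x' h1
        exact ⟨v, hv, hv2⟩
      obtain ⟨N₁, hN₁⟩ := hI (α x) (α x)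
      obtain ⟨N₂, hN₂⟩ := hI (α x) (α x')
      obtain ⟨N₃, hN₃⟩ := sup_muC (hβ (α x)) (κ := 1) one_pos
      refine ⟨max N₁ (max N₂ N₃), fun M hM => ?_⟩
      have hM1 : N₁ ≤ M := le_trans (le_max_left _ _) hM
      have hM2 : N₂ ≤ M := le_trans (le_trans (le_max_left _ _) (le_max_right _ _)) hM
      have hM3 : N₃ ≤ M := le_trans (le_trans (le_max_right _ _) (le_max_right _ _)) hM
      have hsup : Sup (fun l => l.length = n + 1) (muC (β (α x)) M) :=
        Sup.mono (fun l hl => hl.1) (hN₃ M hM3)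
      have h1 : φ = fun b => pkgB (β (α x')) x' b - pkgB (β (α x)) x b := by
        rw [hφ]
        funext b
        rw [pkg_bdL_two, hbase x' hx'N, hbase x hxN]
      have h2 : ext φ (muC (β (α x)) M) = ext (pkgB (β (α x')) x') (muC (β (α x)) M) -
          ext (pkgB (β (α x)) x) (muC (β (α x)) M) := by
        rw [h1]
        simp only [ext, Finsupp.linearCombination_apply, smul_sub, Finsupp.sum_sub]
      rw [h2, pkgB_dg hsup, pkgB_dg hsup,
        (hN₂ M hM2 x' ⟨hx'2, Q_mono (by norm_num) _ hx'1⟩).2,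
        (hN₁ M hM1 x ⟨Q_mono (by norm_num) _ hx1, Q_mono (by norm_num) _ hx1⟩).2, sub_self]
    obtain ⟨ψ, hψ1, hψ2⟩ := hLC2 (α x) x (Q_mono (by norm_num) _ hx1) φ c1 c2 c3
    refine ⟨ψ, fun b hb hbl hne z hz y hy => ?_, fun b hb hbl => ?_⟩
    · have hb' : Sm (k (α x)) b := fun u hu v hv => lt_of_lt_of_le (hb u hu v hv) (hk2 _)
      have h1 := hψ1 b hb' hbl hne y hy
      have h2 := hA2 z hz x (by simp)
      have h3 := dist_triangle z x y
      linarith
    · have hb' : Sm (k (α x)) b := fun u hu v hv => lt_of_lt_of_le (hb u hu v hv) (hk2 _)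
      rw [hψ2 b hb' hbl, hφ]
  choose! ψ hψ1 hψ2 using key
  obtain ⟨Θ', hΘ'⟩ : ∃ Θ' : List X → List X → ZMod 2, Θ' = fun A b =>
      if A.length = J + 2 then (if b.length + (J + 2) = n + 2 ∧ In N A ∧ Sm κ₀ A then ψ A b else 0)
      else Θ A b := ⟨_, rfl⟩
  have hne : ∀ A : List X, A.length ≠ J + 2 → Θ' A = Θ A := by
    intro A hA
    rw [hΘ']
    funext b
    simp only [if_neg hA]
  have heq : ∀ A : List X, A.length = J + 2 → ∀ b : List X,
      Θ' A b = if b.length + (J + 2) = n + 2 ∧ In N A ∧ Sm κ₀ A then ψ A b else 0 := by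
    intro A hA b
    rw [hΘ']
    simp only [if_pos hA]
  refine ⟨κ₀, hκ₀, min κ₁' κ₂, lt_min hκ₁' hκ₂, Θ', ?_, ?_, ?_, ?_, ?_, ?_⟩
  · intro b
    rw [hne [] (by simp)]
    exact hΘ0 b
  · intro A
    by_cases hA : A.length = J + 2
    · rw [heq A hA, if_neg]
      rintro ⟨h, _⟩
      simp only [List.length_nil] at h
      omega
    · rw [hne A hA]
      exact hΘ1 A
  · intro A b hAb
    by_cases hA : A.length = J + 2
    · rw [heq A hA] at hAb
      by_cases h : b.length + (J + 2) = n + 2 ∧ In N A ∧ Sm κ₀ A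
      · omega
      · rw [if_neg h] at hAb
        exact absurd rfl hAb
    · rw [hne A hA] at hAb
      exact hlen A b hAb
  · intro A hA1 hA2 hA3 b hb hAb x hx y hy
    have hb1 : Sm κ₁' b := fun u hu v hv => lt_of_lt_of_le (hb u hu v hv) (min_le_left _ _)
    have hb2 : Sm κ₂ b := fun u hu v hv => lt_of_lt_of_le (hb u hu v hv) (min_le_right _ _)
    by_cases hA : A.length = J + 2
    · rw [heq A hA] at hAb
      by_cases h : b.length + (J + 2) = n + 2 ∧ In N A ∧ Sm κ₀ A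
      · rw [if_pos h] at hAb
        exact hψ1 A ⟨hA1, hA2, hA⟩ b hb2 (by omega) hAb x hx y hy
      · rw [if_neg h] at hAb
        exact absurd rfl hAb
    · rw [hne A hA] at hAb
      have h1 : Sm κ₀' A := fun u hu v hv => lt_of_lt_of_le (hA2 u hu v hv) e1
      exact lt_of_lt_of_le (hloc A hA1 h1 (by omega) b hb1 hAb x hx y hy) (min_le_right _ _)
  · intro A hA1 hA2 hA3 b hb
    have hb1 : Sm κ₁' b := fun u hu v hv => lt_of_lt_of_le (hb u hu v hv) (min_le_left _ _)
    have hb2 : Sm κ₂ b := fun u hu v hv => lt_of_lt_of_le (hb u hu v hv) (min_le_right _ _)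
    have hR : ext (fun a' => Θ' a' b) (bdL (ZMod 2) A) =
        ext (fun a' => Θ a' b) (bdL (ZMod 2) A) := by
      apply ext_congr (sup_bdL A)
      rintro l ⟨_, hl⟩
      rw [hne l (by omega)]
    rw [hR]
    by_cases hA : A.length = J + 2
    · by_cases hbl : b.length = q + 1
      · rw [← hψ2 A ⟨hA1, hA2, hA⟩ b hb2 hbl]
        apply ext_congr (sup_bdL b)
        rintro l ⟨_, hl⟩
        rw [heq A hA, if_pos]
        exact ⟨by omega, hA1, hA2⟩
      · have h1 : ext (Θ' A) (bdL (ZMod 2) b) = 0 := by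
          apply pkg_ext_zero (sup_bdL b)
          rintro l ⟨_, hl⟩
          rw [heq A hA, if_neg]
          rintro ⟨h, _⟩
          omega
        have h2 : ext (fun a' => Θ a' b) (bdL (ZMod 2) A) = 0 := by
          apply pkg_ext_zero (sup_bdL A)
          rintro l ⟨_, hl⟩
          by_contra h
          have := hlen l b h
          omega
        rw [h1, h2]
    · rw [hne A hA]
      have h1 : Sm κ₀' A := fun u hu v hv => lt_of_lt_of_le (hA2 u hu v hv) e1
      exact hch A hA1 h1 (by omega) b hb1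
  · intro x hx b
    rw [hne [x] (by simp)]
    exact hbase x hx b

/-- file `M_Pkg.lean` -/
theorem pkgS (hn : 0 < n) {m : ℕ} (β : Fin m → (Fin n → ℝ) → X)
    (hβ : ∀ a, IsOpenEmbedding (β a)) (hF : FundS β) (hI : ∀ a b, InvS (β a) (β b))
    (hLC : ∀ a q, 1 ≤ q → q ≤ n → LCS (β a) q) (N : Set X) (hN : IsCompact N)
    (hcov : N ⊆ ⋃ a, β a '' Q n 1) : PkgS n N := by
  rcases N.eq_empty_or_nonempty with hN0 | ⟨x₀, hx₀⟩
  · subst hN0
    refine ⟨1, one_pos, fun J _ ρ _ => ⟨1, one_pos, 1, one_pos, fun _ _ => 0, fun _ => rfl,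
      fun _ => rfl, fun a b h => absurd rfl h, fun a _ _ _ b _ h => absurd rfl h, ?_, ?_⟩⟩
    · intro a _ _ _ b _
      rw [pkg_ext_zero (sup_bdL b) fun _ _ => rfl, pkg_ext_zero (sup_bdL a) fun _ _ => rfl]
    · intro δ _
      refine ⟨0, Sup.zero, ?_, fun x hx => absurd hx (Set.notMem_empty x)⟩
      rw [map_zero]
      exact Sup.zero
  · obtain ⟨a₀, _⟩ := Set.mem_iUnion.1 (hcov hx₀)
    have hα0 : ∀ x : X, ∃ a : Fin m, x ∈ N → x ∈ β a '' Q n 1 := by
      intro x
      by_cases hx : x ∈ N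
      · obtain ⟨a, ha⟩ := Set.mem_iUnion.1 (hcov hx)
        exact ⟨a, fun _ => ha⟩
      · exact ⟨a₀, fun h => absurd h hx⟩
    choose α hα using hα0
    have hind : ∀ J ≤ n, PkgI n N (fun x b => pkgB (β (α x)) x b) J := by
      intro J
      induction J with
      | zero => exact fun _ => pkgI_zero hβ α hα
      | succ J ih => exact fun hJ => pkgI_succ hβ hI hLC α hα hJ (ih (by omega))
    obtain ⟨η, hη, hfund⟩ := hF
    refine ⟨η, hη, fun J hJ ρ hρ => ?_⟩
    obtain ⟨κ₀, hκ₀, κ₁, hκ₁, Θ, h1, h2, h3, h4, h5, h6⟩ := hind J hJ ρ hρ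
    refine ⟨κ₀, hκ₀, κ₁, hκ₁, Θ, h1, h2, h3, h4, h5, fun δ hδ => ?_⟩
    obtain ⟨μ, hμ1, hμ2, hμ3⟩ := hfund δ hδ
    refine ⟨μ, hμ1, ?_, fun x hx => ?_⟩
    · refine Sup.mono ?_ hμ2
      intro l hl y hy z hz
      exact hl (α z) y hy z (hα z hz)
    · have e : Θ [x] = pkgB (β (α x)) x := funext fun b => h6 x hx b
      rw [e, pkgB_dg (Sup.mono (fun l hl => hl.1) hμ1)]
      have hx1 := hα x hx
      exact (hμ3 (α x) x (Q_mono (by norm_num) _ hx1) ⟨α x, x, hx1, by rw [dist_self]; exact hη⟩).2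

end

end Vale.Agent.P239.M
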