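import Vale.Agent.P239.S.M_Sup

/-!
Block M14: the chain map `ψ` from small lists of the group to small lists of the space.
-/

namespace Vale.Agent.P239.M

open Metric Set Topology

section Psi

variable {Γ X : Type*} [Group Γ] [MetricSpace X] [MulAction Γ X]

/-- the translates of `A` by the elements of `T` -/
private def psiTA (T : Finset Γ) (A : Set X) : Set X := ⋃ g ∈ T, (fun x => g • x) '' A

private theorem psiTA_compact (hact : CoAct Γ X) (T : Finset Γ) {A : Set X} (hA : IsCompact A) :
    IsCompact (psiTA T A) :=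
  T.isCompact_biUnion fun g _ => hA.image (hact.cont g)

private theorem mem_psiTA {T : Finset Γ} {A : Set X} {g : Γ} (hg : g ∈ T) {x : X} (hx : x ∈ A) :
    g • x ∈ psiTA T A := by
  simp only [psiTA, mem_iUnion]
  exact ⟨g, hg, x, hx, rfl⟩

/-- uniform continuity of finitely many elements on a compact set -/
private theorem psi_unif (f : Γ → Γ) (hact : CoAct Γ X) {A : Set X} (hA : IsCompact A)
    (W : Finset Γ) {ε : ℝ} (hε : 0 < ε) :
    ∃ δ > 0, ∀ g ∈ W, ∀ x ∈ A, ∀ y ∈ A, dist x y < δ → dist (f g • x) (f g • y) < ε := by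
  classical
  induction W using Finset.induction_on with
  | empty => exact ⟨1, one_pos, by simp⟩
  | insert g W hg ih =>
    obtain ⟨δ, hδ, h⟩ := ih
    have hu := hA.uniformContinuousOn_of_continuous (hact.cont (f g)).continuousOn
    rw [Metric.uniformContinuousOn_iff] at hu
    obtain ⟨δ', hδ', h'⟩ := hu ε hε
    refine ⟨min δ δ', lt_min hδ hδ', fun g' hg' x hx y hy hxy => ?_⟩
    rcases Finset.mem_insert.1 hg' with rfl | hg'
    · exact h' x hx y hy (hxy.trans_le (min_le_right _ _))
    · exact h g' hg' x hx y hy (hxy.trans_le (min_le_left _ _))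

private theorem psi_pf_pf {k : Type*} [CommRing k] (f g : X → X) (h : ∀ x, f (g x) = x)
    (c : Ch k X) : pf f (pf g c) = c := by
  induction c using Finsupp.induction_linear with
  | zero => simp
  | add a b ha hb => rw [map_add, map_add, ha, hb]
  | single l r =>
    rw [pf_single, pf_single, List.map_map]
    congr 1
    conv_rhs => rw [← List.map_id l]
    exact List.map_congr_left fun x _ => h x

private theorem psi_sm_map {X Y : Type*} [MetricSpace X] [MetricSpace Y] {f : X → Y} {A : Set X}
    {δ ε : ℝ} (h : ∀ x ∈ A, ∀ y ∈ A, dist x y < δ → dist (f x) (f y) < ε) {l : List X}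
    (hl : Sm δ l) (hA : In A l) : Sm ε (l.map f) := by
  intro x hx y hy
  obtain ⟨x', hx', rfl⟩ := List.mem_map.1 hx
  obtain ⟨y', hy', rfl⟩ := List.mem_map.1 hy
  exact h x' (hA x' hx') y' (hA y' hy') (hl x' hx' y' hy')

theorem psiS (k : Type*) [CommRing k] [Nonempty X] (hact : CoAct Γ X) (hF : FillS k X) (i : ℕ) :
    PsiS k Γ X i := by
  classical
  induction i with
  | zero =>
    intro S
    refine ⟨∅, isCompact_empty, fun W κ hκ => ⟨fun _ => Finsupp.single [] 1, rfl, ?_⟩⟩
    intro a _ _ ha
    have ha' : a = [] := List.length_eq_zero_iff.1 (Nat.le_zero.1 ha)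
    subst ha'
    refine ⟨?_, ?_⟩
    · rw [bd_single]
      simp [bdL]
    · exact Sup.single 1 ⟨rfl, fun x hx => by simp at hx, fun x hx => by simp at hx⟩
  | succ i ih =>
    intro S
    obtain ⟨C, hC, hψ⟩ := ih S
    obtain ⟨A', hA', -, hfill⟩ := hF (psiTA S C) (psiTA_compact hact S hC)
    refine ⟨C ∪ psiTA S A', hC.union (psiTA_compact hact S hA'), fun W κ hκ => ?_⟩
    obtain ⟨ε, hε, hεu⟩ := psi_unif (fun g => g) hact hA' W hκ
    obtain ⟨κ₁, hκ₁, hfill₁⟩ := hfill ε hε
    obtain ⟨κ₂, hκ₂, hκ₂u⟩ := psi_unif (fun g => g⁻¹) hact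
      (psiTA_compact hact W (psiTA_compact hact S hC)) W hκ₁
    obtain ⟨ψ, hψ0, hψa⟩ := hψ W (min κ κ₂) (lt_min hκ hκ₂)
    -- filling for one list of length `i + 1`
    have hone : ∀ a : List Γ, SmG S a → (∀ g ∈ a, g ∈ W) → a.length = i + 1 →
        ∃ e : Ch k X, bd e = ext ψ (bdL k a) ∧
          Sup (fun l => l.length = a.length ∧ Sm κ l ∧
            ∀ x ∈ l, ∀ g ∈ a, ∃ y ∈ C ∪ psiTA S A', x = g • y) e := by
      intro a haS haW ha
      obtain ⟨g, a', rfl⟩ : ∃ g a', a = g :: a' := by
        cases a with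
        | nil => simp at ha
        | cons g a' => exact ⟨g, a', rfl⟩
      have hg : g ∈ g :: a' := List.mem_cons_self
      have hface : Sup (fun l' : List Γ => SmG S l' ∧ (∀ g ∈ l', g ∈ W) ∧ l'.length = i ∧
          ∀ g' ∈ l', g' ∈ g :: a') (bdL k (g :: a')) := by
        refine (sup_bdL (g :: a')).mono fun l hl => ?_
        obtain ⟨h1, h2⟩ := hl
        exact ⟨fun x hx y hy => haS x (h1.subset hx) y (h1.subset hy),
          fun x hx => haW x (h1.subset hx), by omega, fun x hx => h1.subset hx⟩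
      set c : Ch k X := ext ψ (bdL k (g :: a')) with hc
      have hbdc : bd c = 0 := by
        have h1 : bd c = ext (fun l => bd (ψ l)) (bdL k (g :: a')) := by
          rw [hc]
          simp only [ext, Finsupp.linearCombination_apply, Finsupp.sum, map_sum, map_smul]
        rw [h1, ext_congr hface (v := fun l => ext ψ (bdL k l))
          (fun l hl => (hψa l hl.1 hl.2.1 hl.2.2.1.le).1), ← ext_bdL, bd_bdL, map_zero]
      have hsupc : Sup (fun l => l.length = i ∧ Sm κ₂ l ∧ ∀ x ∈ l, g⁻¹ • x ∈ psiTA S C) c := by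
        refine Sup.ext hface fun l hl => ?_
        obtain ⟨hl1, hl2, hl3, hl4⟩ := hl
        refine (hψa l hl1 hl2 hl3.le).2.mono fun l' hl' => ?_
        obtain ⟨h1, h2, h3⟩ := hl'
        refine ⟨h1.trans hl3, fun x hx y hy => (h2 x hx y hy).trans_le (min_le_right _ _), ?_⟩
        intro x hx
        have hne : l ≠ [] := by
          rintro rfl
          rw [List.length_nil, List.length_eq_zero_iff] at h1
          rw [h1] at hx
          simp at hx
        obtain ⟨g', hg'⟩ := List.exists_mem_of_ne_nil l hne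
        obtain ⟨y, hy, rfl⟩ := h3 x hx g' hg'
        rw [smul_smul]
        exact mem_psiTA (haS g hg g' (hl4 g' hg')) hy
      have hsupc' : Sup (fun l => l.length = i ∧ Sm κ₁ l ∧ In (psiTA S C) l)
          (pf (fun x => g⁻¹ • x) c) := by
        refine Sup.pf _ (hsupc.mono fun l hl => ?_)
        obtain ⟨h1, h2, h3⟩ := hl
        refine ⟨by rw [List.length_map, h1], ?_, ?_⟩
        · refine psi_sm_map (A := psiTA W (psiTA S C)) (hκ₂u g (haW g hg)) h2 fun x hx => ?_
          have := mem_psiTA (haW g hg) (h3 x hx)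
          rwa [smul_inv_smul] at this
        · intro x hx
          obtain ⟨x', hx', rfl⟩ := List.mem_map.1 hx
          exact h3 x' hx'
      obtain ⟨e, he, hesup⟩ := hfill₁ i (pf (fun x => g⁻¹ • x) c)
        (by rw [bd_pf, hbdc, map_zero]) hsupc'
      refine ⟨pf (fun x => g • x) e, ?_, ?_⟩
      · rw [bd_pf, he]
        exact psi_pf_pf _ _ (fun x => smul_inv_smul g x) c
      · refine Sup.pf _ (hesup.mono fun l hl => ?_)
        obtain ⟨h1, h2, h3⟩ := hl
        refine ⟨by rw [List.length_map, h1, ha], psi_sm_map (hεu g (haW g hg)) h2 h3, ?_⟩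
        intro x hx g' hg'
        obtain ⟨y, hy, rfl⟩ := List.mem_map.1 hx
        refine ⟨(g'⁻¹ * g) • y, Or.inr (mem_psiTA (haS g' hg' g hg) (h3 y hy)), ?_⟩
        rw [smul_smul, mul_inv_cancel_left]
    choose! e he hesup using hone
    refine ⟨fun a => if a.length ≤ i then ψ a else e a, by simp [hψ0], ?_⟩
    intro a haS haW ha
    have hext : ext (fun a => if a.length ≤ i then ψ a else e a) (bdL k a) = ext ψ (bdL k a) := by
      refine ext_congr (sup_bdL a) fun l hl => ?_
      rw [if_pos (by have := hl.2; omega)]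
    rw [hext]
    by_cases hai : a.length ≤ i
    · simp only [if_pos hai]
      obtain ⟨h1, h2⟩ := hψa a haS haW hai
      refine ⟨h1, h2.mono fun l hl => ⟨hl.1, fun x hx y hy =>
        (hl.2.1 x hx y hy).trans_le (min_le_left _ _), fun x hx g hg => ?_⟩⟩
      obtain ⟨y, hy, hxy⟩ := hl.2.2 x hx g hg
      exact ⟨y, Or.inl hy, hxy⟩
    · simp only [if_neg hai]
      have hai' : a.length = i + 1 := by omega
      exact ⟨he a haS haW hai', hesup a haS haW hai'⟩

end Psi

end Vale.Agent.P239.M
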