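import Vale.Agent.P239.S.M_Sup

/-!
Module M, block M13: cycles far from a compact set bound far from it.
-/

namespace Vale.Agent.P239.M

open Metric Set Topology

section Push

variable {X : Type*} [MetricSpace X]

private theorem push_leb {K' N : Set X} (hK' : IsCompact K') (h : K' ⊆ interior N) :
    ∃ r > 0, ∀ x ∈ K', ∀ y, dist x y < r → y ∈ N := by
  obtain ⟨r, hr, hsub⟩ := hK'.exists_thickening_subset_open isOpen_interior h
  refine ⟨r, hr, fun x hx y hy => interior_subset (hsub ?_)⟩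
  rw [mem_thickening_iff]
  exact ⟨x, hx, by rwa [dist_comm]⟩

/-- file `M_Push.lean` -/
theorem pushS (i : ℕ) (hi : 1 ≤ i) (hF : FillS (ZMod 2) X) (hR : RelS X i) : PushS X i := by
  classical
  intro K hK
  obtain ⟨K', N, N', hK'c, hNc, hN'c, hKK', hK'N, hNN', hRel⟩ := hR K hK
  refine ⟨K', hK'c, fun A hA => ?_⟩
  obtain ⟨A1, hA1c, hAA1, hFill⟩ := hF A hA
  refine ⟨A1 ∪ N', hA1c.union hN'c, fun ε hε => ?_⟩
  obtain ⟨κR, hκR, hrel⟩ := hRel ε hε
  obtain ⟨r, hr, hleb⟩ := push_leb hK'c hK'N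
  obtain ⟨κ, hκ, hfill⟩ := hFill (min (min κR r) ε) (lt_min (lt_min hκR hr) hε)
  refine ⟨κ, hκ, fun z hz hzs => ?_⟩
  obtain ⟨c, hcz, hcs⟩ := hfill i z hz (hzs.mono fun l hl => ⟨hl.1, hl.2.1, hl.2.2.1⟩)
  have hsmall : ∀ l ∈ c.support, ∀ x ∈ l, x ∈ K' → In N l := by
    intro l hl x hx hxK y hy
    have h1 := (hcs l hl).2.1 x hx y hy
    exact hleb x hxK y (lt_of_lt_of_le h1 ((min_le_left _ _).trans (min_le_right _ _)))
  set v : Ch (ZMod 2) X := c.filter (In N) with hv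
  set w : Ch (ZMod 2) X := c.filter (fun l => ¬ In N l) with hw
  have hvw : v + w = c := Finsupp.filter_add_filter_not c _
  have hvs : Sup (fun l => l.length = i + 1 ∧ Sm κR l ∧ In N l) v := by
    intro l hl
    rw [hv, Finsupp.support_filter, Finset.mem_filter] at hl
    have h1 := hcs l hl.1
    exact ⟨h1.1, fun x hx y hy => lt_of_lt_of_le (h1.2.1 x hx y hy)
      ((min_le_left _ _).trans (min_le_left _ _)), hl.2⟩
  have hbv : Sup (In K'ᶜ) (bd v) := by
    intro l hl x hx hxK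
    have h1 : l ∈ (bd c).support :=
      mem_bd_filter (P := In N) hl hx fun l' hl' hx' => hsmall l' hl' x hx' hxK
    rw [hcz] at h1
    exact (hzs l h1).2.2.2 x hx hxK
  obtain ⟨e, cm, hve, hes, hcms⟩ := hrel v hvs hbv
  refine ⟨w + cm, ?_, ?_⟩
  · have h1 : bd v = bd cm := by
      rw [hve, map_add, bd_bd, zero_add]
    have h2 : bd v + bd w = z := by rw [← map_add, hvw, hcz]
    rw [map_add, ← h1, add_comm, h2]
  · refine Sup.add ?_ (hcms.mono fun l hl => ⟨hl.1, hl.2.1, fun x hx => Or.inr (hl.2.2.1 x hx),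
      hl.2.2.2⟩)
    intro l hl
    rw [hw, Finsupp.support_filter, Finset.mem_filter] at hl
    have h1 := hcs l hl.1
    refine ⟨h1.1, fun x hx y hy => lt_of_lt_of_le (h1.2.1 x hx y hy) (min_le_right _ _),
      fun x hx => Or.inl (h1.2.2 x hx), fun x hx hxK => hl.2 (hsmall l hl.1 x hx (hKK' hxK))⟩

end Push

end Vale.Agent.P239.M
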