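import Vale.Agent.P239.S.M_Rel2

/-!
Module M, block M12: relative cycles near infinity (`RelS`).
-/

namespace Vale.Agent.P239.M.Rel

open Vale.Agent.P239.M Metric Set

section Eta

variable {X : Type*} (H : unitInterval × X → X) (M : ℕ) (x₀ : X) (th : List X → ZMod 2)

/-- the primitive of `th` -/
noncomputable def et (l : List X) : ZMod 2 :=
  ext th (cone x₀ (pf (fun x => H (1, x)) (Finsupp.single l (1 : ZMod 2)))) +
    ext th (DN H M (Finsupp.single l (1 : ZMod 2)))

theorem ext_et (c : Ch (ZMod 2) X) : ext (et H M x₀ th) c =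
    ext th (cone x₀ (pf (fun x => H (1, x)) c)) + ext th (DN H M c) := by
  have e := map_ext (k := ZMod 2) (M := Ch (ZMod 2) X) (N := ZMod 2)
    ((ext th).comp ((cone x₀).comp (pf fun x => H (1, x))) + (ext th).comp (DN H M))
    (fun l => Finsupp.single l 1) c
  have e2 : ext (fun l' => Finsupp.single l' (1 : ZMod 2)) c = c := by
    rw [ext_def]; simp
  rw [e2] at e
  exact e.symm

theorem ext_et_bdL (hM : 0 < M) (h0 : ∀ x, H (0, x) = x) (l : List X)
    (hd : Sup (fun b => ext th (bdL (ZMod 2) b) = 0)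
      (cone x₀ (pf (fun x => H (1, x)) (Finsupp.single l (1 : ZMod 2)))))
    (hd' : Sup (fun b => ext th (bdL (ZMod 2) b) = 0) (DN H M (Finsupp.single l (1 : ZMod 2)))) :
    ext (et H M x₀ th) (bdL (ZMod 2) l) = th l := by
  have hz : ∀ c : Ch (ZMod 2) X, Sup (fun b => ext th (bdL (ZMod 2) b) = 0) c →
      ext th (bd c) = 0 := by
    intro c hc
    rw [bd_eq_ext, ext_ext]
    rw [ext_congr (v := fun _ => 0) (fun l hl => hc l hl), ext_zero_fun]
  have hbl : bdL (ZMod 2) l = bd (Finsupp.single l 1) := by rw [bd_single, one_smul]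
  have e1 : cone x₀ (pf (fun x => H (1, x)) (bdL (ZMod 2) l)) =
      pf (fun x => H (1, x)) (Finsupp.single l 1) -
        bd (cone x₀ (pf (fun x => H (1, x)) (Finsupp.single l 1))) := by
    rw [hbl, ← bd_pf, bd_cone, sub_sub_cancel]
  have e2 : DN H M (bdL (ZMod 2) l) = pf (fun x => H (1, x)) (Finsupp.single l 1) -
      Finsupp.single l 1 - bd (DN H M (Finsupp.single l 1)) := by
    rw [← bd_DN H hM h0, hbl]; abel
  rw [ext_et, e1, e2, map_sub, map_sub, map_sub, hz _ hd, hz _ hd', sub_zero, sub_zero,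
    ext_single, one_smul, sub_eq_add_neg, ← add_assoc, two_zero, zero_add]
  exact neg_eq_of_add_eq_zero_left (two_zero _)

theorem et_eq_zero {m : ℕ} (hth : ∀ b, th b ≠ 0 → b.length = m) {l : List X}
    (hl : l.length + 1 ≠ m) : et H M x₀ th l = 0 := by
  have hz : ∀ c : Ch (ZMod 2) X, Sup (fun b => b.length = l.length + 1) c → ext th c = 0 := by
    intro c hc
    rw [ext_congr (v := fun _ => 0) (fun b hb => ?_), ext_zero_fun]
    by_contra h
    exact hl ((hc b hb).symm.trans (hth b h))
  rw [et, hz, hz, add_zero]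
  · exact sup_DN H M l fun a _ => sup_mono (fun m hm => hm.1) (sup_prL _ _ l)
  · rw [pf_single, cone_single]
    exact sup_single (by simp) 1

end Eta

variable {X : Type*} [MetricSpace X]

theorem relS [LocallyCompactSpace X] {n i : ℕ} (hi : 1 ≤ i) (hin : i < n)
    (H : unitInterval × X → X) (hH : Continuous H) (h0 : ∀ x, H (0, x) = x) (x₀ : X)
    (h1 : ∀ x, H (1, x) = x₀) (hP : ∀ N : Set X, IsCompact N → PkgS n N) : RelS X i := by
  classical
  intro K hK
  obtain ⟨r1, hr1, hK1⟩ := hK.exists_isCompact_cthickening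
  set K1 := cthickening r1 K with hK1def
  set K0 := H '' (univ ×ˢ K1) ∪ {x₀} with hK0def
  have hK0 : IsCompact K0 :=
    ((isCompact_univ.prod hK1).image hH).union isCompact_singleton
  have hK1K0 : K1 ⊆ K0 := fun x hx => Or.inl ⟨(0, x), ⟨mem_univ _, hx⟩, h0 x⟩
  have hKK1 : K ⊆ K1 := self_subset_cthickening K
  obtain ⟨r2, hr2, hK'⟩ := hK0.exists_isCompact_cthickening
  set K' := cthickening r2 K0 with hK'def
  have hK0K' : K0 ⊆ K' := self_subset_cthickening K0
  obtain ⟨r3, hr3, hN⟩ := hK'.exists_isCompact_cthickening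
  set N := cthickening r3 K' with hNdef
  have hK'N : K' ⊆ N := self_subset_cthickening K'
  obtain ⟨r4, hr4, hN'⟩ := hN.exists_isCompact_cthickening
  set N' := cthickening r4 N with hN'def
  have hNN' : N ⊆ N' := self_subset_cthickening N
  refine ⟨K', N, N', hK', hN, hN', (hKK1.trans hK1K0).trans hK0K', ?_, hNN', ?_⟩
  · exact (self_subset_thickening hr3 K').trans
      (interior_maximal (thickening_subset_cthickening r3 K') isOpen_thickening)
  intro ε hε
  obtain ⟨η, hη, hJ⟩ := hP N hN
  set ρ := min (min (min η (r2 / 4)) (r4 / 4)) (ε / 8) with hρdef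
  have hρ : 0 < ρ := by
    rw [hρdef]; refine lt_min (lt_min (lt_min hη (by positivity)) (by positivity)) (by positivity)
  have hρη : ρ ≤ η := (min_le_left _ _).trans ((min_le_left _ _).trans (min_le_left _ _))
  have hρ2 : ρ ≤ r2 / 4 := (min_le_left _ _).trans ((min_le_left _ _).trans (min_le_right _ _))
  have hρ4 : ρ ≤ r4 / 4 := (min_le_left _ _).trans (min_le_right _ _)
  have hρε : ρ ≤ ε / 8 := min_le_right _ _
  obtain ⟨κ₀, hκ₀, κ₁, hκ₁, Θ, hΘ0, hΘ0', hlen, hloc, hch, hμ⟩ := hJ i hin.le ρ hρ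
  obtain ⟨M, hM, δ₀, hδ₀, hmesh⟩ := exists_mesh (k := ZMod 2) H hH hK1 hκ₁
  set δ := min (min δ₀ κ₁) (min ρ r1) with hδdef
  have hδ : 0 < δ := lt_min (lt_min hδ₀ hκ₁) (lt_min hρ hr1)
  have hδδ₀ : δ ≤ δ₀ := (min_le_left _ _).trans (min_le_left _ _)
  have hδκ₁ : δ ≤ κ₁ := (min_le_left _ _).trans (min_le_right _ _)
  have hδρ : δ ≤ ρ := (min_le_right _ _).trans (min_le_left _ _)
  have hδr1 : δ ≤ r1 := (min_le_right _ _).trans (min_le_right _ _)
  obtain ⟨μ, hμs, hμb, hμ1⟩ := hμ δ hδ
  refine ⟨min κ₀ ρ, lt_min hκ₀ hρ, fun v hv hbv => ?_⟩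
  -- sublists
  have smSub : ∀ {r : ℝ} {l l' : List X}, Sm r l → l'.Sublist l → Sm r l' :=
    fun h hs x hx y hy => h x (hs.subset hx) y (hs.subset hy)
  have smMono : ∀ {r r' : ℝ} {l : List X}, Sm r l → r ≤ r' → Sm r' l :=
    fun h hr x hx y hy => (h x hx y hy).trans_le hr
  have inSub : ∀ {A : Set X} {l l' : List X}, In A l → l'.Sublist l → In A l' :=
    fun h hs x hx => h x (hs.subset hx)
  -- the class of lists
  set P : List X → Prop := fun l => In N l ∧ Sm κ₀ l ∧ l.length ≤ i + 1 with hPdef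
  have hPsub : ∀ l l', P l → l'.Sublist l → P l' := fun l l' h hs =>
    ⟨inSub h.1 hs, smSub h.2.1 hs, hs.length_le.trans h.2.2⟩
  -- the chain map
  set Φ : List X → Ch (ZMod 2) X := fun l =>
    ext (capS (Θ l)) μ + (if l = [] then Finsupp.single [] 1 else 0) with hΦdef
  have hΘnil : ext (capS (Θ [])) μ = 0 := by
    rw [ext_congr (v := fun _ => 0) (fun l _ => ?_), ext_zero_fun]
    rw [show Θ [] = fun _ => 0 from funext hΘ0, capS_zero]
  have hΦnil : Φ [] = Finsupp.single [] 1 := by
    simp only [hΦdef, hΘnil, if_true, zero_add]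
  have hfar : ∀ l ∈ (bd μ).support, ∀ p, p.Sublist l → ∀ a, P a → Θ a p = 0 := by
    intro l hl p hp a ha
    by_contra hne
    have hane : a ≠ [] := by rintro rfl; exact hne (hΘ0 p)
    have hpne : p ≠ [] := by rintro rfl; exact hne (hΘ0' a)
    obtain ⟨x, hx⟩ := List.exists_mem_of_ne_nil a hane
    obtain ⟨y, hy⟩ := List.exists_mem_of_ne_nil p hpne
    obtain ⟨l', hl', hs, _⟩ := sup_bd μ l hl
    have hps : Sm κ₁ p := smMono (smSub (hμs l' hl').2 (hp.trans hs)) hδκ₁
    have h1 := hloc a ha.1 ha.2.1 ha.2.2 p hps hne x hx y hy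
    have h2 := hμb l hl y (hp.subset hy) x (ha.1 x hx)
    rw [dist_comm] at h2
    linarith
  have hΦ : ∀ l, P l → bd (Φ l) = ext Φ (bdL (ZMod 2) l) := by
    intro l hl
    have e1 : bd (if l = [] then (Finsupp.single [] 1 : Ch (ZMod 2) X) else 0) = 0 := by
      split_ifs
      · rw [bd_single, bdL, smul_zero]
      · exact map_zero _
    have e2 : ext (capS (Θ l)) (bd μ) = 0 := by
      rw [ext_congr (v := fun _ => 0) (fun l' hl' => ?_), ext_zero_fun]
      rw [← capS_zero l']
      exact capS_congr fun p s hs => hfar l' hl' p hs.sublist_left l hl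
    have e3 : ext (capS fun p => ext (Θ l) (bdL (ZMod 2) p)) μ =
        ext (fun a => ext (capS (Θ a)) μ) (bdL (ZMod 2) l) := by
      rw [ext_capS_ext]
      refine ext_congr fun l' hl' => capS_congr fun p s hs => ?_
      exact hch l hl.1 hl.2.1 hl.2.2 p (smMono (smSub (hμs l' hl').2 hs.sublist_left) hδκ₁)
    have e4 : (Finsupp.single [] (ext (Θ l) μ) : Ch (ZMod 2) X) =
        ext (fun a => if a = [] then (Finsupp.single [] 1 : Ch (ZMod 2) X) else 0)
          (bdL (ZMod 2) l) := by
      have hlen0 : l.length ≠ 1 → ext (Θ l) μ = 0 := by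
        intro hl1
        rw [ext_congr (v := fun _ => 0) (fun l' hl' => ?_), ext_zero_fun]
        by_contra hne
        have := hlen l l' hne
        have := (hμs l' hl').1
        omega
      match l, hl, hlen0 with
      | [], _, hlen0 => rw [hlen0 (by simp), bdL, map_zero, Finsupp.single_zero]
      | [x], hl, _ =>
        rw [hμ1 x (hl.1 x (by simp)), bdL, bdL, map_zero, sub_zero, ext_single, one_smul,
          if_pos rfl]
      | x :: y :: l, _, hlen0 =>
        rw [hlen0 (by simp), Finsupp.single_zero,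
          ext_congr (v := fun _ => 0) (fun a ha => ?_), ext_zero_fun]
        rw [if_neg]
        rintro rfl
        have := (sup_bdL _ _ ha).2
        simp at this
    rw [show Φ l = ext (capS (Θ l)) μ + (if l = [] then Finsupp.single [] 1 else 0) from rfl,
      map_add, e1, add_zero, bd_ext_capS _ _ (hΘ0' l), e2, zero_add, e3, e4, ← ext_add_fun]
  -- the neighbourhoods
  set R : List X → Set X := fun l => {y | ∃ x ∈ l, dist x y < 2 * ρ} with hRdef
  have hRmono : ∀ l l' : List X, l'.Sublist l → R l' ⊆ R l := by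
    rintro l l' hs y ⟨x, hx, hxy⟩
    exact ⟨x, hs.subset hx, hxy⟩
  have hRself : ∀ l : List X, ∀ x ∈ l, x ∈ R l := fun l x hx =>
    ⟨x, hx, by rw [dist_self]; positivity⟩
  set ξ : List X → X := fun l => l.headD x₀ with hξdef
  have hξ : ∀ l : List X, l ≠ [] → ξ l ∈ R l := by
    intro l hl
    cases l with
    | nil => exact absurd rfl hl
    | cons x l => exact hRself _ _ (by simp [hξdef])
  have hΦs : ∀ l, P l → Sup (fun m => m.length = l.length ∧ ∀ x ∈ m, x ∈ R l) (Φ l) := by
    intro l hl
    refine sup_add (sup_ext fun l' hl' => sup_capS fun p s hs hne => ?_) ?_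
    · obtain ⟨hl1, hl2⟩ := hμs l' hl'
      have h2 := hlen l p hne
      have h3 := hs.length
      refine ⟨by omega, fun y hy => ?_⟩
      have hlne : l ≠ [] := by rintro rfl; exact hne (hΘ0 p)
      obtain ⟨x, hx⟩ := List.exists_mem_of_ne_nil l hlne
      obtain ⟨z, hzp, hzs⟩ := hs.mid
      have h4 := hloc l hl.1 hl.2.1 hl.2.2 p (smMono (smSub hl2 hs.sublist_left) hδκ₁) hne
        x hx z hzp
      have h5 := hl2 z (hs.sublist_right.subset hzs) y (hs.sublist_right.subset hy)
      refine ⟨x, hx, ?_⟩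
      have := dist_triangle x z y
      linarith
    · split_ifs with h
      · subst h
        exact sup_single ⟨rfl, by simp⟩ 1
      · exact sup_zero _
  have hHs := fun l hl => sup_htp (ξ := ξ) hPsub hRmono hRself hξ hΦs l.length l rfl hl
  have hHb := fun l hl => bd_htp (ξ := ξ) hPsub hΦnil hΦ l.length l rfl hl
  -- `v` lies in the class
  have hvP : ∀ l ∈ v.support, P l := fun l hl =>
    ⟨(hv l hl).2.2, smMono (hv l hl).2.1 (min_le_left _ _), (hv l hl).1.le⟩
  -- the cochain
  set th : List X → ZMod 2 := fun b => ext (fun a => Θ a b) v with hthdef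
  have hth_ex : ∀ b, th b ≠ 0 → ∃ a ∈ v.support, Θ a b ≠ 0 := by
    intro b hb
    by_contra hcon
    push Not at hcon
    apply hb
    show ext (fun a => Θ a b) v = 0
    rw [ext_congr (v := fun _ => 0) hcon, ext_zero_fun]
  have hth_len : ∀ b, th b ≠ 0 → b.length = n + 1 - i := by
    intro b hb
    obtain ⟨a, ha, hab⟩ := hth_ex b hb
    have := hlen a b hab
    have := (hv a ha).1
    omega
  have hth_d : ∀ b, Sm κ₁ b → In K0 b → ext th (bdL (ZMod 2) b) = 0 := by
    intro b hbs hbK
    have e1 : ext th (bdL (ZMod 2) b) = ext (fun a => ext (Θ a) (bdL (ZMod 2) b)) v :=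
      (ext_swap (fun a b => Θ a b) v (bdL (ZMod 2) b)).symm
    have e2 : ext (fun a => ext (Θ a) (bdL (ZMod 2) b)) v =
        ext (fun a => ext (fun a' => Θ a' b) (bdL (ZMod 2) a)) v :=
      ext_congr fun a ha => hch a (hvP a ha).1 (hvP a ha).2.1 (hvP a ha).2.2 b hbs
    rw [e1, e2, ← ext_ext, ← bd_eq_ext, ext_congr (v := fun _ => 0) (fun a ha => ?_),
      ext_zero_fun]
    by_contra hne
    have hane : a ≠ [] := by rintro rfl; exact hne (hΘ0 b)
    have hbne : b ≠ [] := by rintro rfl; exact hne (hΘ0' a)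
    obtain ⟨x, hx⟩ := List.exists_mem_of_ne_nil a hane
    obtain ⟨y, hy⟩ := List.exists_mem_of_ne_nil b hbne
    obtain ⟨a', ha', hs, _⟩ := sup_bd v a ha
    have hPa : P a := hPsub a' a (hvP a' ha') hs
    have h2 := hloc a hPa.1 hPa.2.1 hPa.2.2 b hbs hne x hx y hy
    refine hbv a ha x hx ?_
    exact mem_cthickening_of_dist_le x y r2 K0 (hbK y hy) (by linarith)
  -- primitive
  set eta := et H M x₀ th with hetadef
  have heta : ∀ l, In K1 l → Sm δ l → ext eta (bdL (ZMod 2) l) = th l := by
    intro l hl hs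
    refine ext_et_bdL H M x₀ th hM h0 l ?_ ?_
    · rw [pf_single, cone_single]
      refine sup_single (hth_d _ ?_ ?_) 1
      · intro x hx y hy
        have hall : ∀ z ∈ x₀ :: l.map (fun x => H (1, x)), z = x₀ := by
          intro z hz
          rw [List.mem_cons, List.mem_map] at hz
          rcases hz with rfl | ⟨w, _, rfl⟩
          · rfl
          · exact h1 w
        rw [hall x hx, hall y hy, dist_self]; exact hκ₁
      · intro z hz
        rw [List.mem_cons, List.mem_map] at hz
        rcases hz with rfl | ⟨w, _, rfl⟩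
        · exact Or.inr rfl
        · rw [h1 w]; exact Or.inr rfl
    · refine sup_DN H M l fun a ha => sup_mono ?_ (hmesh l hl (smMono hs hδδ₀) a ha)
      rintro m ⟨_, h2, h3⟩
      exact hth_d m h2 fun z hz => Or.inl (h3 z hz)
  have heta_len : ∀ l, eta l ≠ 0 → l.length = n - i := by
    intro l hl
    by_contra hne
    exact hl (et_eq_zero H M x₀ th hth_len (by omega))
  have heta_nil : eta [] = 0 := by
    by_contra hne
    have := heta_len _ hne
    simp at this; omega
  -- the two parts of `μ`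
  set μ1 := μ.filter (In K1) with hμ1def
  set μ2 := μ.filter (fun l => ¬ In K1 l) with hμ2def
  have hμ12 : μ = μ1 + μ2 := (Finsupp.filter_add_filter_not _ _).symm
  have hμ1s : ∀ l ∈ μ1.support, l ∈ μ.support ∧ In K1 l := by
    intro l hl
    rw [hμ1def, Finsupp.support_filter, Finset.mem_filter] at hl
    exact hl
  have hμ2s : ∀ l ∈ μ2.support, l ∈ μ.support ∧ ¬ In K1 l := by
    intro l hl
    rw [hμ2def, Finsupp.support_filter, Finset.mem_filter] at hl
    exact hl
  have key1 : ext Φ v = ext (capS th) μ := by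
    rw [← ext_capS_ext]
    refine ext_congr fun l hl => ?_
    have : l ≠ [] := by
      rintro rfl
      have := (hv _ hl).1
      simp at this
    simp only [hΦdef, if_neg this, add_zero]
  have key2 : ext (capS th) μ1 = ext (capS fun p => ext eta (bdL (ZMod 2) p)) μ1 := by
    refine ext_congr fun l hl => capS_congr fun p s hs => ?_
    obtain ⟨hl1, hl2⟩ := hμ1s l hl
    exact (heta p (inSub hl2 hs.sublist_left) (smSub (hμs l hl1).2 hs.sublist_left)).symm
  have key3 : ext eta μ1 = 0 := by
    rw [ext_congr (v := fun _ => 0) (fun l hl => ?_), ext_zero_fun]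
    by_contra hne
    have := heta_len l hne
    have := (hμs l (hμ1s l hl).1).1
    omega
  have key4 : ext (capS th) μ1 = bd (ext (capS eta) μ1) + ext (capS eta) (bd μ1) := by
    rw [key2, bd_ext_capS _ _ heta_nil, key3, Finsupp.single_zero, add_zero]
    have := two_zero (ext (capS eta) (bd μ1))
    calc _ = ext (capS fun p => ext eta (bdL (ZMod 2) p)) μ1 + 0 := by rw [add_zero]
      _ = ext (capS fun p => ext eta (bdL (ZMod 2) p)) μ1 +
          (ext (capS eta) (bd μ1) + ext (capS eta) (bd μ1)) := by rw [this]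
      _ = _ := by abel
  have key5 : v = ext Φ v + bd (ext (htp ξ Φ) v) + ext (htp ξ Φ) (bd v) := by
    have e1 : ext (fun l => bd (htp ξ Φ l) + ext (htp ξ Φ) (bdL (ZMod 2) l)) v =
        ext (fun l => Finsupp.single l (1 : ZMod 2) - Φ l) v :=
      ext_congr fun l hl => hHb l (hvP l hl)
    have e2 : ext (fun l' => Finsupp.single l' (1 : ZMod 2)) v = v := by
      rw [ext_def]; simp
    rw [ext_add_fun, ext_sub_fun, e2] at e1
    rw [map_ext (bd (k := ZMod 2) (X := X)) (htp ξ Φ) v, bd_eq_ext v, ext_ext, add_assoc, e1]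
    abel
  refine ⟨ext (capS eta) μ1 + ext (htp ξ Φ) v,
    ext (capS eta) (bd μ1) + ext (capS th) μ2 + ext (htp ξ Φ) (bd v), ?_, ?_, ?_⟩
  · have hsplit : ext (capS th) μ = ext (capS th) μ1 + ext (capS th) μ2 := by
      conv_lhs => rw [hμ12]
      exact map_add _ _ _
    conv_lhs => rw [key5, key1, hsplit, key4]
    rw [map_add]; abel
  · refine sup_add (sup_ext fun l hl => sup_capS fun p s hs hne => ?_) (sup_ext fun l hl => ?_)
    · obtain ⟨hl1, hl2⟩ := hμ1s l hl
      have e1 := heta_len p hne
      have e2 := hs.length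
      have e3 := (hμs l hl1).1
      refine ⟨by omega, smMono (smSub (hμs l hl1).2 hs.sublist_right) (by linarith), ?_⟩
      exact fun x hx => hNN' (hK'N (hK0K' (hK1K0 (hl2 x (hs.sublist_right.subset hx)))))
    · refine sup_mono ?_ (hHs l (hvP l hl))
      rintro m ⟨hm1, hm2⟩
      refine ⟨by rw [hm1, (hv l hl).1], ?_, ?_⟩
      · intro y hy y' hy'
        obtain ⟨x, hx, hxy⟩ := hm2 y hy
        obtain ⟨x', hx', hxy'⟩ := hm2 y' hy'
        have h3 := (hv l hl).2.1 x hx x' hx'
        have h4 : dist x x' < ρ := h3.trans_le (min_le_right _ _)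
        have := dist_triangle4 y x x' y'
        rw [dist_comm y x] at this
        linarith
      · intro y hy
        obtain ⟨x, hx, hxy⟩ := hm2 y hy
        refine mem_cthickening_of_dist_le y x r4 N ((hv l hl).2.2 x hx) ?_
        rw [dist_comm]; linarith
  · refine sup_add (sup_add (sup_ext fun l hl => sup_capS fun p s hs hne => ?_)
      (sup_ext fun l hl => sup_capS fun p s hs hne => ?_)) (sup_ext fun l hl => ?_)
    · obtain ⟨l', hl', hsl, hlen'⟩ := sup_bd μ1 l hl
      obtain ⟨hl1, hl2⟩ := hμ1s l' hl'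
      have e1 := heta_len p hne
      have e2 := hs.length
      have e3 := (hμs l' hl1).1
      have hss := hs.sublist_right.trans hsl
      refine ⟨by omega, smMono (smSub (hμs l' hl1).2 hss) (by linarith), ?_, ?_⟩
      · exact fun x hx => hNN' (hK'N (hK0K' (hK1K0 (hl2 x (hss.subset hx)))))
      · intro x hx hxK
        have hxl : x ∈ l := hs.sublist_right.subset hx
        have hmem : l ∈ (bd μ).support := by
          refine mem_bd_of_filter (P := In K1) hl hxl fun l'' hl'' hx'' y hy => ?_
          refine mem_cthickening_of_dist_le y x r1 K hxK ?_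
          exact ((hμs l'' hl'').2 y hy x hx'').le.trans hδr1
        have := hμb l hmem x hxl x (hK'N (hK0K' (hK1K0 (hKK1 hxK))))
        rw [dist_self] at this
        linarith
    · obtain ⟨hl1, hl2⟩ := hμ2s l hl
      have e1 := hth_len p hne
      have e2 := hs.length
      have e3 := (hμs l hl1).1
      have hsm := (hμs l hl1).2
      refine ⟨by omega, smMono (smSub hsm hs.sublist_right) (by linarith), ?_, ?_⟩
      · intro y hy
        obtain ⟨a, ha, hab⟩ := hth_ex p hne
        have hane : a ≠ [] := by rintro rfl; exact hab (hΘ0 p)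
        obtain ⟨x, hx⟩ := List.exists_mem_of_ne_nil a hane
        obtain ⟨z, hzp, hzs⟩ := hs.mid
        have hPa := hvP a ha
        have h4 := hloc a hPa.1 hPa.2.1 hPa.2.2 p (smMono (smSub hsm hs.sublist_left) hδκ₁) hab
          x hx z hzp
        have h5 := hsm z (hs.sublist_right.subset hzs) y (hs.sublist_right.subset hy)
        refine mem_cthickening_of_dist_le y x r4 N (hPa.1 x hx) ?_
        have := dist_triangle x z y
        rw [dist_comm]; linarith
      · intro y hy hyK
        apply hl2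
        intro u hu
        refine mem_cthickening_of_dist_le u y r1 K hyK ?_
        exact (hsm u hu y (hs.sublist_right.subset hy)).le.trans hδr1
    · obtain ⟨l', hl', hsl, hlen'⟩ := sup_bd v l hl
      have hPl := hPsub l' l (hvP l' hl') hsl
      refine sup_mono ?_ (hHs l hPl)
      rintro m ⟨hm1, hm2⟩
      have e3 := (hv l' hl').1
      refine ⟨by omega, ?_, ?_, ?_⟩
      · intro y hy y' hy'
        obtain ⟨x, hx, hxy⟩ := hm2 y hy
        obtain ⟨x', hx', hxy'⟩ := hm2 y' hy'
        have h3 := (hv l' hl').2.1 x (hsl.subset hx) x' (hsl.subset hx')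
        have h4 : dist x x' < ρ := h3.trans_le (min_le_right _ _)
        have := dist_triangle4 y x x' y'
        rw [dist_comm y x] at this
        linarith
      · intro y hy
        obtain ⟨x, hx, hxy⟩ := hm2 y hy
        refine mem_cthickening_of_dist_le y x r4 N (hPl.1 x hx) ?_
        rw [dist_comm]; linarith
      · intro y hy hyK
        obtain ⟨x, hx, hxy⟩ := hm2 y hy
        refine hbv l hl x hx ?_
        exact mem_cthickening_of_dist_le x y r2 K0 (hK1K0 (hKK1 hyK)) (by linarith)

end Vale.Agent.P239.M.Rel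

namespace Vale.Agent.P239.M

/-- (M12), statement of the skeleton. -/
theorem relS {X : Type*} [MetricSpace X] {n : ℕ} [LocallyCompactSpace X] [ContractibleSpace X]
    (hP : ∀ N : Set X, IsCompact N → PkgS n N) (i : ℕ) (hi : 1 ≤ i) (hin : i < n) :
    RelS X i := by
  obtain ⟨x₀, ⟨h⟩⟩ := id_nullhomotopic X
  exact Rel.relS hi hin (fun p => h p) h.continuous (fun x => h.apply_zero x) x₀
    (fun x => h.apply_one x) hP

end Vale.Agent.P239.M
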