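import Vale.Agent.P239.S.M_LD1
import Vale.Agent.P239.S.M_Inv
import Vale.Agent.P239.S.M_Fund
import Vale.Agent.P239.S.M_LC
import Vale.Agent.P239.S.M_Pkg
import Vale.Agent.P239.S.M_Rel
import Vale.Agent.P239.S.M_PushV
import Vale.Agent.P239.S.M_Psi
import Vale.Agent.P239.S.M_CPush
import Vale.Agent.P239.S.M_OE
import Vale.Agent.P239.S.M_H2
import Vale.Agent.P239.S.M_Mfd

/-!
Module M: assembly.
-/

namespace Vale.Agent.P239.M

open Metric Set Topology

variable {M X Γ : Type*} [TopologicalSpace M] [T2Space M] [CompactSpace M]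
  [ChartedSpace (EuclideanSpace ℝ (Fin 4)) M] [TopologicalSpace X] [ContractibleSpace X]
  [Group Γ] [MulAction Γ X] {p : X → M}

theorem pkg_of_charts {X : Type*} [MetricSpace X]
    (hch : ∀ x : X, ∃ β : (Fin 4 → ℝ) → X, IsOpenEmbedding β ∧ β 0 = x) (N : Set X)
    (hN : IsCompact N) : PkgS 4 N := by
  choose β hβ hβ0 using hch
  have hnb : ∀ x, β x '' Q 4 1 ∈ 𝓝 x := fun x => by
    have h1 : ball (0 : Fin 4 → ℝ) 1 ⊆ Q 4 1 := ball_subset_closedBall
    refine Filter.mem_of_superset ?_ (image_mono h1)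
    refine ((hβ x).isOpenMap _ isOpen_ball).mem_nhds ?_
    exact ⟨0, mem_ball_self one_pos, hβ0 x⟩
  obtain ⟨t, -, ht⟩ := hN.elim_nhds_subcover (fun x => β x '' Q 4 1) fun x _ => hnb x
  let e := t.equivFin
  let b : Fin t.card → (Fin 4 → ℝ) → X := fun a => β (e.symm a)
  have hb : ∀ a, IsOpenEmbedding (b a) := fun a => hβ _
  have hL : ∀ a, LD1S (b a) := fun a => ld1S (by norm_num) (hb a)
  have hI : ∀ a c, InvS (b a) (b c) := fun a c => invS (by norm_num) (hb a) (hb c) (hL c)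
  refine pkgS (by norm_num) b hb (fundS (by norm_num) b hb hL hI) hI
    (fun a q h1 h2 => lcS (by norm_num) (hb a) q h1 h2) N hN ?_
  intro x hx
  obtain ⟨y, hy, hxy⟩ := mem_iUnion₂.1 (ht hx)
  refine mem_iUnion.2 ⟨e ⟨y, hy⟩, ?_⟩
  simpa [b] using hxy

theorem push_of_charts {X : Type*} [MetricSpace X] [LocallyCompactSpace X] [ContractibleSpace X]
    (hch : ∀ x : X, ∃ β : (Fin 4 → ℝ) → X, IsOpenEmbedding β ∧ β 0 = x) (i : ℕ) (hi : 1 ≤ i)
    (hi4 : i < 4) : PushS X i :=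
  pushS i hi (fillS _ X) (relS (pkg_of_charts hch) i hi hi4)

variable (hp : IsQuotientCoveringMap p Γ)
include hp

theorem coarse_of_cover : CPushS Γ 1 ∧ CPushS Γ 2 ∧ CFillS (ZMod 2) Γ 2 ∧
    CFillS (ZMod 2) Γ 3 := by
  have : LocallyCompactSpace M := ChartedSpace.locallyCompactSpace (EuclideanSpace ℝ (Fin 4)) M
  have : LocallyCompactSpace X := locallyCompact_of_cover hp
  have hm : TopologicalSpace.MetrizableSpace X := metrizable_of_cover hp
  letI : MetricSpace X := TopologicalSpace.metrizableSpaceMetric X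
  have hact : CoAct Γ X := coAct_of_cover hp
  have hF : FillS (ZMod 2) X := fillS _ X
  have hch := chart_of_cover hp
  have hpsi : ∀ i, PsiS (ZMod 2) Γ X i := fun i => psiS _ hact hF i
  exact ⟨cpushS hact 1 (hpsi 1) (push_of_charts hch 1 le_rfl (by norm_num)),
    cpushS hact 2 (hpsi 2) (push_of_charts hch 2 (by norm_num) (by norm_num)),
    cfillS _ hact hF 2 (hpsi 2), cfillS _ hact hF 3 (hpsi 3)⟩

/-- The deck group of a closed aspherical 4-manifold is one-ended. -/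
theorem oneEnded_of_cover (S : Finset Γ) (hS : Subgroup.closure (S : Set Γ) = ⊤)
    (hsym : ∀ s ∈ S, s⁻¹ ∈ S) : F.OneEnded S :=
  oneEnded_of_cpush (coarse_of_cover hp).1 S hS hsym

/-- `H²(Γ; 𝔽₂Γ) = 0` in coarse form. -/
theorem h2Fill_of_cover (S : Finset Γ) : ∃ T₀ : Finset Γ, ∀ T : Finset Γ, T₀ ⊆ T →
    (∀ s ∈ T, s⁻¹ ∈ T) → F.H2Fill S T :=
  h2fill_of_cpush (coarse_of_cover hp).2.1 (coarse_of_cover hp).2.2.1
    (coarse_of_cover hp).2.2.2 S

end Vale.Agent.P239.M
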