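import Mathlib

/-!
# P239, Module B (discreteness of the centres of one-point cuts), combinatorial core

See notes 8332, 8393 of helper467.  `T` is a family of pairs (cut, centre).
-/

set_option autoImplicit false
set_option linter.unusedSectionVars false
set_option linter.unusedVariables false

open scoped Pointwise
open Set Filter

namespace Vale.Agent.P239S

variable {G : Type*} [Group G] {Q : Type*} [MulAction G Q]

/-- overlap of the walls of `U` and `V` at scale `BR` (same orientation) -/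
def Ov (BR : Set G) (U V : Set G) : Set G :=
  {x | x ∈ U ∧ x ∈ V ∧ ∃ y, x⁻¹ * y ∈ BR ∧ y ∉ U ∧ y ∉ V}

/-- A family of cuts with centres. -/
structure CutFam (BR : Set G) (T : Set (Set G × Q)) : Prop where
  smul : ∀ (g : G) (U : Set G) (c : Q), (U, c) ∈ T → (g • U, g • c) ∈ T
  compl : ∀ (U : Set G) (c : Q), (U, c) ∈ T → (Uᶜ, c) ∈ T
  nested : ∀ (U V : Set G) (c d : Q), (U, c) ∈ T → (V, d) ∈ T → c ≠ d →
    U ⊆ V ∨ V ⊆ U ∨ U ∩ V = ∅ ∨ U ∪ V = univ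
  fin : ∀ (U V : Set G) (c d : Q), (U, c) ∈ T → (V, d) ∈ T → c ≠ d → (Ov BR U V).Finite
  inf : ∀ (U : Set G) (c : Q), (U, c) ∈ T → (Ov BR U U).Infinite
  three : ∀ (h : G) (U V W : Set G) (a b c : Q), h ≠ 1 → (U, a) ∈ T → (V, b) ∈ T → (W, c) ∈ T →
    h • a = a → h • b = b → h • c = c → a = b ∨ b = c ∨ a = c

variable {BR : Set G} {T : Set (Set G × Q)}

theorem CutFam.comp (hT : CutFam BR T) {U V : Set G} {c d : Q} (hU : (U, c) ∈ T)
    (hV : (V, d) ∈ T) (hcd : c ≠ d) {x y : G} (hxU : x ∈ U) (hxV : x ∈ V)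
    (hyU : y ∉ U) (hyV : y ∉ V) : U ⊆ V ∨ V ⊆ U := by
  rcases hT.nested U V c d hU hV hcd with h | h | h | h
  · exact Or.inl h
  · exact Or.inr h
  · exact absurd (h ▸ (⟨hxU, hxV⟩ : x ∈ U ∩ V)) (Set.notMem_empty x)
  · have : y ∈ U ∪ V := h ▸ mem_univ y
    rcases this with h' | h'
    · exact absurd h' hyU
    · exact absurd h' hyV

theorem CutFam.same (hT : CutFam BR T) {U V : Set G} {c d : Q} (hU : (U, c) ∈ T)
    (hV : (V, d) ∈ T) (h : (Ov BR U V).Infinite) : c = d := by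
  by_contra hcd
  exact h (hT.fin U V c d hU hV hcd)

/-- separation in an ultrafilter -/
theorem sep {ι : Type*} (F : Ultrafilter ι) (a b : ι → Q) (g : G)
    (h : ¬ ∀ᶠ k in (F : Filter ι), g • a k = b k) :
    ∀ᶠ k in (F : Filter ι), ∀ᶠ m in (F : Filter ι), g • a k ≠ b m := by
  have h' : ∀ᶠ k in (F : Filter ι), g • a k ≠ b k := Ultrafilter.eventually_not.2 h
  by_cases hc : ∃ b0, ∀ᶠ m in (F : Filter ι), b m = b0
  · obtain ⟨b0, hb0⟩ := hc
    filter_upwards [h', hb0] with k hk hk0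
    filter_upwards [hb0] with m hm
    rw [hm, ← hk0]
    exact hk
  · push Not at hc
    refine Eventually.of_forall fun k => ?_
    have := hc (g • a k)
    rw [← Ultrafilter.frequently_iff_eventually] at *
    exact this.mono fun m hm h => hm h.symm

theorem mem_inv_smul {g x : G} {U : Set G} : x ∈ g⁻¹ • U ↔ g * x ∈ U := by
  rw [Set.mem_smul_set_iff_inv_smul_mem, inv_inv, smul_eq_mul]

theorem mem_smul' {g x : G} {U : Set G} : x ∈ g • U ↔ g⁻¹ * x ∈ U := by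
  rw [Set.mem_smul_set_iff_inv_smul_mem, smul_eq_mul]

/-- the limit of a sequence of sets along an ultrafilter -/
def Lim {ι : Type*} (F : Ultrafilter ι) (V : ι → Set G) : Set G := {x | ∀ᶠ k in (F : Filter ι), x ∈ V k}

theorem notMem_Lim {ι : Type*} {F : Ultrafilter ι} {V : ι → Set G} {x : G} :
    x ∉ Lim F V ↔ ∀ᶠ k in (F : Filter ι), x ∉ V k := Ultrafilter.eventually_not.symm

theorem subset_Lim {ι : Type*} {F : Ultrafilter ι} {V : ι → Set G} {A : Set G} {s : G}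
    (h : ∀ᶠ k in (F : Filter ι), A ⊆ s⁻¹ • V k) : A ⊆ s⁻¹ • Lim F V := by
  intro x hx
  rw [mem_inv_smul]
  change ∀ᶠ k in (F : Filter ι), s * x ∈ V k
  filter_upwards [h] with k hk
  exact mem_inv_smul.1 (hk hx)

theorem Lim_subset {ι : Type*} {F : Ultrafilter ι} {V : ι → Set G} {A : Set G} {s : G}
    (h : ∀ᶠ k in (F : Filter ι), s⁻¹ • V k ⊆ A) : s⁻¹ • Lim F V ⊆ A := by
  intro x hx
  rw [mem_inv_smul] at hx
  have hx' : ∀ᶠ k in (F : Filter ι), s * x ∈ V k := hx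
  obtain ⟨k, h1, h2⟩ := (h.and hx').exists
  exact h1 (mem_inv_smul.2 h2)

/-- isolation lemma -/
theorem CutFam.iso (hT : CutFam BR T) (htf : ∀ g : G, g ≠ 1 → ∀ n : ℕ, n ≠ 0 → g ^ n ≠ 1)
    {V M : Set G} {c : Q} (hV : (V, c) ∈ T) {k : G} (hk1 : k ≠ 1)
    (hkM : ∀ x, x ∈ M ↔ k * x ∈ M) {x y : G} (hxy : x⁻¹ * y ∈ BR)
    (h : (V ⊆ M ∧ (∀ u, u ∈ V → k⁻¹ * u ∈ V) ∧ x ∈ V ∧ y ∉ M) ∨
      (M ⊆ V ∧ (∀ u, k⁻¹ * u ∈ V → u ∈ V) ∧ x ∈ M ∧ y ∉ V)) : k • c = c := by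
  have hM : ∀ (i : ℕ) (x : G), x ∈ M ↔ (k⁻¹) ^ i * x ∈ M := by
    intro i
    induction i with
    | zero => intro x; simp
    | succ n ih =>
      intro x
      rw [ih x, hkM ((k⁻¹) ^ (n+1) * x)]
      rw [pow_succ', ← mul_assoc, ← mul_assoc, mul_inv_cancel, one_mul]
  have key : ∀ i : ℕ, (k⁻¹) ^ i * x ∈ V ∧ (k⁻¹) ^ i * y ∉ V := by
    rcases h with ⟨h1, h2, h3, h4⟩ | ⟨h1, h2, h3, h4⟩
    · have hV' : ∀ i : ℕ, (k⁻¹) ^ i * x ∈ V := by
        intro i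
        induction i with
        | zero => simpa using h3
        | succ n ih =>
          have := h2 _ ih
          rwa [← mul_assoc, ← pow_succ'] at this
      refine fun i => ⟨hV' i, fun hy => h4 ?_⟩
      exact (hM i y).2 (h1 hy)
    · have hV' : ∀ i : ℕ, (k⁻¹) ^ i * y ∉ V := by
        intro i
        induction i with
        | zero => simpa using h4
        | succ n ih =>
          intro hc
          apply ih
          apply h2
          rwa [← mul_assoc, ← pow_succ']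
      exact fun i => ⟨h1 ((hM i x).1 h3), hV' i⟩
  have hinf : (Ov BR V (k • V)).Infinite := by
    have hinj : Function.Injective (fun i : ℕ => (k⁻¹) ^ i * x) := by
      intro i j hij
      have hij' : (k⁻¹) ^ i = (k⁻¹) ^ j := mul_right_cancel hij
      by_contra hne
      have hk1' : k⁻¹ ≠ 1 := by simpa using hk1
      rcases lt_or_gt_of_ne hne with hlt | hlt
      · have := htf k⁻¹ hk1' (j - i) (by omega)
        apply this
        rw [← mul_right_inj ((k⁻¹) ^ i), ← pow_add, mul_one, hij']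
        congr 1
        omega
      · have := htf k⁻¹ hk1' (i - j) (by omega)
        apply this
        rw [← mul_right_inj ((k⁻¹) ^ j), ← pow_add, mul_one, ← hij']
        congr 1
        omega
    refine (Set.infinite_range_of_injective hinj).mono ?_
    rintro _ ⟨i, rfl⟩
    refine ⟨(key i).1, ?_, (k⁻¹) ^ i * y, ?_, (key i).2, ?_⟩
    · rw [mem_smul']
      have := (key (i+1)).1
      rwa [pow_succ', mul_assoc] at this
    · have : ((k⁻¹) ^ i * x)⁻¹ * ((k⁻¹) ^ i * y) = x⁻¹ * y := by group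
      rwa [this]
    · rw [mem_smul']
      have := (key (i+1)).2
      rwa [pow_succ', mul_assoc] at this
  exact (hT.same hV (hT.smul k V c hV) hinf).symm


/-- two families of cuts -/
structure PF (T : Set (Set G × Q)) {ι : Type*} (V V' : ι → Set G) (c c' : ι → Q) : Prop where
  mem : ∀ k, (V k, c k) ∈ T
  mem' : ∀ k, (V' k, c' k) ∈ T
  sub : ∀ k, V k ⊆ V' k

/-- good elements -/
def II {ι : Type*} (F : Ultrafilter ι) (V V' : ι → Set G) (p q z : G) : Set G :=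
  {t | t * p ∈ Lim F V ∧ t * q ∉ Lim F V' ∧ t * z ∈ Lim F V' ∧ t * z ∉ Lim F V}

section pf

variable {ι : Type*} {F : Ultrafilter ι} {V V' : ι → Set G} {c c' : ι → Q} {p q z : G}

theorem PF.lim_sub (h : PF T V V' c c') : Lim F V ⊆ Lim F V' := by
  intro x hx
  have hx' : ∀ᶠ k in (F : Filter ι), x ∈ V k := hx
  change ∀ᶠ k in (F : Filter ι), x ∈ V' k
  exact hx'.mono fun k hk => h.sub k hk

theorem PF.q_notMem (h : PF T V V' c c') {t : G} (ht : t ∈ II F V V' p q z) :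
    ∀ᶠ k in (F : Filter ι), t * q ∉ V k := by
  have := notMem_Lim.1 ht.2.1
  exact this.mono fun k hk h' => hk (h.sub k h')

theorem PF.cmp1 (hT : CutFam BR T) (h : PF T V V' c c') {s t : G} (hs : s ∈ II F V V' p q z)
    (ht : t ∈ II F V V' p q z) (hst : ¬ ∀ᶠ k in (F : Filter ι), (s * t⁻¹) • c k = c k) :
    (∀ᶠ k in (F : Filter ι), t⁻¹ • V k ⊆ s⁻¹ • Lim F V) ∨
    (∀ᶠ k in (F : Filter ι), s⁻¹ • Lim F V ⊆ t⁻¹ • V k) := by
  have h1 := sep F c c (s * t⁻¹) hst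
  have htp : ∀ᶠ k in (F : Filter ι), t * p ∈ V k := ht.1
  have hsp : ∀ᶠ k in (F : Filter ι), s * p ∈ V k := hs.1
  rw [← Ultrafilter.eventually_or]
  filter_upwards [h1, htp, h.q_notMem ht] with k hk1 hk2 hk3
  have : ∀ᶠ m in (F : Filter ι), (t⁻¹ • V k ⊆ s⁻¹ • V m ∨ s⁻¹ • V m ⊆ t⁻¹ • V k) := by
    filter_upwards [hk1, hsp, h.q_notMem hs] with m hm1 hm2 hm3
    refine hT.comp (hT.smul t⁻¹ _ _ (h.mem k)) (hT.smul s⁻¹ _ _ (h.mem m)) ?_
      (x := p) (y := q) (mem_inv_smul.2 hk2) (mem_inv_smul.2 hm2)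
      (fun h => hk3 (mem_inv_smul.1 h)) (fun h => hm3 (mem_inv_smul.1 h))
    intro heq
    apply hm1
    rw [mul_smul, heq, smul_inv_smul]
  rw [Ultrafilter.eventually_or] at this
  rcases this with h' | h'
  · exact Or.inl (subset_Lim h')
  · exact Or.inr (Lim_subset h')

theorem PF.cmp2 (hT : CutFam BR T) (h : PF T V V' c c') {s t : G} (hs : s ∈ II F V V' p q z)
    (ht : t ∈ II F V V' p q z) (hst : ¬ ∀ᶠ k in (F : Filter ι), (s * t⁻¹) • c k = c' k) :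
    ∀ᶠ k in (F : Filter ι), t⁻¹ • V k ⊆ s⁻¹ • Lim F V' := by
  have h1 := sep F c c' (s * t⁻¹) hst
  have htp : ∀ᶠ k in (F : Filter ι), t * p ∈ V k := ht.1
  have hsp : ∀ᶠ k in (F : Filter ι), s * p ∈ V k := hs.1
  have hsz : ∀ᶠ k in (F : Filter ι), s * z ∈ V' k := hs.2.2.1
  filter_upwards [h1, htp, h.q_notMem ht, notMem_Lim.1 ht.2.2.2] with k hk1 hk2 hk3 hk4
  apply subset_Lim
  filter_upwards [hk1, hsp, notMem_Lim.1 hs.2.1, hsz] with m hm1 hm2 hm3 hm4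
  have := hT.comp (hT.smul t⁻¹ _ _ (h.mem k)) (hT.smul s⁻¹ _ _ (h.mem' m)) ?_
      (x := p) (y := q) (mem_inv_smul.2 hk2) (mem_inv_smul.2 (h.sub m hm2))
      (fun h => hk3 (mem_inv_smul.1 h)) (fun h => hm3 (mem_inv_smul.1 h))
  · rcases this with h' | h'
    · exact h'
    · exact absurd (mem_inv_smul.1 (h' (mem_inv_smul.2 hm4))) hk4
  · intro heq
    apply hm1
    rw [mul_smul, heq, smul_inv_smul]

/-- strictly above: the walls contain a fixed infinite set -/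
theorem PF.wall (h : PF T V V' c c') (hpq : p⁻¹ * q ∈ BR) {s t : G}
    (k : ι) (h1 : s⁻¹ • Lim F V ⊆ t⁻¹ • V k) (h2 : t⁻¹ • V k ⊆ s⁻¹ • Lim F V')
    {u : G} (hu : u ∈ II F V V' p q z) :
    s⁻¹ * (u * p) ∈ t⁻¹ • V k ∧ s⁻¹ * (u * q) ∉ t⁻¹ • V k ∧
      (s⁻¹ * (u * p))⁻¹ * (s⁻¹ * (u * q)) ∈ BR := by
  refine ⟨h1 ?_, fun hc => hu.2.1 ?_, ?_⟩
  · rw [mem_inv_smul, mul_inv_cancel_left]
    exact hu.1
  · have := h2 hc
    rwa [mem_inv_smul, mul_inv_cancel_left] at this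
  · have : (s⁻¹ * (u * p))⁻¹ * (s⁻¹ * (u * q)) = p⁻¹ * q := by group
    rwa [this]

theorem PF.two (hT : CutFam BR T) (h : PF T V V' c c') (hpq : p⁻¹ * q ∈ BR)
    (hinf : (II F V V' p q z).Infinite) {s t1 t2 : G}
    (h1 : ∀ᶠ k in (F : Filter ι), s⁻¹ • Lim F V ⊆ t1⁻¹ • V k ∧ t1⁻¹ • V k ⊆ s⁻¹ • Lim F V')
    (h2 : ∀ᶠ k in (F : Filter ι), s⁻¹ • Lim F V ⊆ t2⁻¹ • V k ∧ t2⁻¹ • V k ⊆ s⁻¹ • Lim F V')
    (hst : ¬ ∀ᶠ k in (F : Filter ι), (t1 * t2⁻¹) • c k = c k) : False := by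
  have h3 := Ultrafilter.eventually_not.2 hst
  obtain ⟨k, hk1, hk2, hk3⟩ := (h1.and (h2.and h3)).exists
  have hOv : (Ov BR (t1⁻¹ • V k) (t2⁻¹ • V k)).Infinite := by
    have hinj : InjOn (fun u : G => s⁻¹ * (u * p)) (II F V V' p q z) := by
      intro a _ b _ hab
      simpa using hab
    refine (hinf.image hinj).mono ?_
    rintro _ ⟨u, hu, rfl⟩
    obtain ⟨a1, a2, a3⟩ := h.wall hpq k hk1.1 hk1.2 hu
    obtain ⟨b1, b2, b3⟩ := h.wall hpq k hk2.1 hk2.2 hu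
    exact ⟨a1, b1, _, a3, a2, b2⟩
  have := hT.same (hT.smul t1⁻¹ _ _ (h.mem k)) (hT.smul t2⁻¹ _ _ (h.mem k)) hOv
  apply hk3
  rw [mul_smul, ← this, smul_inv_smul]

theorem PF.ne_lim (hT : CutFam BR T) (htf : ∀ g : G, g ≠ 1 → ∀ n : ℕ, n ≠ 0 → g ^ n ≠ 1)
    (h : PF T V V' c c') (hpq : p⁻¹ * q ∈ BR) {s t : G}
    (hs : s ∈ II F V V' p q z) (ht : t ∈ II F V V' p q z)
    (hst : ¬ ∀ᶠ k in (F : Filter ι), (s * t⁻¹) • c k = c k)
    (hts : ¬ ∀ᶠ k in (F : Filter ι), (t * s⁻¹) • c k = c k) :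
    s⁻¹ • Lim F V ≠ t⁻¹ • Lim F V := by
  intro heq
  have hh : ∀ x, x ∈ Lim F V ↔ (t * s⁻¹) * x ∈ Lim F V := by
    intro x
    have h1 : s⁻¹ * x ∈ s⁻¹ • Lim F V ↔ x ∈ Lim F V := by
      rw [mem_inv_smul, mul_inv_cancel_left]
    rw [← h1, heq, mem_inv_smul, mul_assoc]
  have hh' : ∀ x, x ∈ Lim F V ↔ (t * s⁻¹)⁻¹ * x ∈ Lim F V := by
    intro x
    rw [hh ((t * s⁻¹)⁻¹ * x), mul_inv_cancel_left]
  have hne1 : t * s⁻¹ ≠ 1 := by
    intro h1
    apply hts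
    rw [h1]
    exact Eventually.of_forall fun k => one_smul _ _
  have hne1' : (t * s⁻¹)⁻¹ ≠ 1 := inv_ne_one.2 hne1
  have hcomp : ∀ᶠ k in (F : Filter ι), V k ⊆ Lim F V ∨ Lim F V ⊆ V k := by
    have := h.cmp1 hT hs ht hst
    rw [heq] at this
    rw [Ultrafilter.eventually_or]
    rcases this with h' | h'
    · exact Or.inl (h'.mono fun k hk => by simpa using hk)
    · exact Or.inr (h'.mono fun k hk => by simpa using hk)
  have hts' := Ultrafilter.eventually_not.2 hts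
  have htp : ∀ᶠ k in (F : Filter ι), t * p ∈ V k := ht.1
  have hsp : ∀ᶠ k in (F : Filter ι), s * p ∈ V k := hs.1
  obtain ⟨k, hk1, hk2, hk3, hk4, hk5, hk6⟩ := (hcomp.and (hts'.and (htp.and (hsp.and
    ((h.q_notMem ht).and (h.q_notMem hs)))))).exists
  have hqL : t * q ∉ Lim F V := fun h' => ht.2.1 (h.lim_sub h')
  have hxy : (t * p)⁻¹ * (t * q) ∈ BR := by
    have : (t * p)⁻¹ * (t * q) = p⁻¹ * q := by group
    rwa [this]
  have hcmp := hT.comp (h.mem k) (hT.smul (t * s⁻¹) _ _ (h.mem k)) (fun h' => hk2 h'.symm)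
    (x := t * p) (y := t * q) hk3 (mem_smul'.2 (by simpa [mul_assoc] using hk4)) hk5
    (fun h' => hk6 (by simpa [mul_assoc] using mem_smul'.1 h'))
  have fin1 : ∀ {g : G} {a : Q}, g⁻¹ • a = a → g • a = a := by
    intro g a hga
    rw [inv_smul_eq_iff] at hga
    exact hga.symm
  rcases hcmp with hc | hc
  · -- V ⊆ h V
    rcases hk1 with hL | hL
    · exact hk2 (hT.iso htf (h.mem k) hne1 hh hxy (Or.inl ⟨hL, fun u hu => mem_smul'.1 (hc hu), hk3, hqL⟩))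
    · apply hk2
      apply fin1
      refine hT.iso htf (h.mem k) hne1' hh' hxy (Or.inr ⟨hL, fun u hu => ?_, ht.1, hk5⟩)
      rw [inv_inv] at hu
      have := mem_smul'.1 (hc hu)
      rwa [inv_mul_cancel_left] at this
  · rcases hk1 with hL | hL
    · apply hk2
      apply fin1
      refine hT.iso htf (h.mem k) hne1' hh' hxy (Or.inl ⟨hL, fun u hu => ?_, hk3, hqL⟩)
      rw [inv_inv]
      apply hc
      rw [mem_smul', inv_mul_cancel_left]
      exact hu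
    · refine hk2 (hT.iso htf (h.mem k) hne1 hh hxy (Or.inr ⟨hL, fun u hu => ?_, ht.1, hk5⟩))
      exact hc (mem_smul'.2 hu)

theorem PF.caseB3 (hT : CutFam BR T) (htf : ∀ g : G, g ≠ 1 → ∀ n : ℕ, n ≠ 0 → g ^ n ≠ 1)
    (h : PF T V V' c c') (hpq : p⁻¹ * q ∈ BR) (hinf : (II F V V' p q z).Infinite)
    (s : Fin 3 → G) (hs : ∀ i, s i ∈ II F V V' p q z)
    (h0 : ∀ i j, i ≠ j → ¬ ∀ᶠ k in (F : Filter ι), (s i * (s j)⁻¹) • c k = c k)
    (h1 : ∀ i j, i ≠ j → ¬ ∀ᶠ k in (F : Filter ι), (s i * (s j)⁻¹) • c k = c' k) : False := by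
  have hcomp : ∀ i j, i ≠ j → (s i)⁻¹ • Lim F V ⊆ (s j)⁻¹ • Lim F V ∨
      (s j)⁻¹ • Lim F V ⊆ (s i)⁻¹ • Lim F V := by
    intro i j hij
    rcases h.cmp1 hT (hs i) (hs j) (h0 i j hij) with h' | h'
    · exact Or.inr (Lim_subset h')
    · exact Or.inl (subset_Lim h')
  have hne : ∀ i j, i ≠ j → (s i)⁻¹ • Lim F V ≠ (s j)⁻¹ • Lim F V := fun i j hij =>
    h.ne_lim hT htf hpq (hs i) (hs j) (h0 i j hij) (h0 j i hij.symm)
  have habove : ∀ i j, i ≠ j → (s i)⁻¹ • Lim F V ⊆ (s j)⁻¹ • Lim F V →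
      ∀ᶠ k in (F : Filter ι), (s i)⁻¹ • Lim F V ⊆ (s j)⁻¹ • V k ∧
        (s j)⁻¹ • V k ⊆ (s i)⁻¹ • Lim F V' := by
    intro i j hij hsub
    refine Eventually.and ?_ (h.cmp2 hT (hs i) (hs j) (h1 i j hij))
    rcases h.cmp1 hT (hs i) (hs j) (h0 i j hij) with h' | h'
    · exact absurd (hsub.antisymm (Lim_subset h')) (hne i j hij)
    · exact h'
  have hmin : ∀ i j l, i ≠ j → i ≠ l → j ≠ l → (s i)⁻¹ • Lim F V ⊆ (s j)⁻¹ • Lim F V →
      (s i)⁻¹ • Lim F V ⊆ (s l)⁻¹ • Lim F V → False := by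
    intro i j l hij hil hjl hA hB
    exact h.two hT hpq hinf (habove i j hij hA) (habove i l hil hB) (h0 j l hjl)
  have h01 : (0 : Fin 3) ≠ 1 := by decide
  have h02 : (0 : Fin 3) ≠ 2 := by decide
  have h12 : (1 : Fin 3) ≠ 2 := by decide
  rcases hcomp 0 1 h01 with a | a <;> rcases hcomp 0 2 h02 with b | b <;>
    rcases hcomp 1 2 h12 with d | d
  · exact hmin 0 1 2 h01 h02 h12 a b
  · exact hmin 0 1 2 h01 h02 h12 a b
  · exact hmin 0 1 2 h01 h02 h12 a (a.trans d)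
  · exact hmin 2 0 1 h02.symm h12.symm h01 b d
  · exact hmin 1 0 2 h01.symm h12 h02 a d
  · exact hmin 1 0 2 h01.symm h12 h02 a (a.trans b)
  · exact hmin 1 0 2 h01.symm h12 h02 a d
  · exact hmin 2 0 1 h02.symm h12.symm h01 b d

end pf

/-- three independent vertices of an infinite functional digraph -/
theorem indep3 {J : Set G} (hJ : J.Infinite) (r : G → G → Prop)
    (hr : ∀ s ∈ J, ∀ t ∈ J, ∀ t' ∈ J, r s t → r s t' → t = t') :
    ∃ s : Fin 3 → G, (∀ i, s i ∈ J) ∧ ∀ i j, i ≠ j → ¬ r (s i) (s j) ∧ s i ≠ s j := by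
  have key : ∃ a ∈ J, ∃ b ∈ J, ∃ d ∈ J, (¬ r a b ∧ ¬ r b a ∧ a ≠ b) ∧
      (¬ r a d ∧ ¬ r d a ∧ a ≠ d) ∧ (¬ r b d ∧ ¬ r d b ∧ b ≠ d) := by
    by_cases hc : ∃ s0 ∈ J, {t | t ∈ J ∧ r t s0}.Infinite
    · obtain ⟨s0, hs0, hinf⟩ := hc
      obtain ⟨a, ha, ha'⟩ := (hinf.sdiff (Set.finite_singleton s0)).nonempty
      obtain ⟨b, hb, hb'⟩ := (hinf.sdiff ((Set.finite_singleton s0).insert a)).nonempty
      obtain ⟨d, hd, hd'⟩ := (hinf.sdiff (((Set.finite_singleton s0).insert a).insert b)).nonempty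
      simp only [mem_insert_iff, mem_singleton_iff, not_or] at ha' hb' hd'
      have hno : ∀ x y, x ∈ J → r x s0 → y ∈ J → y ≠ s0 → ¬ r x y := by
        intro x y hx hxs hy hys hxy
        exact hys (hr x hx y hy s0 hs0 hxy hxs)
      refine ⟨a, ha.1, b, hb.1, d, hd.1, ⟨hno a b ha.1 ha.2 hb.1 hb'.2,
        hno b a hb.1 hb.2 ha.1 ha', fun h => hb'.1 h.symm⟩,
        ⟨hno a d ha.1 ha.2 hd.1 hd'.2.2, hno d a hd.1 hd.2 ha.1 ha', fun h => hd'.2.1 h.symm⟩,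
        ⟨hno b d hb.1 hb.2 hd.1 hd'.2.2, hno d b hd.1 hd.2 hb.1 hb'.2, fun h => hd'.1 h.symm⟩⟩
    · push Not at hc
      have hin : ∀ s0 ∈ J, {t | t ∈ J ∧ r t s0}.Finite := fun s0 hs0 =>
        hc s0 hs0
      have hout : ∀ s0 ∈ J, {t | t ∈ J ∧ r s0 t}.Finite := by
        intro s0 hs0
        apply Set.Subsingleton.finite
        intro t ht t' ht'
        exact hr s0 hs0 t ht.1 t' ht'.1 ht.2 ht'.2
      obtain ⟨a, ha⟩ := hJ.nonempty
      obtain ⟨b, hb, hb'⟩ := (hJ.sdiff (((hin a ha).union (hout a ha)).insert a)).nonempty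
      obtain ⟨d, hd, hd'⟩ := (hJ.sdiff ((((hin a ha).union (hout a ha)).insert a).union
        (((hin b hb).union (hout b hb)).insert b))).nonempty
      simp only [mem_insert_iff, mem_union, mem_ofPred_eq, not_or, not_and] at hb' hd'
      exact ⟨a, ha, b, hb, d, hd, ⟨hb'.2.2 hb, hb'.2.1 hb, fun h => hb'.1 h.symm⟩,
        ⟨hd'.1.2.2 hd, hd'.1.2.1 hd, fun h => hd'.1.1 h.symm⟩,
        ⟨hd'.2.2.2 hd, hd'.2.2.1 hd, fun h => hd'.2.1 h.symm⟩⟩
  obtain ⟨a, ha, b, hb, d, hd, hab, had, hbd⟩ := key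
  refine ⟨![a, b, d], ?_, ?_⟩
  · intro i
    fin_cases i <;> simp [ha, hb, hd]
  · intro i j hij
    fin_cases i <;> fin_cases j <;> simp at hij ⊢ <;>
    tauto

/-- infinite classes -/
theorem infClass {I : Set G} (hI : I.Infinite) (r : Setoid G)
    (hno : ∀ J ⊆ I, J.Infinite → ∃ s ∈ J, ∃ t ∈ J, s ≠ t ∧ r s t) :
    ∃ J ⊆ I, J.Infinite ∧ ∀ s ∈ J, ∀ t ∈ J, r s t := by
  set f : G → Quotient r := Quotient.mk r with hf
  by_cases hfin : (f '' I).Finite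
  · by_contra hcon
    push Not at hcon
    have : ∀ y ∈ f '' I, (I ∩ f ⁻¹' {y}).Finite := by
      intro y _
      by_contra hinf
      obtain ⟨s, hs, t, ht, hst⟩ := hcon (I ∩ f ⁻¹' {y}) inter_subset_left hinf
      apply hst
      have h1 : f s = y := hs.2
      have h2 : f t = y := ht.2
      exact Quotient.exact (h1.trans h2.symm)
    apply hI
    refine (hfin.biUnion this).subset ?_
    intro x hx
    simp only [mem_iUnion]
    exact ⟨f x, ⟨x, hx, rfl⟩, hx, rfl⟩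
  · obtain ⟨J, hJI, hJ⟩ := Set.exists_subset_bijOn I f
    have hJinf : J.Infinite := by
      intro hfinJ
      apply hfin
      rw [← hJ.image_eq]
      exact hfinJ.image f
    obtain ⟨s, hs, t, ht, hne, hst⟩ := hno J hJI hJinf
    exact absurd (hJ.injOn hs ht (Quotient.sound hst)) hne

/-- the relation of being in one class -/
def fixRel {ι : Type*} (F : Ultrafilter ι) (c : ι → Q) : Setoid G where
  r s t := ∀ᶠ k in (F : Filter ι), s⁻¹ • c k = t⁻¹ • c k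
  iseqv := ⟨fun _ => Eventually.of_forall fun _ => rfl, fun h => h.mono fun _ hk => hk.symm,
    fun h1 h2 => (h1.and h2).mono fun _ hk => hk.1.trans hk.2⟩

theorem rel_iff {ι : Type*} (F : Ultrafilter ι) (a b : ι → Q) (s t : G) :
    (∀ᶠ k in (F : Filter ι), (s * t⁻¹) • a k = b k) ↔
      ∀ᶠ k in (F : Filter ι), t⁻¹ • a k = s⁻¹ • b k := by
  apply eventually_congr
  refine Eventually.of_forall fun k => ?_
  rw [mul_smul, eq_inv_smul_iff]

section pf2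

variable {ι : Type*} {F : Ultrafilter ι} {V V' : ι → Set G} {c c' : ι → Q} {p q z : G}

theorem PF.classB (hT : CutFam BR T) (htf : ∀ g : G, g ≠ 1 → ∀ n : ℕ, n ≠ 0 → g ^ n ≠ 1)
    (h : PF T V V' c c') (hpq : p⁻¹ * q ∈ BR) {J : Set G} (hJ : J.Infinite)
    (hJI : J ⊆ II F V V' p q z) : ∃ s ∈ J, ∃ t ∈ J, s ≠ t ∧ fixRel F c s t := by
  by_contra hcon
  push Not at hcon
  have hno : ∀ s ∈ J, ∀ t ∈ J, s ≠ t → ¬ ∀ᶠ k in (F : Filter ι), (s * t⁻¹) • c k = c k := by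
    intro s hs t ht hst h'
    rw [rel_iff] at h'
    exact hcon t ht s hs (Ne.symm hst) h'
  obtain ⟨s, hs, hs'⟩ := indep3 hJ
    (fun s t => ∀ᶠ k in (F : Filter ι), (s * t⁻¹) • c k = c' k) (by
      intro s hs t ht t' ht' h1 h2
      by_contra hne
      apply hcon t ht t' ht' hne
      rw [rel_iff] at h1 h2
      exact (h1.and h2).mono fun k hk => hk.1.trans hk.2.symm)
  exact h.caseB3 hT htf hpq (hJ.mono hJI) s (fun i => hJI (hs i))
    (fun i j hij => hno _ (hs i) _ (hs j) (hs' i j hij).2) (fun i j hij => (hs' i j hij).1)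

theorem Lim_compl : Lim F (fun k => (V k)ᶜ) = (Lim F V)ᶜ := by
  ext x
  rw [mem_compl_iff, notMem_Lim]
  rfl

theorem PF.classC (hT : CutFam BR T) (hsym : ∀ x ∈ BR, x⁻¹ ∈ BR)
    (htf : ∀ g : G, g ≠ 1 → ∀ n : ℕ, n ≠ 0 → g ^ n ≠ 1)
    (h : PF T V V' c c') (hpq : p⁻¹ * q ∈ BR) {J : Set G} (hJ : J.Infinite)
    (hJI : J ⊆ II F V V' p q z) : ∃ s ∈ J, ∃ t ∈ J, s ≠ t ∧ fixRel F c' s t := by
  have h' : PF T (fun k => (V' k)ᶜ) (fun k => (V k)ᶜ) c' c :=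
    ⟨fun k => hT.compl _ _ (h.mem' k), fun k => hT.compl _ _ (h.mem k),
      fun k => compl_subset_compl.2 (h.sub k)⟩
  refine h'.classB hT htf (p := q) (q := p) (z := z) (F := F) ?_ hJ ?_
  · have := hsym _ hpq
    rwa [mul_inv_rev, inv_inv] at this
  · intro t ht
    obtain ⟨a1, a2, a3, a4⟩ := hJI ht
    refine ⟨?_, ?_, ?_, ?_⟩
    · rw [Lim_compl]; exact a2
    · rw [Lim_compl]; exact fun h => h a1
    · rw [Lim_compl]; exact a4
    · rw [Lim_compl]; exact fun h => h a3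

end pf2

/-- **core theorem** -/
theorem core (hT : CutFam BR T) (hsym : ∀ x ∈ BR, x⁻¹ ∈ BR)
    (htf : ∀ g : G, g ≠ 1 → ∀ n : ℕ, n ≠ 0 → g ^ n ≠ 1)
    {ι : Type*} (F : Ultrafilter ι) {V V1 V2 : ι → Set G} {c c1 c2 : ι → Q}
    (h1 : PF T V V1 c c1) (h2 : PF T V V2 c c2) (hlim : Lim F V1 = Lim F V2)
    (h01 : ∀ k, c k ≠ c1 k) (h02 : ∀ k, c k ≠ c2 k) (h12 : ∀ k, c1 k ≠ c2 k)
    {p q z : G} (hpq : p⁻¹ * q ∈ BR) : (II F V V1 p q z).Finite := by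
  by_contra hinf
  have hII : II F V V1 p q z = II F V V2 p q z := by
    unfold II
    rw [hlim]
  obtain ⟨J, hJ, hJinf, hJr⟩ := infClass hinf (fixRel F c)
    (fun J hJ hJinf => h1.classB hT htf hpq hJinf hJ)
  obtain ⟨J1, hJ1, hJ1inf, hJ1r⟩ := infClass hJinf (fixRel F c1)
    (fun J' hJ' hJ'inf => h1.classC hT hsym htf hpq hJ'inf (hJ'.trans hJ))
  obtain ⟨J2, hJ2, hJ2inf, hJ2r⟩ := infClass hJ1inf (fixRel F c2)
    (fun J' hJ' hJ'inf => h2.classC hT hsym htf hpq hJ'inf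
      ((hJ'.trans (hJ1.trans hJ)).trans hII.subset))
  obtain ⟨s, hs⟩ := hJ2inf.nonempty
  obtain ⟨t, ht, hts⟩ := (hJ2inf.sdiff (Set.finite_singleton s)).nonempty
  have e0 : ∀ᶠ k in (F : Filter ι), t⁻¹ • c k = s⁻¹ • c k :=
    hJr t (hJ1 (hJ2 ht)) s (hJ1 (hJ2 hs))
  have e1 : ∀ᶠ k in (F : Filter ι), t⁻¹ • c1 k = s⁻¹ • c1 k := hJ1r t (hJ2 ht) s (hJ2 hs)
  have e2 : ∀ᶠ k in (F : Filter ι), t⁻¹ • c2 k = s⁻¹ • c2 k := hJ2r t ht s hs
  rw [← rel_iff] at e0 e1 e2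
  obtain ⟨k, hk0, hk1, hk2⟩ := (e0.and (e1.and e2)).exists
  have hne : s * t⁻¹ ≠ 1 := by
    intro h
    apply hts
    rw [mem_singleton_iff]
    exact (mul_inv_eq_one.1 h).symm
  rcases hT.three _ _ _ _ _ _ _ hne (h1.mem k) (h1.mem' k) (h2.mem' k) hk0 hk1 hk2 with h | h | h
  · exact h01 k h
  · exact h12 k h
  · exact h02 k h

end Vale.Agent.P239S
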