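import Mathlib

/-!
Chains on lists (ordered, degenerate lists allowed, augmented by the empty list).
-/

namespace Vale.Agent.P239.M

section General

variable {k : Type*} [CommRing k] {X Y Z : Type*}

/-- Chains: finite formal combinations of lists. -/
abbrev Ch (k X : Type*) [CommRing k] := List X →₀ k

/-- Linear extension of a function on lists. -/
noncomputable abbrev ext {M : Type*} [AddCommGroup M] [Module k M] (u : List X → M) :
    Ch k X →ₗ[k] M := Finsupp.linearCombination k u

/-- Cone with apex `x`. -/
noncomputable def cone (x : X) : Ch k X →ₗ[k] Ch k X := Finsupp.lmapDomain k k (List.cons x)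

/-- Boundary of a list. -/
noncomputable def bdL (k : Type*) [CommRing k] : List X → Ch k X
  | [] => 0
  | x :: l => Finsupp.single l 1 - cone x (bdL k l)

/-- Boundary. -/
noncomputable def bd : Ch k X →ₗ[k] Ch k X := ext (bdL k)

/-- Push-forward. -/
noncomputable def pf (f : X → Y) : Ch k X →ₗ[k] Ch k Y := Finsupp.lmapDomain k k (List.map f)

/-- Prism of a list. -/
noncomputable def prL (k : Type*) [CommRing k] (f g : X → Y) : List X → Ch k Y
  | [] => 0
  | x :: l => Finsupp.single (f x :: g x :: l.map g) 1 - cone (f x) (prL k f g l)

/-- Prism operator. -/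
noncomputable def pr (f g : X → Y) : Ch k X →ₗ[k] Ch k Y := ext (prL k f g)

/-- all lists of the chain satisfy `P` -/
def Sup (P : List X → Prop) (c : Ch k X) : Prop := ∀ l ∈ c.support, P l

theorem cone_single (x : X) (l : List X) (r : k) :
    cone x (Finsupp.single l r) = Finsupp.single (x :: l) r := by
  simp [cone, Finsupp.lmapDomain_apply]

theorem bd_single (l : List X) (r : k) : bd (Finsupp.single l r) = r • bdL k l := by
  simp [bd, Finsupp.linearCombination_single]

theorem pf_single (f : X → Y) (l : List X) (r : k) :
    pf f (Finsupp.single l r) = Finsupp.single (l.map f) r := by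
  simp [pf, Finsupp.lmapDomain_apply]

theorem pr_single (f g : X → Y) (l : List X) (r : k) :
    pr f g (Finsupp.single l r) = r • prL k f g l := by
  simp [pr, Finsupp.linearCombination_single]

theorem bd_cone (x : X) (c : Ch k X) : bd (cone x c) = c - cone x (bd c) := by
  induction c using Finsupp.induction_linear with
  | zero => simp
  | add a b ha hb => rw [map_add, map_add, ha, hb, map_add, map_add]; abel
  | single l r =>
    rw [cone_single, bd_single, bdL, bd_single, smul_sub, map_smul, Finsupp.smul_single,
      smul_eq_mul, mul_one]

theorem bd_bdL (l : List X) : bd (bdL k l) = 0 := by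
  induction l with
  | nil => simp [bdL]
  | cons x l ih =>
    rw [bdL, map_sub, bd_cone, bd_single, ih, one_smul, map_zero, sub_zero, sub_self]

theorem bd_bd (c : Ch k X) : bd (bd c) = 0 := by
  induction c using Finsupp.induction_linear with
  | zero => simp
  | add a b ha hb => rw [map_add, map_add, ha, hb, add_zero]
  | single l r => rw [bd_single, map_smul, bd_bdL, smul_zero]

theorem pf_cone (f : X → Y) (x : X) (c : Ch k X) : pf f (cone x c) = cone (f x) (pf f c) := by
  induction c using Finsupp.induction_linear with
  | zero => simp
  | add a b ha hb => rw [map_add, map_add, ha, hb, map_add, map_add]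
  | single l r => rw [cone_single, pf_single, pf_single, cone_single, List.map_cons]

theorem pf_bdL (f : X → Y) (l : List X) : pf f (bdL k l) = bdL k (l.map f) := by
  induction l with
  | nil => simp [bdL]
  | cons x l ih => rw [bdL, map_sub, pf_single, pf_cone, ih, List.map_cons, bdL]

theorem bd_pf (f : X → Y) (c : Ch k X) : bd (pf f c) = pf f (bd c) := by
  induction c using Finsupp.induction_linear with
  | zero => simp
  | add a b ha hb => rw [map_add, map_add, ha, hb, map_add, map_add]
  | single l r =>
    rw [pf_single, bd_single, bd_single, map_smul, pf_bdL]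

theorem bd_prL (f g : X → Y) (l : List X) : bd (prL k f g l) + pr f g (bdL k l) =
    Finsupp.single (l.map g) 1 - Finsupp.single (l.map f) 1 := by
  have hpc : ∀ (x : X) (c : Ch k X), pr f g (cone x c) =
      cone (f x) (cone (g x) (pf g c)) - cone (f x) (pr f g c) := by
    intro x c
    induction c using Finsupp.induction_linear with
    | zero => simp
    | add a b ha hb => simp only [map_add, ha, hb]; abel
    | single l r =>
      rw [cone_single, pr_single, prL, pf_single, cone_single, cone_single, pr_single, smul_sub,
        map_smul, Finsupp.smul_single, smul_eq_mul, mul_one]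
  induction l with
  | nil => simp [bdL, prL]
  | cons x l ih =>
    have ih' : bd (prL k f g l) = Finsupp.single (l.map g) 1 - Finsupp.single (l.map f) 1 -
      pr f g (bdL k l) := by rw [← ih]; abel
    have e1 : bd (prL k f g (x :: l)) = bdL k (f x :: g x :: l.map g) - (prL k f g l -
        cone (f x) (Finsupp.single (l.map g) 1 - Finsupp.single (l.map f) 1 -
          pr f g (bdL k l))) := by
      rw [prL, map_sub, bd_cone, ih', bd_single, one_smul]
    have e2 : pr f g (bdL k (x :: l)) = prL k f g l - (cone (f x) (cone (g x) (bdL k (l.map g))) -
        cone (f x) (pr f g (bdL k l))) := by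
      rw [bdL, map_sub, hpc, pr_single, one_smul, pf_bdL]
    rw [e1, e2, bdL, bdL]
    simp only [map_sub, cone_single, List.map_cons]
    abel

theorem bd_pr (f g : X → Y) (c : Ch k X) : bd (pr f g c) + pr f g (bd c) = pf g c - pf f c := by
  induction c using Finsupp.induction_linear with
  | zero => simp
  | add a b ha hb =>
    have : bd (pr f g (a + b)) + pr f g (bd (a + b)) = (bd (pr f g a) + pr f g (bd a)) +
      (bd (pr f g b) + pr f g (bd b)) := by simp only [map_add]; abel
    rw [this, ha, hb, map_add, map_add]; abel
  | single l r =>
    rw [pr_single, bd_single, map_smul, map_smul, ← smul_add, bd_prL, pf_single, pf_single,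
      smul_sub, Finsupp.smul_single, Finsupp.smul_single, smul_eq_mul, mul_one]

end General

end Vale.Agent.P239.M
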