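import Vale.Agent.P239.S.M_Chain

/-!
Module M (manifold side): definitions and statements.
-/

namespace Vale.Agent.P239.M

open Metric Set

/-! ### Coning homotopy -/

section Htp

variable {k : Type*} [CommRing k] {X : Type*}

/-- auxiliary -/
noncomputable def htpN (ξ : List X → X) (Φ : List X → Ch k X) : ℕ → List X → Ch k X
  | 0, _ => 0
  | n + 1, l => cone (ξ l) (Finsupp.single l 1 - Φ l - ext (htpN ξ Φ n) (bdL k l))

theorem htpN_eqn (ξ : List X → X) (Φ : List X → Ch k X) (n : ℕ) (l : List X) :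
    htpN ξ Φ 0 l = 0 ∧ htpN ξ Φ (n + 1) l =
      cone (ξ l) (Finsupp.single l 1 - Φ l - ext (htpN ξ Φ n) (bdL k l)) := by
  constructor
  · rw [htpN]
  · rw [htpN]

/-- Homotopy between the identity and `Φ`, obtained by coning at `ξ l`. -/
noncomputable def htp (ξ : List X → X) (Φ : List X → Ch k X) (l : List X) : Ch k X :=
  htpN ξ Φ l.length l

end Htp

/-! ### The splitting operator, cap products, kernels (mod 2) -/

section Sp

variable {X A : Type*} [AddCommGroup A]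

/-- `sp B (x₀ … x_m) = ∑ i, B (x₀ … x_i) (x_i … x_m)`. -/
def sp : (List X → List X → A) → List X → A
  | _, [] => 0
  | B, x :: l => B [x] (x :: l) + sp (fun p s => B (x :: p) s) l

theorem sp_eqn (B : List X → List X → A) (x : X) (l : List X) :
    sp B [] = 0 ∧ sp B (x :: l) = B [x] (x :: l) + sp (fun p s => B (x :: p) s) l := by
  constructor
  · rw [sp]
  · rw [sp]

/-- cap product of a list with a cochain: `∑ θ (front) • back`. -/
noncomputable def capS (θ : List X → ZMod 2) (l : List X) : Ch (ZMod 2) X :=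
  sp (fun p s => Finsupp.single s (θ p)) l

/-- the other cap product: `∑ ω (back) • front`. -/
noncomputable def capL (ω : List X → ZMod 2) (l : List X) : Ch (ZMod 2) X :=
  sp (fun p s => Finsupp.single p (ω s)) l

open Classical in
/-- comparison with respect to the coordinate `c` -/
noncomputable def hh (c : X → ℝ) (x y : X) : ZMod 2 := if c x ≤ c y then 1 else 0

/-- The one dimensional kernel. -/
noncomputable def K1 (c : X → ℝ) : List X → List X → ZMod 2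
  | [x], [y, y'] => hh c x y + hh c x y'
  | [x, x'], [y] => hh c x y + hh c x' y
  | _, _ => 0

/-- The kernel for a list of coordinates. -/
noncomputable def Ker : List (X → ℝ) → List X → List X → ZMod 2
  | [], a, b => if a.length = 1 ∧ b.length = 1 then 1 else 0
  | c :: cs, a, b => sp (fun p s => sp (fun p' s' => K1 c p p' * Ker cs s s') b) a

end Sp

/-! ### The box chain -/

section Box

variable {n : ℕ}

/-- sweeping in the direction `i`, from `-9` to `9`, in `N` steps. -/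
noncomputable def swp (N : ℕ) (i : Fin n) (c : Ch (ZMod 2) (Fin n → ℝ)) :
    Ch (ZMod 2) (Fin n → ℝ) :=
  ∑ a ∈ Finset.range N, pr (fun y => Function.update y i (-9 + 18 * (a : ℝ) / N))
    (fun y => Function.update y i (-9 + 18 * ((a : ℝ) + 1) / N)) c

/-- box chain in some directions -/
noncomputable def boxL (N : ℕ) : List (Fin n) → Ch (ZMod 2) (Fin n → ℝ)
  | [] => Finsupp.single [0] 1
  | i :: is => swp N i (boxL N is)

/-- The fundamental chain of the cube `[-9,9]^n`. -/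
noncomputable def box (n N : ℕ) : Ch (ZMod 2) (Fin n → ℝ) := boxL N (List.finRange n)

/-- coordinates of `ℝ^n` -/
def crd (n : ℕ) : List ((Fin n → ℝ) → ℝ) := (List.finRange n).map fun i y => y i

/-- cubes -/
abbrev Q (n : ℕ) (r : ℝ) : Set (Fin n → ℝ) := closedBall 0 r

end Box

/-! ### Metric notions -/

section Metric

variable {X : Type*} [MetricSpace X]

/-- the list is `ε`-small -/
def Sm (ε : ℝ) (l : List X) : Prop := ∀ x ∈ l, ∀ y ∈ l, dist x y < ε

/-- all entries are in `A` -/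
def In {X : Type*} (A : Set X) (l : List X) : Prop := ∀ x ∈ l, x ∈ A

/-- the list stays at distance `≥ r` from `A` -/
def Far (r : ℝ) (A : Set X) (l : List X) : Prop := ∀ x ∈ l, ∀ z ∈ A, r ≤ dist x z

/-- Filling of small cycles. -/
def FillS (k X : Type*) [CommRing k] [MetricSpace X] : Prop :=
  ∀ A : Set X, IsCompact A → ∃ A' : Set X, IsCompact A' ∧ A ⊆ A' ∧ ∀ ε > 0, ∃ κ > 0,
    ∀ (n : ℕ) (c : Ch k X), bd c = 0 → Sup (fun l => l.length = n ∧ Sm κ l ∧ In A l) c →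
      ∃ e : Ch k X, bd e = c ∧ Sup (fun l => l.length = n + 1 ∧ Sm ε l ∧ In A' l) e

variable {n : ℕ}

/-- coordinate functions of the chart `β` -/
noncomputable def co (β : (Fin n → ℝ) → X) (i : Fin n) (x : X) : ℝ := Function.invFun β x i

/-- kernel of the chart `β` -/
noncomputable def KerC (β : (Fin n → ℝ) → X) : List X → List X → ZMod 2 :=
  Ker ((List.finRange n).map (co β))

/-- fundamental chain of the chart `β` -/
noncomputable def muC (β : (Fin n → ℝ) → X) (N : ℕ) : Ch (ZMod 2) X := pf β (box n N)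

open Classical in
/-- local degree of an `n`-chain at `x`, first version -/
noncomputable def dg (β : (Fin n → ℝ) → X) (c : Ch (ZMod 2) X) (x : X) : ZMod 2 :=
  ext (fun l => if In (β '' Q n 8) l then KerC β l [x] else 0) c

open Classical in
/-- local degree of an `n`-chain at `x`, second version -/
noncomputable def dg' (β : (Fin n → ℝ) → X) (c : Ch (ZMod 2) X) (x : X) : ZMod 2 :=
  ext (fun l => if In (β '' Q n 8) l then KerC β [x] l else 0) c

/-- Local uniqueness of `n`-chains. -/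
def LD1S (β : (Fin n → ℝ) → X) : Prop :=
  ∀ κ' > 0, ∃ κ > 0, ∀ c : Ch (ZMod 2) X,
    Sup (fun l => l.length = n + 1 ∧ Sm κ l ∧ In (β '' Q n 6) l) c →
    ∀ (L : Set X) (r : ℝ), κ' ≤ r → Sup (Far r L) (bd c) →
    (∀ y, (∃ z ∈ L, dist y z < r) → dg β c y = 0) →
    ∃ e cm : Ch (ZMod 2) X, c = bd e + cm ∧
      Sup (fun l => l.length = n + 2 ∧ Sm κ' l ∧ In (β '' Q n 7) l ∧
        ∀ x ∈ l, ∃ l' ∈ c.support, ∃ x' ∈ l', dist x x' < κ') e ∧
      Sup (fun l => l.length = n + 1 ∧ Sm κ' l ∧ In (β '' Q n 7) l ∧ Far (r - κ') L l ∧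
        ∀ x ∈ l, ∃ l' ∈ c.support, ∃ x' ∈ l', dist x x' < κ') cm

/-- Invariance of the local degree. -/
def InvS (β β' : (Fin n → ℝ) → X) : Prop :=
  ∃ N₀ : ℕ, ∀ N ≥ N₀, ∀ x ∈ β '' Q n 2 ∩ β' '' Q n 2,
    dg β' (muC β N) x = 1 ∧ dg' β' (muC β N) x = 1

/-- Existence of fundamental chains for a finite atlas. -/
def FundS {m : ℕ} (β : Fin m → (Fin n → ℝ) → X) : Prop :=
  ∃ η > 0, ∀ δ > 0, ∃ μ : Ch (ZMod 2) X, Sup (fun l => l.length = n + 1 ∧ Sm δ l) μ ∧
    Sup (fun l => ∀ a, Far η (β a '' Q n 1) l) (bd μ) ∧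
    ∀ a, ∀ x ∈ β a '' Q n 2, (∃ b, ∃ z ∈ β b '' Q n 1, dist x z < η) →
      dg (β a) μ x = 1 ∧ dg' (β a) μ x = 1

/-- Local cohomology (compact supports) in degree `q`. -/
def LCS (β : (Fin n → ℝ) → X) (q : ℕ) : Prop :=
  ∀ ρ > 0, ∃ ρ₁ > 0, ∀ κ > 0, ∃ κ' > 0, ∀ x ∈ β '' Q n 3, ∀ φ : List X → ZMod 2,
    (∀ b, Sm κ b → b.length = q + 2 → ext φ (bdL (ZMod 2) b) = 0) →
    (∀ b, Sm κ b → b.length = q + 1 → φ b ≠ 0 → ∀ y ∈ b, dist x y < ρ₁) →
    (q = n → ∃ N₀ : ℕ, ∀ N ≥ N₀, ext φ (muC β N) = 0) →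
    ∃ ψ : List X → ZMod 2,
      (∀ b, Sm κ' b → b.length = q → ψ b ≠ 0 → ∀ y ∈ b, dist x y < ρ) ∧
      (∀ b, Sm κ' b → b.length = q + 1 → ext ψ (bdL (ZMod 2) b) = φ b)

/-- The duality package on the compact set `N`: a local chain map from small lists to compactly
supported cochains, and fundamental chains. -/
def PkgS (n : ℕ) (N : Set X) : Prop :=
  ∃ η > 0, ∀ J ≤ n, ∀ ρ > 0, ∃ κ₀ > 0, ∃ κ₁ > 0, ∃ Θ : List X → List X → ZMod 2,
    (∀ b, Θ [] b = 0) ∧ (∀ a, Θ a [] = 0) ∧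
    (∀ a b, Θ a b ≠ 0 → a.length + b.length = n + 2) ∧
    (∀ a, In N a → Sm κ₀ a → a.length ≤ J + 1 → ∀ b, Sm κ₁ b → Θ a b ≠ 0 →
      ∀ x ∈ a, ∀ y ∈ b, dist x y < ρ) ∧
    (∀ a, In N a → Sm κ₀ a → a.length ≤ J + 1 → ∀ b, Sm κ₁ b →
      ext (Θ a) (bdL (ZMod 2) b) = ext (fun a' => Θ a' b) (bdL (ZMod 2) a)) ∧
    (∀ δ > 0, ∃ μ : Ch (ZMod 2) X, Sup (fun l => l.length = n + 1 ∧ Sm δ l) μ ∧
      Sup (Far η N) (bd μ) ∧ ∀ x ∈ N, ext (Θ [x]) μ = 1)

/-- Relative cycles of dimension `i` near infinity. -/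
def RelS (X : Type*) [MetricSpace X] (i : ℕ) : Prop :=
  ∀ K : Set X, IsCompact K → ∃ K' N N' : Set X, IsCompact K' ∧ IsCompact N ∧ IsCompact N' ∧
    K ⊆ K' ∧ K' ⊆ interior N ∧ N ⊆ N' ∧ ∀ ε > 0, ∃ κ > 0, ∀ v : Ch (ZMod 2) X,
      Sup (fun l => l.length = i + 1 ∧ Sm κ l ∧ In N l) v → Sup (In K'ᶜ) (bd v) →
      ∃ e cm : Ch (ZMod 2) X, v = bd e + cm ∧
        Sup (fun l => l.length = i + 2 ∧ Sm ε l ∧ In N' l) e ∧
        Sup (fun l => l.length = i + 1 ∧ Sm ε l ∧ In N' l ∧ In Kᶜ l) cm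

/-- Cycles of dimension `i - 1` far from a compact set bound far from it. -/
def PushS (X : Type*) [MetricSpace X] (i : ℕ) : Prop :=
  ∀ K : Set X, IsCompact K → ∃ K' : Set X, IsCompact K' ∧ ∀ A : Set X, IsCompact A →
    ∃ A' : Set X, IsCompact A' ∧ ∀ ε > 0, ∃ κ > 0, ∀ z : Ch (ZMod 2) X, bd z = 0 →
      Sup (fun l => l.length = i ∧ Sm κ l ∧ In A l ∧ In K'ᶜ l) z →
      ∃ c : Ch (ZMod 2) X, bd c = z ∧
        Sup (fun l => l.length = i + 1 ∧ Sm ε l ∧ In A' l ∧ In Kᶜ l) c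

end Metric

/-! ### Coarse statements -/

section Coarse

variable {Γ : Type*} [Group Γ]

/-- all differences are in `S` -/
def SmG (S : Finset Γ) (l : List Γ) : Prop := ∀ x ∈ l, ∀ y ∈ l, x⁻¹ * y ∈ S

/-- Coarse acyclicity: small cycles (lists of length `i`) bound. -/
def CFillS (k Γ : Type*) [CommRing k] [Group Γ] (i : ℕ) : Prop :=
  ∀ S : Finset Γ, ∃ R : Finset Γ, S ⊆ R ∧ ∀ z : Ch k Γ, bd z = 0 →
    Sup (fun l => l.length = i ∧ SmG S l) z →
    ∃ c : Ch k Γ, bd c = z ∧ Sup (fun l => l.length = i + 1 ∧ SmG R l) c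

/-- Coarse acyclicity at infinity. -/
def CPushS (Γ : Type*) [Group Γ] (i : ℕ) : Prop :=
  ∀ S : Finset Γ, ∃ R : Finset Γ, S ⊆ R ∧ ∀ F : Finset Γ, ∃ F' : Finset Γ,
    ∀ z : Ch (ZMod 2) Γ, bd z = 0 →
    Sup (fun l => l.length = i ∧ SmG S l ∧ In {x | x ∉ F'} l) z →
    ∃ c : Ch (ZMod 2) Γ, bd c = z ∧ Sup (fun l => l.length = i + 1 ∧ SmG R l ∧
      In {x | x ∉ F} l) c

/-- A finitely supported chain map up to dimension `i - 1` from `Γ`-lists to small lists of `X`. -/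
def PsiS (k Γ X : Type*) [CommRing k] [Group Γ] [MetricSpace X] [MulAction Γ X] (i : ℕ) : Prop :=
  ∀ S : Finset Γ, ∃ C : Set X, IsCompact C ∧ ∀ (W : Finset Γ), ∀ κ > 0,
    ∃ ψ : List Γ → Ch k X, ψ [] = Finsupp.single [] 1 ∧
      ∀ a : List Γ, SmG S a → (∀ g ∈ a, g ∈ W) → a.length ≤ i →
        bd (ψ a) = ext ψ (bdL k a) ∧
        Sup (fun l => l.length = a.length ∧ Sm κ l ∧ ∀ x ∈ l, ∀ g ∈ a, ∃ y ∈ C, x = g • y) (ψ a)

/-- The action is cocompact and proper. -/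
structure CoAct (Γ X : Type*) [Group Γ] [TopologicalSpace X] [MulAction Γ X] : Prop where
  cont : ∀ g : Γ, Continuous fun x : X => g • x
  free : ∀ (g : Γ) (x : X), g • x = x → g = 1
  cocomp : ∃ B : Set X, IsCompact B ∧ ∀ x : X, ∃ g : Γ, ∃ y ∈ B, x = g • y
  proper : ∀ C D : Set X, IsCompact C → IsCompact D →
    {g : Γ | ∃ y ∈ C, g • y ∈ D}.Finite

end Coarse

end Vale.Agent.P239.M
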