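import Vale.Agent.P239.S.M_Defs

/-!
Supports of chains, extension of chain maps, the coning homotopy (M1).
-/

namespace Vale.Agent.P239.M

section Sup

variable {k : Type*} [CommRing k] {X Y : Type*} {P Q : List X → Prop}

theorem Sup.zero : Sup P (0 : Ch k X) := fun l hl => by simp at hl

theorem Sup.mono {c : Ch k X} (h : Sup P c) (hPQ : ∀ l, P l → Q l) : Sup Q c :=
  fun l hl => hPQ l (h l hl)

theorem Sup.and {c : Ch k X} (h : Sup P c) (h' : Sup Q c) : Sup (fun l => P l ∧ Q l) c :=
  fun l hl => ⟨h l hl, h' l hl⟩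

theorem Sup.add {c d : Ch k X} (hc : Sup P c) (hd : Sup P d) : Sup P (c + d) := by
  classical
  intro l hl
  rcases Finset.mem_union.1 (Finsupp.support_add hl) with h | h
  · exact hc l h
  · exact hd l h

theorem Sup.neg {c : Ch k X} (hc : Sup P c) : Sup P (-c) := by
  intro l hl
  rw [Finsupp.support_neg] at hl
  exact hc l hl

theorem Sup.sub {c d : Ch k X} (hc : Sup P c) (hd : Sup P d) : Sup P (c - d) := by
  rw [sub_eq_add_neg]; exact hc.add hd.neg

theorem Sup.smul {c : Ch k X} (hc : Sup P c) (r : k) : Sup P (r • c) :=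
  fun l hl => hc l (Finsupp.support_smul hl)

theorem Sup.sum {ι : Type*} {s : Finset ι} {c : ι → Ch k X} (h : ∀ i ∈ s, Sup P (c i)) :
    Sup P (∑ i ∈ s, c i) := by
  classical
  induction s using Finset.induction_on with
  | empty => simpa using Sup.zero
  | insert a s ha ih =>
    rw [Finset.sum_insert ha]
    exact (h a (Finset.mem_insert_self _ _)).add
      (ih fun i hi => h i (Finset.mem_insert_of_mem hi))

theorem Sup.single {l : List X} (r : k) (h : P l) : Sup P (Finsupp.single l r) := by
  classical
  intro m hm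
  have := Finsupp.support_single_subset hm
  rw [Finset.mem_singleton] at this
  rwa [this]

/-- support of a linear extension -/
theorem Sup.ext {c : Ch k X} (hc : Sup P c) {u : List X → Ch k Y} {Q : List Y → Prop}
    (hu : ∀ l, P l → Sup Q (u l)) : Sup Q (ext u c) := by
  show Sup Q (Finsupp.linearCombination k u c)
  rw [Finsupp.linearCombination_apply, Finsupp.sum]
  exact Sup.sum fun l hl => (hu l (hc l hl)).smul _

theorem Sup.cone {c : Ch k X} {x : X} {Q : List X → Prop} (hc : Sup (fun l => Q (x :: l)) c) :
    Sup Q (cone x c) := by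
  classical
  intro l hl
  have h := Finsupp.mapDomain_support (s := c) (f := List.cons x) hl
  obtain ⟨m, hm, rfl⟩ := Finset.mem_image.1 h
  exact hc m hm

theorem Sup.pf {c : Ch k X} {f : X → Y} {Q : List Y → Prop}
    (hc : Sup (fun l => Q (l.map f)) c) : Sup Q (pf f c) := by
  classical
  intro l hl
  have h := Finsupp.mapDomain_support (s := c) (f := List.map f) hl
  obtain ⟨m, hm, rfl⟩ := Finset.mem_image.1 h
  exact hc m hm

/-- the faces of a list -/
theorem sup_bdL (l : List X) :
    Sup (fun m => m.Sublist l ∧ m.length + 1 = l.length) (bdL k l) := by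
  induction l with
  | nil => exact Sup.zero
  | cons x l ih =>
    rw [bdL]
    refine Sup.sub (Sup.single _ ⟨List.sublist_cons_self x l, rfl⟩) ?_
    refine Sup.cone (ih.mono fun m hm => ⟨hm.1.cons_cons x, ?_⟩)
    simp only [List.length_cons]
    omega

/-- boundary of a chain -/
theorem Sup.bd {c : Ch k X} (hc : Sup P c) {Q : List X → Prop}
    (h : ∀ l, P l → ∀ m : List X, m.Sublist l → m.length + 1 = l.length → Q m) :
    Sup Q (bd c) :=
  hc.ext fun l hl => (sup_bdL l).mono fun m hm => h l hl m hm.1 hm.2

theorem sup_prL (f g : X → Y) (l : List X) :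
    Sup (fun m => m.length = l.length + 1 ∧ ∀ y ∈ m, ∃ x ∈ l, y = f x ∨ y = g x)
      (prL k f g l) := by
  induction l with
  | nil => exact Sup.zero
  | cons x l ih =>
    rw [prL]
    refine Sup.sub (Sup.single _ ⟨by simp, ?_⟩) ?_
    · intro y hy
      simp only [List.mem_cons, List.mem_map] at hy
      rcases hy with rfl | rfl | ⟨a, ha, rfl⟩
      · exact ⟨x, by simp, Or.inl rfl⟩
      · exact ⟨x, by simp, Or.inr rfl⟩
      · exact ⟨a, by simp [ha], Or.inr rfl⟩
    · refine Sup.cone (ih.mono fun m hm => ⟨by simp [hm.1], fun y hy => ?_⟩)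
      rcases List.mem_cons.1 hy with rfl | hy
      · exact ⟨x, by simp, Or.inl rfl⟩
      · obtain ⟨a, ha, h⟩ := hm.2 y hy
        exact ⟨a, by simp [ha], h⟩

/-- prism of a chain -/
theorem Sup.pr {c : Ch k X} (hc : Sup P c) {f g : X → Y} {Q : List Y → Prop}
    (h : ∀ l, P l → ∀ m : List Y, m.length = l.length + 1 →
      (∀ y ∈ m, ∃ x ∈ l, y = f x ∨ y = g x) → Q m) : Sup Q (pr f g c) :=
  hc.ext fun l hl => (sup_prL f g l).mono fun m hm => h l hl m hm.1 hm.2

end Sup

section Ext

variable {k : Type*} [CommRing k] {X Y : Type*} {M N : Type*} [AddCommGroup M] [Module k M]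
  [AddCommGroup N] [Module k N]

theorem ext_single (u : List X → M) (l : List X) (r : k) :
    ext u (Finsupp.single l r) = r • u l := by
  simp [ext, Finsupp.linearCombination_single]

/-- two extensions that agree on the support -/
theorem ext_congr {u v : List X → M} {c : Ch k X} (h : Sup (fun l => u l = v l) c) :
    ext u c = ext v c := by
  rw [ext, ext, Finsupp.linearCombination_apply, Finsupp.linearCombination_apply, Finsupp.sum,
    Finsupp.sum]
  exact Finset.sum_congr rfl fun l hl => by rw [h l hl]

/-- a linear map applied to an extension -/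
theorem map_ext (F : M →ₗ[k] N) (u : List X → M) (c : Ch k X) :
    F (ext u c) = ext (fun l => F (u l)) c := by
  rw [ext, ext, Finsupp.linearCombination_apply, Finsupp.linearCombination_apply, Finsupp.sum,
    Finsupp.sum, map_sum]
  exact Finset.sum_congr rfl fun l _ => map_smul F _ _

theorem ext_add' (u v : List X → M) (c : Ch k X) :
    ext (fun l => u l + v l) c = ext u c + ext v c := by
  rw [ext, ext, ext, Finsupp.linearCombination_apply, Finsupp.linearCombination_apply,
    Finsupp.linearCombination_apply, Finsupp.sum, Finsupp.sum, Finsupp.sum,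
    ← Finset.sum_add_distrib]
  exact Finset.sum_congr rfl fun l _ => smul_add _ _ _

theorem ext_sub' (u v : List X → M) (c : Ch k X) :
    ext (fun l => u l - v l) c = ext u c - ext v c := by
  rw [ext, ext, ext, Finsupp.linearCombination_apply, Finsupp.linearCombination_apply,
    Finsupp.linearCombination_apply, Finsupp.sum, Finsupp.sum, Finsupp.sum,
    ← Finset.sum_sub_distrib]
  exact Finset.sum_congr rfl fun l _ => smul_sub _ _ _

theorem ext_zero (u : List X → M) (c : Ch k X) (h : Sup (fun l => u l = 0) c) :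
    ext u c = 0 := by
  rw [ext, Finsupp.linearCombination_apply, Finsupp.sum]
  exact Finset.sum_eq_zero fun l hl => by rw [h l hl, smul_zero]

/-- the identity as an extension -/
theorem ext_id (c : Ch k X) : ext (fun l => (Finsupp.single l 1 : Ch k X)) c = c := by
  induction c using Finsupp.induction_linear with
  | zero => simp
  | add a b ha hb => rw [map_add, ha, hb]
  | single l r => rw [ext_single, Finsupp.smul_single, smul_eq_mul, mul_one]

/-- composition of extensions -/
theorem ext_ext (u : List Y → M) (v : List X → Ch k Y) (c : Ch k X) :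
    ext u (ext v c) = ext (fun l => ext u (v l)) c := map_ext _ _ _

theorem ext_bd (u : List X → M) (c : Ch k X) :
    ext u (bd c) = ext (fun l => ext u (bdL k l)) c := map_ext _ _ _

/-- extension of a chain map -/
theorem bd_ext {u : List X → Ch k Y} {c : Ch k X}
    (h : Sup (fun l => bd (u l) = ext u (bdL k l)) c) : bd (ext u c) = ext u (bd c) := by
  rw [map_ext, ext_bd]
  exact ext_congr h

end Ext

section Htp

variable {k : Type*} [CommRing k] {X : Type*} (ξ : List X → X) (Φ : List X → Ch k X)

theorem htp_nil : htp ξ Φ [] = 0 := rfl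

theorem htp_cons (x : X) (l : List X) : htp ξ Φ (x :: l) = cone (ξ (x :: l))
    (Finsupp.single (x :: l) 1 - Φ (x :: l) - ext (htp ξ Φ) (bdL k (x :: l))) := by
  show cone (ξ (x :: l)) (Finsupp.single (x :: l) 1 - Φ (x :: l)
    - ext (htpN ξ Φ l.length) (bdL k (x :: l))) = _
  congr 2
  refine ext_congr ((sup_bdL (x :: l)).mono fun m hm => ?_)
  have h1 : m.length = l.length := by
    have := hm.2
    simp only [List.length_cons] at this
    omega
  show htpN ξ Φ l.length m = htpN ξ Φ m.length m
  rw [h1]

theorem htp_of_ne {l : List X} (hl : l ≠ []) : htp ξ Φ l = cone (ξ l)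
    (Finsupp.single l 1 - Φ l - ext (htp ξ Φ) (bdL k l)) := by
  cases l with
  | nil => exact absurd rfl hl
  | cons x l => exact htp_cons ξ Φ x l

/-- **(M1)** the coning homotopy -/
theorem htp_eq {P : List X → Prop} (hP : ∀ l l' : List X, l'.Sublist l → P l → P l')
    {Φ : List X → Ch k X} (hΦ : ∀ l, P l → bd (Φ l) = ext Φ (bdL k l))
    (h0 : Φ [] = Finsupp.single [] 1) :
    ∀ l, P l → bd (htp ξ Φ l) + ext (htp ξ Φ) (bdL k l) = Finsupp.single l 1 - Φ l := by
  have key : ∀ (n : ℕ) (l : List X), l.length = n → P l →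
      bd (htp ξ Φ l) + ext (htp ξ Φ) (bdL k l) = Finsupp.single l 1 - Φ l := by
    intro n
    induction n with
    | zero =>
      intro l hl _
      have : l = [] := List.length_eq_zero_iff.1 hl
      subst this
      rw [htp_nil, h0]
      simp [bdL]
    | succ n ih =>
      intro l hl hPl
      have hne : l ≠ [] := by
        rintro rfl
        simp at hl
      rw [htp_of_ne ξ Φ hne, bd_cone]
      have h1 : bd (ext (htp ξ Φ) (bdL k l)) = bdL k l - ext Φ (bdL k l) := by
        have h2 : bd (ext (htp ξ Φ) (bdL k l)) =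
            ext (fun m => (Finsupp.single m 1 : Ch k X) - Φ m - ext (htp ξ Φ) (bdL k m))
              (bdL k l) := by
          rw [map_ext]
          refine ext_congr ((sup_bdL l).mono fun m hm => ?_)
          have h3 := ih m (by have := hm.2; omega) (hP l m hm.1 hPl)
          rw [← h3]; abel
        rw [h2, ext_sub' (fun m => (Finsupp.single m 1 : Ch k X) - Φ m)
          (fun m => ext (htp ξ Φ) (bdL k m)), ext_sub', ext_id, ← ext_bd, bd_bdL, map_zero,
          sub_zero]
      have h4 : bd ((Finsupp.single l 1 : Ch k X) - Φ l - ext (htp ξ Φ) (bdL k l)) = 0 := by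
        rw [map_sub, map_sub, h1, bd_single, one_smul, hΦ l hPl]; abel
      rw [h4, map_zero]; abel
  exact fun l hl => key l.length l rfl hl

/-- supports of the coning homotopy -/
theorem htp_sup {P : List X → Prop} (hP : ∀ l l' : List X, l'.Sublist l → P l → P l')
    {R : List X → Set X} (hR : ∀ l l' : List X, l'.Sublist l → P l → R l' ⊆ R l)
    {Φ : List X → Ch k X} (hl : ∀ l, P l → In (R l) l)
    (hΦ : ∀ l, P l → Sup (fun m => m.length = l.length ∧ In (R l) m) (Φ l))
    {ξ : List X → X} (hξ : ∀ l, P l → l ≠ [] → ξ l ∈ R l) :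
    ∀ l, P l → Sup (fun m => m.length = l.length + 1 ∧ In (R l) m) (htp ξ Φ l) := by
  have key : ∀ (n : ℕ) (l : List X), l.length = n → P l →
      Sup (fun m => m.length = l.length + 1 ∧ In (R l) m) (htp ξ Φ l) := by
    intro n
    induction n with
    | zero =>
      intro l hl _
      have : l = [] := List.length_eq_zero_iff.1 hl
      subst this
      rw [htp_nil]
      exact Sup.zero
    | succ n ih =>
      intro l hln hPl
      have hne : l ≠ [] := by
        rintro rfl
        simp at hln
      rw [htp_of_ne ξ Φ hne]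
      refine Sup.cone (Q := fun m => m.length = l.length + 1 ∧ In (R l) m) ?_
      have h1 : Sup (fun m => m.length = l.length ∧ In (R l) m)
          ((Finsupp.single l 1 : Ch k X) - Φ l - ext (htp ξ Φ) (bdL k l)) := by
        refine Sup.sub (Sup.sub (Sup.single _ ⟨rfl, hl l hPl⟩) (hΦ l hPl)) ?_
        refine (sup_bdL l).ext fun m hm => ?_
        refine (ih m (by have := hm.2; omega) (hP l m hm.1 hPl)).mono fun m' hm' => ?_
        exact ⟨by rw [hm'.1, hm.2], fun x hx => hR l m hm.1 hPl (hm'.2 x hx)⟩
      refine h1.mono fun m hm => ⟨by rw [List.length_cons, hm.1], fun x hx => ?_⟩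
      rcases List.mem_cons.1 hx with rfl | hx
      · exact hξ l hPl hne
      · exact hm.2 x hx
  exact fun l h => key l.length l rfl h

/-- the coning homotopy on a chain -/
theorem htp_chain {P : List X → Prop} (hP : ∀ l l' : List X, l'.Sublist l → P l → P l')
    {Φ : List X → Ch k X} (hΦ : ∀ l, P l → bd (Φ l) = ext Φ (bdL k l))
    (h0 : Φ [] = Finsupp.single [] 1) {c : Ch k X} (hc : Sup P c) :
    bd (ext (htp ξ Φ) c) + ext (htp ξ Φ) (bd c) = c - ext Φ c := by
  have h1 : ext (fun l => bd (htp ξ Φ l) + ext (htp ξ Φ) (bdL k l)) c =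
      ext (fun l => (Finsupp.single l 1 : Ch k X) - Φ l) c :=
    ext_congr (hc.mono fun l hl => htp_eq ξ hP hΦ h0 l hl)
  rw [ext_add' (fun l => bd (htp ξ Φ l)) (fun l => ext (htp ξ Φ) (bdL k l)), ← map_ext, ← ext_bd,
    ext_sub', ext_id] at h1
  exact h1

end Htp

end Vale.Agent.P239.M
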