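import Vale.Agent.P239.S.M_Chart

/-!
Block M7: local uniqueness of `n`-chains.
-/

namespace Vale.Agent.P239.M

open Metric Set Topology

namespace LD

section Alg

variable {X A : Type*}

theorem ext_comm [AddCommGroup A] [Module (ZMod 2) A] (F : List X → List X → A)
    (c d : Ch (ZMod 2) X) :
    ext (fun y => ext (fun a => F a y) c) d = ext (fun a => ext (fun y => F a y) d) c := by
  simp only [Finsupp.linearCombination_apply, Finsupp.sum, Finset.smul_sum]
  rw [Finset.sum_comm]
  exact Finset.sum_congr rfl fun a _ => Finset.sum_congr rfl fun y _ => smul_comm _ _ _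

theorem ext_add'' [AddCommGroup A] [Module (ZMod 2) A] (u v : List X → A) (c : Ch (ZMod 2) X) :
    ext (fun l => u l + v l) c = ext u c + ext v c := by
  simp only [Finsupp.linearCombination_apply, Finsupp.sum, smul_add, Finset.sum_add_distrib]

theorem ext_zero'' [AddCommGroup A] [Module (ZMod 2) A] (c : Ch (ZMod 2) X) :
    ext (fun _ => (0 : A)) c = 0 := by
  simp only [Finsupp.linearCombination_apply, Finsupp.sum, smul_zero, Finset.sum_const_zero]

theorem sp_ext [AddCommGroup A] [Module (ZMod 2) A] (B : List X → List X → List X → A)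
    (c : Ch (ZMod 2) X) (y : List X) :
    sp (fun p s => ext (fun a => B a p s) c) y = ext (fun a => sp (B a) y) c := by
  induction y generalizing B with
  | nil => simp only [sp, ext_zero'']
  | cons x l ih =>
    simp only [sp]
    rw [ext_add'', ih (fun a p s => B a (x :: p) s)]

theorem capS_ext (K : List X → List X → ZMod 2) (c : Ch (ZMod 2) X) (y : List X) :
    capS (fun l => ext (fun a => K a l) c) y = ext (fun a => capS (K a) y) c := by
  unfold capS
  rw [← sp_ext (fun a p s => (Finsupp.single s (K a p) : Ch (ZMod 2) X))]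
  congr 1
  funext p s
  simp only [Finsupp.linearCombination_apply, Finsupp.sum, smul_eq_mul]
  rw [Finsupp.single_finsetSum]
  exact Finset.sum_congr rfl fun a _ => by rw [Finsupp.smul_single, smul_eq_mul]

theorem capS_zero (y : List X) : capS (fun _ => (0 : ZMod 2)) y = 0 := by
  unfold capS
  induction y with
  | nil => rfl
  | cons x l ih =>
    simp only [sp, Finsupp.single_zero, zero_add] at ih ⊢
    exact ih

theorem sup_false {P : List X → Prop} {c : Ch (ZMod 2) X} (h : Sup P c) (hP : ∀ l, ¬ P l) :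
    c = 0 := by
  rw [← Finsupp.support_eq_empty, Finset.eq_empty_iff_forall_notMem]
  exact fun l hl => hP l (h l hl)

end Alg

variable {X : Type*} {n : ℕ} {β : (Fin n → ℝ) → X}

/-- the chain map -/
noncomputable def Phi (β : (Fin n → ℝ) → X) (N : ℕ) : List X → Ch (ZMod 2) X
  | [] => Finsupp.single [] 1
  | x :: a => ext (capS (KerC β (x :: a))) (muC β N)

theorem KerC_length {a b : List X} (h : KerC β a b ≠ 0) : a.length + b.length = n + 2 := by
  have := Ker_length _ a b h
  rwa [List.length_map, List.length_finRange] at this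

variable [MetricSpace X]

omit [MetricSpace X] in
theorem sup_muC_len (n N : ℕ) (β : (Fin n → ℝ) → X) (hN : 0 < N) :
    Sup (fun l => ∃ l₀ : List (Fin n → ℝ), l = l₀.map β ∧ l₀.length = n + 1 ∧ In (Q n 9) l₀ ∧
      ∀ u ∈ l₀, ∀ v ∈ l₀, dist u v ≤ 18 / N) (muC β N) :=
  Sup.pf β ((sup_box n N hN).mono fun l hl => ⟨l, rfl, hl⟩)

/-- chain map property -/
theorem bd_Phi (hβ : IsOpenEmbedding β) (hn : 0 < n) {N : ℕ} (hN : 0 < N) (a : List X)
    (ha : In (β '' Q n 8) a) : bd (Phi β N a) = ext (Phi β N) (bdL (ZMod 2) a) := by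
  cases a with
  | nil => simp [Phi, bd_single, bdL]
  | cons x a =>
    show bd (ext (capS (KerC β (x :: a))) (muC β N)) = _
    rw [bd_ext_capS]
    -- the boundary of `muC` does not contribute
    have h1 : ext (capS (KerC β (x :: a))) (bd (muC β N)) = 0 := by
      rw [ext_congr (u := capS (KerC β (x :: a))) (v := fun _ => 0) (sup_bd_muC hβ hn N hN) ?_,
        ext_zero'']
      rintro y ⟨i, hy⟩
      refine sup_false (sup_capS (KerC β (x :: a)) y) ?_
      rintro l ⟨p, z, s, rfl, -, hne⟩
      apply hne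
      have hmem : co β i ∈ (List.finRange n).map (co β) :=
        List.mem_map.2 ⟨i, List.mem_finRange i, rfl⟩
      have hle : ∀ w ∈ x :: a, |co β i w| ≤ 8 := by
        intro w hw
        obtain ⟨u, hu, rfl⟩ := ha w hw
        rw [co_apply hβ]
        exact Chart.abs_le_of_mem_Q hu i
      rcases hy with hy | hy
      · refine Ker_eq_zero _ _ _ _ hmem 0 fun w hw v hv => ?_
        have h9 := hy v (by simp only [List.mem_append, List.mem_cons,
          List.not_mem_nil, or_false] at hv ⊢; tauto)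
        have h8 := abs_le.1 (hle w hw)
        rw [hh, if_neg]
        rw [h9]; linarith [h8.1]
      · refine Ker_eq_zero _ _ _ _ hmem 1 fun w hw v hv => ?_
        have h9 := hy v (by simp only [List.mem_append, List.mem_cons,
          List.not_mem_nil, or_false] at hv ⊢; tauto)
        have h8 := abs_le.1 (hle w hw)
        rw [hh, if_pos]
        rw [h9]; linarith [h8.2]
    have h2 : KerC β (x :: a) [] = 0 := Ker_nil_right _ _
    have h3 : ext (capS fun l => ext (KerC β (x :: a)) (bdL (ZMod 2) l)) (muC β N) =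
        ext (fun a' => ext (capS (KerC β a')) (muC β N)) (bdL (ZMod 2) (x :: a)) := by
      have e1 : (capS fun l => ext (KerC β (x :: a)) (bdL (ZMod 2) l)) =
          fun y => ext (fun a' => capS (KerC β a') y) (bdL (ZMod 2) (x :: a)) := by
        funext y
        rw [← capS_ext (KerC β)]
        congr 1
        funext l
        exact (KerC_bd hβ (x :: a) l).symm
      rw [e1, ext_comm]
    rw [h1, h2, h3, zero_smul, add_zero, zero_add]
    cases a with
    | nil =>
      have e2 : bdL (ZMod 2) [x] = Finsupp.single [] 1 := by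
        simp [bdL]
      rw [e2, muC_left hβ N hN x (ha x (List.mem_cons_self)), Finsupp.linearCombination_single,
        Finsupp.linearCombination_single, one_smul, one_smul]
      have e3 : KerC β ([] : List X) = fun _ => 0 := by
        funext l
        exact Ker_nil_left _ _
      have e4 : capS (KerC β ([] : List X)) = fun _ => 0 := by
        funext y
        rw [e3, capS_zero]
      rw [e4, ext_zero'', zero_add]
      rfl
    | cons x' a =>
      have e2 : ext (KerC β (x :: x' :: a)) (muC β N) = 0 := by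
        rw [ext_congr (u := KerC β (x :: x' :: a)) (v := fun _ => 0) (sup_muC_len n N β hN) ?_,
          ext_zero'']
        rintro y ⟨l₀, rfl, hl₀, -, -⟩
        by_contra hne
        have := KerC_length hne
        rw [List.length_map, hl₀] at this
        simp only [List.length_cons] at this
        omega
      rw [e2, Finsupp.single_zero, add_zero]
      refine ext_congr (sup_bdL (x :: x' :: a)) ?_
      rintro l ⟨-, hl⟩
      cases l with
      | nil => simp at hl
      | cons z l => rfl

/-- supports -/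
theorem sup_Phi (hβ : IsOpenEmbedding β) {κ₂ : ℝ} (hκ₂ : 0 < κ₂) : ∃ κ > 0, ∃ N > 0,
    ∀ a : List X, Sm κ a → In (β '' Q n 6) a →
      Sup (fun l' => l'.length = a.length ∧
        In {x | x ∈ β '' Q n 7 ∧ ∃ y ∈ a, dist x y < κ₂} l') (Phi β N a) ∧
      (a.length = n + 1 → Sup (fun l' => Sm κ₂ l') (Phi β N a)) := by
  obtain ⟨κ₃, h3, hu⟩ := chart_unif hβ 7 hκ₂
  set κ₄ := min κ₃ 1 with hκ₄
  have h4 : 0 < κ₄ := lt_min h3 one_pos
  obtain ⟨κ, hκ, hi⟩ := Chart.inv hβ 6 (half_pos h4)
  obtain ⟨N₁, hN₁⟩ := exists_nat_gt (18 / (κ₄ / 4))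
  have hN0 : 0 < N₁ + 1 := Nat.succ_pos _
  have hNR : (0 : ℝ) < ((N₁ + 1 : ℕ) : ℝ) := by exact_mod_cast hN0
  have hN : 18 / ((N₁ + 1 : ℕ) : ℝ) < κ₄ / 4 := by
    have h44 : 0 < κ₄ / 4 := by positivity
    rw [div_lt_iff₀ h44] at hN₁
    rw [div_lt_iff₀ hNR]
    push_cast
    nlinarith
  refine ⟨κ, hκ, N₁ + 1, hN0, fun a ha haI => ?_⟩
  cases a with
  | nil =>
    refine ⟨Sup.single _ ⟨rfl, by intro x hx; simp at hx⟩, fun h => ?_⟩
    simp at h
  | cons x a =>
    obtain ⟨a₀, ha₀, he⟩ := Chart.exists_map haI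
    rw [he] at ha ⊢
    -- the description of the lists in the support
    have key : Sup (fun l' => l'.length = a₀.length ∧ ∃ l₁ : List (Fin n → ℝ), l' = l₁.map β ∧
        (∀ u ∈ l₁, ∀ v ∈ l₁, dist u v ≤ 18 / ((N₁ + 1 : ℕ) : ℝ)) ∧
        ∀ u ∈ l₁, ∀ v ∈ a₀, dist u v < κ₄) (Phi β (N₁ + 1) (x :: a)) := by
      show Sup _ (ext (capS (KerC β (x :: a))) (muC β (N₁ + 1)))
      rw [he]
      refine Sup.ext (sup_muC_len n (N₁ + 1) β hN0) ?_
      rintro y ⟨l₀, rfl, hl₀, hQ, hd⟩
      have e1 : capS (KerC β (a₀.map β)) (l₀.map β) =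
          pf β (capS (Ker (crd n) a₀) l₀) := by
        rw [← pf_capS]
        congr 2
        funext m
        exact KerC_map hβ a₀ m
      rw [e1]
      refine Sup.pf β ((sup_capS _ _).mono ?_)
      rintro l ⟨p, z, s, rfl, rfl, hne⟩
      have hlen := Ker_length _ _ _ hne
      have hloc := Chart.Ker_crd_local hne (κ := κ₄ / 2) (κ' := 18 / ((N₁ + 1 : ℕ) : ℝ))
        (by positivity)
        (fun u hu' v hv' => (hi u (ha₀ u hu') v (ha₀ v hv')
          (ha _ (List.mem_map_of_mem hu') _ (List.mem_map_of_mem hv'))).le)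
        (fun u hu' v hv' => hd u (by
          simp only [List.mem_append, List.mem_cons,
            List.not_mem_nil, or_false] at hu' ⊢; tauto) v (by
          simp only [List.mem_append, List.mem_cons,
            List.not_mem_nil, or_false] at hv' ⊢; tauto))
      refine ⟨?_, z :: s, rfl, fun u hu' v hv' => hd u (by
          simp only [List.mem_append, List.mem_cons] at hu' ⊢; tauto) v (by
          simp only [List.mem_append, List.mem_cons] at hv' ⊢; tauto), fun u hu' v hv' => ?_⟩
      · simp only [List.length_append, List.length_cons, List.length_nil, List.length_map, crd,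
          List.length_finRange] at hlen hl₀ ⊢
        omega
      · have d1 := hloc v hv' z (by simp)
        have d2 := hd u (by simp only [List.mem_append, List.mem_cons] at hu' ⊢; tauto) z (by simp)
        have := dist_triangle u z v
        rw [dist_comm z v] at this
        linarith
    have hQ7 : ∀ u : Fin n → ℝ, (∃ v ∈ a₀, dist u v < κ₄) → u ∈ Q n 7 := by
      rintro u ⟨v, hv, huv⟩
      have h6 : dist v 0 ≤ 6 := ha₀ v hv
      have h1 : κ₄ ≤ 1 := min_le_right _ _
      have := dist_triangle u v 0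
      exact mem_closedBall.2 (by linarith)
    obtain ⟨v₀, hv₀⟩ : ∃ v₀, v₀ ∈ a₀ := by
      cases a₀ with
      | nil => simp at he
      | cons v₀ a₀ => exact ⟨v₀, List.mem_cons_self⟩
    rw [← he]
    constructor
    · refine key.mono ?_
      rintro l ⟨hl, l₁, rfl, hs, hd⟩
      refine ⟨by rw [hl, he, List.length_map], ?_⟩
      intro y hy
      obtain ⟨u, hu', rfl⟩ := List.mem_map.1 hy
      have hu7 := hQ7 u ⟨v₀, hv₀, hd u hu' v₀ hv₀⟩
      refine ⟨⟨u, hu7, rfl⟩, β v₀, by rw [he]; exact List.mem_map_of_mem hv₀, ?_⟩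
      exact hu u hu7 v₀ (closedBall_subset_closedBall (by norm_num) (ha₀ v₀ hv₀))
        ((hd u hu' v₀ hv₀).trans_le (min_le_left _ _))
    · intro _
      refine key.mono ?_
      rintro l ⟨hl, l₁, rfl, hs, hd⟩ y hy y' hy'
      obtain ⟨u, hu', rfl⟩ := List.mem_map.1 hy
      obtain ⟨v, hv', rfl⟩ := List.mem_map.1 hy'
      refine hu u (hQ7 u ⟨v₀, hv₀, hd u hu' v₀ hv₀⟩) v (hQ7 v ⟨v₀, hv₀, hd v hv' v₀ hv₀⟩)
        ((hs u hu' v hv').trans_lt ?_)
      have : κ₄ ≤ κ₃ := min_le_left _ _
      linarith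

omit [MetricSpace X] in
/-- the image of a chain of dimension `n` -/
theorem sup_Phi_dg {N : ℕ} (hN : 0 < N) {c : Ch (ZMod 2) X}
    (hc : Sup (fun l => l.length = n + 1 ∧ In (β '' Q n 8) l) c) :
    Sup (fun l => ∃ z l', l = z :: l' ∧ dg β c z ≠ 0) (ext (Phi β N) c) := by
  have e1 : ext (Phi β N) c = ext (fun a => ext (capS (KerC β a)) (muC β N)) c := by
    refine ext_congr hc ?_
    rintro l ⟨hl, -⟩
    cases l with
    | nil => simp at hl
    | cons x l => rfl
  rw [e1, ← ext_comm (fun a y => capS (KerC β a) y)]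
  refine Sup.ext (sup_muC_len n N β hN) ?_
  rintro y ⟨l₀, hy, hl₀, -, -⟩
  have hlen : y.length = n + 1 := by rw [hy, List.length_map, hl₀]
  cases y with
  | nil => simp at hlen
  | cons z y =>
    have e2 : ext (fun a => capS (KerC β a) (z :: y)) c =
        Finsupp.single (z :: y) (dg β c z) := by
      have e3 : ext (fun a => capS (KerC β a) (z :: y)) c =
          ext (fun a => Finsupp.single (z :: y) (KerC β a [z])) c := by
        refine ext_congr hc ?_
        rintro a ⟨ha, -⟩
        rw [capS_eq (KerC β a) 0 (fun l hl => by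
          have := KerC_length hl
          omega) (z :: y) (by simp)]
        rfl
      rw [e3]
      have e4 : dg β c z = ext (fun a => KerC β a [z]) c := by
        unfold dg
        refine ext_congr hc ?_
        rintro a ⟨-, ha⟩
        rw [if_pos ha]
      rw [e4]
      simp only [Finsupp.linearCombination_apply, Finsupp.sum, smul_eq_mul]
      rw [Finsupp.single_finsetSum]
      exact Finset.sum_congr rfl fun a _ => by rw [Finsupp.smul_single, smul_eq_mul]
    rw [e2]
    by_cases h0 : dg β c z = 0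
    · rw [h0, Finsupp.single_zero]
      exact Sup.zero
    · exact Sup.single _ ⟨z, y, rfl, h0⟩

end LD

variable {X : Type*} [MetricSpace X] {n : ℕ}

/-- **(M7)** -/
theorem ld1S (hn : 0 < n) {β : (Fin n → ℝ) → X} (hβ : IsOpenEmbedding β) : LD1S β := by
  intro κ' hκ'
  have h4 : 0 < κ' / 4 := by positivity
  obtain ⟨κ₀, hκ₀, N, hN, hΦ⟩ := LD.sup_Phi hβ h4
  refine ⟨min κ₀ (κ' / 4), lt_min hκ₀ h4, fun c hc L r hr hL hdg => ?_⟩
  set P : List X → Prop := fun l => Sm κ₀ l ∧ Sm (κ' / 4) l ∧ In (β '' Q n 6) l with hPdef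
  have h68 : β '' Q n 6 ⊆ β '' Q n 8 :=
    image_mono (closedBall_subset_closedBall (by norm_num))
  have h67 : β '' Q n 6 ⊆ β '' Q n 7 :=
    image_mono (closedBall_subset_closedBall (by norm_num))
  have hPsub : ∀ l l' : List X, l'.Sublist l → P l → P l' := by
    rintro l l' h ⟨h1, h2, h3⟩
    exact ⟨fun x hx y hy => h1 x (h.subset hx) y (h.subset hy),
      fun x hx y hy => h2 x (h.subset hx) y (h.subset hy), fun x hx => h3 x (h.subset hx)⟩
  have hcP : Sup (fun l => P l ∧ l.length = n + 1 ∧ l ∈ c.support) c := by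
    intro l hl
    obtain ⟨h1, h2, h3⟩ := hc l hl
    exact ⟨⟨fun x hx y hy => (h2 x hx y hy).trans_le (min_le_left _ _),
      fun x hx y hy => (h2 x hx y hy).trans_le (min_le_right _ _), h3⟩, h1, hl⟩
  set ξ : List X → X := fun l => l.headD (β 0) with hξ
  have hchain : ∀ l, P l → bd (LD.Phi β N l) = ext (LD.Phi β N) (bdL (ZMod 2) l) :=
    fun l hl => LD.bd_Phi hβ hn hN l fun x hx => h68 (hl.2.2 x hx)
  set R : List X → Set X := fun l => {x | x ∈ β '' Q n 7 ∧ ∃ y ∈ l, dist x y < κ' / 4} with hR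
  have hself : ∀ l, P l → ∀ x ∈ l, x ∈ R l := fun l hl x hx =>
    ⟨h67 (hl.2.2 x hx), x, hx, by rw [dist_self]; exact h4⟩
  have hH : ∀ l, P l → Sup (fun l' => l'.length = l.length + 1 ∧ In (R l) l')
      (htp ξ (LD.Phi β N) l) := by
    refine fun l hl => sup_htp ξ (LD.Phi β N) R hPsub ?_ hself ?_
      (fun l hl => (hΦ l hl.1 hl.2.2).1) l hl
    · rintro l l' h x ⟨h1, y, hy, hxy⟩
      exact ⟨h1, y, h.subset hy, hxy⟩
    · intro l hne hl
      cases l with
      | nil => exact absurd rfl hne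
      | cons x l => exact hself _ hl x (List.mem_cons_self)
  have hid := bd_htp_ext ξ (LD.Phi β N) hPsub rfl hchain (hcP.mono (fun l hl => hl.1))
  have hsmall : ∀ l l', P l → In (R l) l' → Sm κ' l' := by
    rintro l l' ⟨-, hl, -⟩ h x hx y hy
    obtain ⟨-, x', hx', hxx⟩ := h x hx
    obtain ⟨-, y', hy', hyy⟩ := h y hy
    have h1 := dist_triangle4 x x' y' y
    have h2 := hl x' hx' y' hy'
    rw [dist_comm y' y] at h1
    linarith
  have hbd : Sup (fun l' => P l' ∧ l'.length = n ∧ ∃ l ∈ c.support, l'.Sublist l) (bd c) := by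
    refine Sup.bd ?_ hcP
    rintro l l' hs hlen ⟨h1, h2, h3⟩
    exact ⟨hPsub l l' hs h1, by omega, l, h3, hs⟩
  refine ⟨ext (htp ξ (LD.Phi β N)) c,
    ext (LD.Phi β N) c + ext (htp ξ (LD.Phi β N)) (bd c), ?_, ?_, ?_⟩
  · calc c = (c - ext (LD.Phi β N) c) + ext (LD.Phi β N) c := by abel
      _ = _ := by rw [← hid]; abel
  · refine Sup.ext hcP ?_
    rintro l ⟨hl, hlen, hlc⟩
    refine Sup.mono ?_ (hH l hl)
    rintro l' ⟨h1, h2⟩
    refine ⟨by omega, hsmall l l' hl h2, fun x hx => (h2 x hx).1, fun x hx => ?_⟩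
    obtain ⟨-, y, hy, hxy⟩ := h2 x hx
    exact ⟨l, hlc, y, hy, by linarith⟩
  · refine Sup.add ?_ ?_
    · have hA : Sup (fun l => l.length = n + 1 ∧ Sm (κ' / 4) l ∧ In (β '' Q n 7) l ∧
          ∀ x ∈ l, ∃ l' ∈ c.support, ∃ x' ∈ l', dist x x' < κ') (ext (LD.Phi β N) c) := by
        refine Sup.ext hcP ?_
        rintro l ⟨hl, hlen, hlc⟩
        obtain ⟨hA1, hA2⟩ := hΦ l hl.1 hl.2.2
        intro l' hl'
        obtain ⟨h1, h2⟩ := hA1 l' hl'
        refine ⟨by omega, hA2 hlen l' hl', fun x hx => (h2 x hx).1, fun x hx => ?_⟩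
        obtain ⟨-, y, hy, hxy⟩ := h2 x hx
        exact ⟨l, hlc, y, hy, by linarith⟩
      have hB := LD.sup_Phi_dg (β := β) (n := n) hN (c := c)
        (fun l hl => ⟨(hc l hl).1, fun x hx => h68 ((hc l hl).2.2 x hx)⟩)
      intro l hl
      obtain ⟨h1, h2, h3, h5⟩ := hA l hl
      obtain ⟨z, l', rfl, hz⟩ := hB l hl
      refine ⟨h1, fun x hx y hy => (h2 x hx y hy).trans (by linarith), h3, ?_, h5⟩
      intro x hx w hw
      have h6 : r ≤ dist z w := by
        by_contra hcon
        exact hz (hdg z ⟨w, hw, not_le.1 hcon⟩)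
      have h7 := h2 z (List.mem_cons_self) x hx
      have h8 := dist_triangle z x w
      linarith
    · intro l hl
      obtain ⟨m, ⟨⟨hm1, hm2, m', hm', hmm⟩, hmL⟩, h1, h2⟩ : ∃ m : List X,
          ((P m ∧ m.length = n ∧ ∃ l ∈ c.support, m.Sublist l) ∧ Far r L m) ∧
          l.length = m.length + 1 ∧ In (R m) l := by
        have := Sup.ext (R := fun l => ∃ m : List X,
          ((P m ∧ m.length = n ∧ ∃ l ∈ c.support, m.Sublist l) ∧ Far r L m) ∧
          l.length = m.length + 1 ∧ In (R m) l) (c := bd c)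
          (P := fun m => (P m ∧ m.length = n ∧ ∃ l ∈ c.support, m.Sublist l) ∧ Far r L m)
          (u := htp ξ (LD.Phi β N)) (fun m hm => ⟨hbd m hm, hL m hm⟩) (fun m hm l hl => by
            exact ⟨m, hm, hH m hm.1.1 l hl⟩)
        exact this l hl
      refine ⟨by omega, hsmall m l hm1 h2, fun x hx => (h2 x hx).1, ?_, fun x hx => ?_⟩
      · intro x hx w hw
        obtain ⟨-, y, hy, hxy⟩ := h2 x hx
        have h6 := hmL y hy w hw
        have h8 := dist_triangle y x w
        rw [dist_comm y x] at h8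
        linarith
      · obtain ⟨-, y, hy, hxy⟩ := h2 x hx
        exact ⟨m', hm', y, hmm.subset hy, by linarith⟩

end Vale.Agent.P239.M
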