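import Vale.Agent.P239.S.M_Defs
import Vale.Agent.P239.F.M2
import Vale.Agent.P239.F.Base

/-! Coarse acyclicity at infinity implies one-endedness and the vanishing of the second cohomology
with finite supports (both modulo 2). -/

namespace Vale.Agent.P239.M.Out

open Vale.Agent.P239.M
open Vale.Agent.P239.TF (On mem_On single_mem_On map_mem_of map_eq_of)

section Gen

variable {k : Type*} [CommRing k] {X : Type*}

theorem sup_iff {P : List X → Prop} {c : Ch k X} : Sup P c ↔ c ∈ (On P : Submodule k (Ch k X)) := by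
  constructor
  · intro h t ht; exact h t (Finsupp.mem_support_iff.2 ht)
  · intro h t ht; exact h t (Finsupp.mem_support_iff.1 ht)

end Gen

variable {Γ : Type*} [Group Γ]

theorem con_ind {S : Finset Γ} (hsym : ∀ s ∈ S, s⁻¹ ∈ S) (hS : Subgroup.closure (S : Set Γ) = ⊤)
    (g : Γ) : ∃ B : Finset Γ, ∀ A : Set Γ, ∀ a : Γ, a ∈ A → a * g ∉ A →
      ∃ b ∈ B, ∃ y, Adj S (a * b) y ∧ ¬ (a * b ∈ A ↔ y ∈ A) := by
  classical
  have hg : g ∈ Subgroup.closure (S : Set Γ) := by rw [hS]; trivial
  induction hg using Subgroup.closure_induction_right with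
  | one => exact ⟨∅, fun A a ha hna => absurd ha (by rwa [mul_one] at hna)⟩
  | mul_right x _ s hs ih =>
    obtain ⟨B, hB⟩ := ih
    refine ⟨insert x B, fun A a ha hna => ?_⟩
    by_cases hx : a * x ∈ A
    · exact ⟨x, Finset.mem_insert_self _ _, a * x * s, ⟨s, hs, Or.inl rfl⟩, fun h =>
        hna (by rw [← mul_assoc]; exact h.1 hx)⟩
    · obtain ⟨b, hb, y, hy⟩ := hB A a ha hx
      exact ⟨b, Finset.mem_insert_of_mem hb, y, hy⟩
  | mul_inv_cancel x _ s hs ih =>
    obtain ⟨B, hB⟩ := ih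
    refine ⟨insert x B, fun A a ha hna => ?_⟩
    by_cases hx : a * x ∈ A
    · exact ⟨x, Finset.mem_insert_self _ _, a * x * s⁻¹, ⟨s⁻¹, hsym s hs, Or.inl rfl⟩, fun h =>
        hna (by rw [← mul_assoc]; exact h.1 hx)⟩
    · obtain ⟨b, hb, y, hy⟩ := hB A a ha hx
      exact ⟨b, Finset.mem_insert_of_mem hb, y, hy⟩

theorem bdL_one (x : Γ) : bdL (ZMod 2) [x] = Finsupp.single [] 1 := by
  rw [bdL, bdL, map_zero, sub_zero]

theorem bdL_two (x y : Γ) : bdL (ZMod 2) [x, y] = Finsupp.single [y] 1 - Finsupp.single [x] 1 := by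
  rw [bdL, bdL_one, cone_single]

/-- One-endedness. -/
theorem oneEnded_of (h : CPushS Γ 1) {S : Finset Γ} (hsym : ∀ s ∈ S, s⁻¹ ∈ S)
    (hS : Subgroup.closure (S : Set Γ) = ⊤) : F.OneEnded S := by
  classical
  intro A hA
  obtain ⟨R, -, hR⟩ := h {1}
  choose B hB using con_ind hsym hS
  set D := hA.toFinset with hD
  -- the points near the boundary
  let F : Finset Γ := D.biUnion fun d => R.biUnion fun g => (B g).image fun b => d * b⁻¹
  have hF : ∀ a g, g ∈ R → a ∈ A → a * g ∉ A → a ∈ F := by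
    intro a g hg ha hag
    obtain ⟨b, hb, y, hy1, hy2⟩ := hB g A a ha hag
    refine Finset.mem_biUnion.2 ⟨a * b, ?_, Finset.mem_biUnion.2 ⟨g, hg,
      Finset.mem_image.2 ⟨b, hb, by group⟩⟩⟩
    rw [hD, Set.Finite.mem_toFinset]
    exact ⟨y, hy1, hy2⟩
  obtain ⟨F', hF'⟩ := hR F
  by_contra hcon
  push Not at hcon
  obtain ⟨h1, h2⟩ := hcon
  obtain ⟨x, hx, hxF⟩ := Set.Infinite.exists_notMem_finset h1 F'
  obtain ⟨y, hy, hyF⟩ := Set.Infinite.exists_notMem_finset h2 F'
  obtain ⟨c, hc, hcs⟩ := hF' (Finsupp.single [x] 1 - Finsupp.single [y] 1) (by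
      rw [map_sub, bd_single, bd_single, bdL_one, bdL_one, sub_self]) (by
    rw [sup_iff]
    refine Submodule.sub_mem _ (single_mem_On ?_ 1) (single_mem_On ?_ 1)
    · refine ⟨rfl, ?_, ?_⟩
      · intro a ha b hb
        rw [List.mem_singleton] at ha hb
        rw [ha, hb]; simp
      · intro a ha
        rw [List.mem_singleton] at ha
        rw [ha]; exact hxF
    · refine ⟨rfl, ?_, ?_⟩
      · intro a ha b hb
        rw [List.mem_singleton] at ha hb
        rw [ha, hb]; simp
      · intro a ha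
        rw [List.mem_singleton] at ha
        rw [ha]; exact hyF)
  let u : List Γ → ZMod 2 := fun l => match l with
    | [a] => if a ∈ A then 1 else 0
    | _ => 0
  rw [sup_iff] at hcs
  have e1 : ext u (bd c) = 0 := by
    refine map_eq_of hcs (ext u ∘ₗ bd) 0 fun t ht => ?_
    obtain ⟨hlen, hsm, hout⟩ := ht
    rw [LinearMap.comp_apply, bd_single, one_smul, LinearMap.zero_apply]
    match t, hlen with
    | [a, b], _ =>
      rw [bdL_two, map_sub, Finsupp.linearCombination_single, Finsupp.linearCombination_single,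
        one_smul, one_smul]
      have hab : a ∈ A ↔ b ∈ A := by
        constructor
        · intro ha
          by_contra hb
          have h3 := hsm a (by simp) b (by simp)
          exact hout a (by simp) (hF a (a⁻¹ * b) h3 ha (by rwa [mul_inv_cancel_left]))
        · intro hb
          by_contra ha
          have h3 := hsm b (by simp) a (by simp)
          exact hout b (by simp) (hF b (b⁻¹ * a) h3 hb (by rwa [mul_inv_cancel_left]))
      simp only [u, hab]
      exact sub_self _
  rw [hc, map_sub, Finsupp.linearCombination_single, Finsupp.linearCombination_single] at e1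
  simp only [u, one_smul, if_pos hx] at e1
  rw [if_neg (show y ∉ A from hy), sub_zero] at e1
  exact one_ne_zero e1

/-! ### The second cohomology -/

/-- a cochain as a function of lists -/
def lift3 (b : Γ → Γ → Γ → ZMod 2) : List Γ → ZMod 2
  | [x, y, z] => b x y z
  | _ => 0

theorem bdL_three (x y z : Γ) : bdL (ZMod 2) [x, y, z] =
    Finsupp.single [y, z] 1 - (Finsupp.single [x, z] 1 - Finsupp.single [x, y] 1) := by
  rw [bdL, bdL_two, map_sub, cone_single, cone_single]

theorem bdL_four (x y z w : Γ) : bdL (ZMod 2) [x, y, z, w] =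
    Finsupp.single [y, z, w] 1 - (Finsupp.single [x, z, w] 1 -
      (Finsupp.single [x, y, w] 1 - Finsupp.single [x, y, z] 1)) := by
  rw [bdL, bdL_three, map_sub, map_sub, cone_single, cone_single, cone_single]

theorem SmG.mono {S T : Finset Γ} (h : S ⊆ T) {l : List Γ} (hl : SmG S l) : SmG T l :=
  fun x hx y hy => h (hl x hx y hy)

/-- The second cohomology with finite supports vanishes. -/
theorem h2Fill_of (hp : CPushS Γ 2) (hf2 : CFillS (ZMod 2) Γ 2) (hf3 : CFillS (ZMod 2) Γ 3)
    (S : Finset Γ) : ∃ T₀ : Finset Γ, ∀ T : Finset Γ, T₀ ⊆ T → F.H2Fill S T := by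
  classical
  let S' : Finset Γ := insert 1 (S ∪ S.image fun g => g⁻¹)
  have hS' : ∀ x y : Γ, x⁻¹ * y ∈ S → x⁻¹ * y ∈ S' ∧ y⁻¹ * x ∈ S' := by
    intro x y h
    refine ⟨by simp [S', h], ?_⟩
    have : y⁻¹ * x = (x⁻¹ * y)⁻¹ := by group
    rw [this]
    refine Finset.mem_insert_of_mem (Finset.mem_union_right _ (Finset.mem_image.2 ⟨_, h, rfl⟩))
  have h1S' : (1 : Γ) ∈ S' := by simp [S']
  obtain ⟨R₁, hSR₁, hR₁⟩ := hf2 S'
  obtain ⟨R₃, hSR₃, hR₃⟩ := hp S'
  set R := R₁ ∪ R₃ with hR
  obtain ⟨T₀, hRT, hT₀⟩ := hf3 R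
  refine ⟨T₀, fun T hT b hb hcoc => ?_⟩
  let B : Ch (ZMod 2) Γ →ₗ[ZMod 2] ZMod 2 := ext (lift3 b)
  have h1T : (1 : Γ) ∈ T := hT (hRT (Finset.mem_union_left _ (hSR₁ h1S')))
  -- `B` vanishes on small cycles
  have hB0 : ∀ z : Ch (ZMod 2) Γ, bd z = 0 → Sup (fun l => l.length = 3 ∧ SmG R l) z → B z = 0 := by
    intro z hz hzs
    obtain ⟨w, hw, hws⟩ := hT₀ z hz hzs
    rw [← hw]
    rw [sup_iff] at hws
    refine map_eq_of hws (B ∘ₗ bd) 0 fun t ht => ?_
    obtain ⟨hlen, hsm⟩ := ht
    rw [LinearMap.comp_apply, bd_single, one_smul, LinearMap.zero_apply]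
    match t, hlen with
    | [x, y, z, w], _ =>
      rw [bdL_four]
      simp only [B, map_sub, Finsupp.linearCombination_single, one_smul, lift3]
      have h := hcoc x y z w (hT (hsm x (by simp) y (by simp))) (hT (hsm x (by simp) z (by simp)))
        (hT (hsm x (by simp) w (by simp))) (hT (hsm y (by simp) z (by simp)))
        (hT (hsm y (by simp) w (by simp))) (hT (hsm z (by simp) w (by simp)))
      simp only [sub_eq_add_neg, CharTwo.neg_eq]
      rw [← h]; ring
  -- vertices of the support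
  let F : Finset Γ := hb.toFinset.image (fun p => p.1)
  have hF : ∀ x y z, x ∉ F → b x y z = 0 := by
    intro x y z hx
    by_contra h
    exact hx (Finset.mem_image.2 ⟨(x, y, z), by
      rw [Set.Finite.mem_toFinset]; exact h, rfl⟩)
  obtain ⟨F', hF'⟩ := hR₃ F
  -- spaces of cycles and of chains off `F'`
  let P : List Γ → Prop := fun l => l.length = 2 ∧ SmG S' l
  let Z : Submodule (ZMod 2) (Ch (ZMod 2) Γ) := LinearMap.ker bd ⊓ On P
  let O : Submodule (ZMod 2) (Ch (ZMod 2) Γ) := On (fun l => P l ∧ In {x | x ∉ F'} l)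
  -- the functional on cycles
  have hex : ∀ z : Z, ∃ w : Ch (ZMod 2) Γ, bd w = z ∧ w ∈ (On (fun l => l.length = 3 ∧ SmG R l) :
      Submodule (ZMod 2) (Ch (ZMod 2) Γ)) := by
    intro z
    obtain ⟨w, hw, hws⟩ := hR₁ z.1 z.2.1 (sup_iff.2 z.2.2)
    exact ⟨w, hw, sup_iff.1 fun l hl => ⟨(hws l hl).1, SmG.mono Finset.subset_union_left (hws l hl).2⟩⟩
  have hval : ∀ w w' : Ch (ZMod 2) Γ, w ∈ (On (fun l => l.length = 3 ∧ SmG R l) :
      Submodule (ZMod 2) (Ch (ZMod 2) Γ)) → w' ∈ (On (fun l => l.length = 3 ∧ SmG R l) :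
      Submodule (ZMod 2) (Ch (ZMod 2) Γ)) → bd w = bd w' → B w = B w' := by
    intro w w' hw hw' h
    have := hB0 (w - w') (by rw [map_sub, h, sub_self]) (sup_iff.2 (Submodule.sub_mem _ hw hw'))
    rwa [map_sub, sub_eq_zero] at this
  choose W hW hWs using hex
  let lam : Z →ₗ[ZMod 2] ZMod 2 :=
    { toFun := fun z => B (W z)
      map_add' := fun z z' => by
        rw [← map_add]
        refine hval _ _ (hWs _) (Submodule.add_mem _ (hWs _) (hWs _)) ?_
        rw [hW, map_add, hW, hW]; rfl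
      map_smul' := fun a z => by
        rw [RingHom.id_apply, ← map_smul]
        refine hval _ _ (hWs _) (Submodule.smul_mem _ _ (hWs _)) ?_
        rw [hW, map_smul, hW]; rfl }
  have hlam : ∀ (z : Z) (w : Ch (ZMod 2) Γ), w ∈ (On (fun l => l.length = 3 ∧ SmG R l) :
      Submodule (ZMod 2) (Ch (ZMod 2) Γ)) → bd w = z → lam z = B w := fun z w hw h =>
    hval _ _ (hWs _) hw (by rw [hW, h])
  -- vanishing off `F'`
  have hlam0 : ∀ z : Z, (z : Ch (ZMod 2) Γ) ∈ O → lam z = 0 := by
    intro z hz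
    obtain ⟨w, hw, hws⟩ := hF' z.1 z.2.1 (sup_iff.2 (Vale.Agent.P239.TF.On_mono
      (fun t ht => ⟨ht.1.1, ht.1.2, ht.2⟩) hz))
    rw [sup_iff] at hws
    rw [hlam z w (Vale.Agent.P239.TF.On_mono (fun t ht => ⟨ht.1, SmG.mono
      Finset.subset_union_right ht.2.1⟩) hws) hw]
    refine map_eq_of hws B 0 fun t ht => ?_
    obtain ⟨hlen, -, hout⟩ := ht
    match t, hlen with
    | [x, y, z], _ =>
      simp only [B, Finsupp.linearCombination_single, one_smul, lift3, LinearMap.zero_apply]
      exact hF x y z (hout x (by simp))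
  -- extension
  obtain ⟨Λ, hΛZ, hΛO⟩ : ∃ Λ : Ch (ZMod 2) Γ →ₗ[ZMod 2] ZMod 2,
      (∀ z : Z, Λ z = lam z) ∧ ∀ c ∈ O, Λ c = 0 := by
    -- the functional induced on the image of `Z` in the quotient by `O`
    let q : Z →ₗ[ZMod 2] (Ch (ZMod 2) Γ ⧸ O) := O.mkQ ∘ₗ Z.subtype
    have hker : LinearMap.ker q ≤ LinearMap.ker lam := by
      intro z hz
      have h1 : O.mkQ (z : Ch (ZMod 2) Γ) = 0 := hz
      rw [Submodule.mkQ_apply, Submodule.Quotient.mk_eq_zero] at h1
      exact hlam0 z h1
    let f : LinearMap.range q →ₗ[ZMod 2] ZMod 2 :=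
      ((LinearMap.ker q).liftQ lam hker).comp q.quotKerEquivRange.symm.toLinearMap
    obtain ⟨μ, hμ⟩ := LinearMap.exists_extend f
    refine ⟨μ ∘ₗ O.mkQ, fun z => ?_, fun c hc => ?_⟩
    · have h2 : μ (q z) = f ⟨q z, LinearMap.mem_range_self q z⟩ :=
        LinearMap.congr_fun hμ ⟨q z, LinearMap.mem_range_self q z⟩
      have h3 : (μ ∘ₗ O.mkQ) (z : Ch (ZMod 2) Γ) = μ (q z) := rfl
      rw [h3, h2]
      have h4 : q.quotKerEquivRange.symm ⟨q z, LinearMap.mem_range_self q z⟩ =
          Submodule.Quotient.mk z := by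
        rw [LinearEquiv.symm_apply_eq]
        rfl
      change (LinearMap.ker q).liftQ lam hker
        (q.quotKerEquivRange.symm ⟨q z, LinearMap.mem_range_self q z⟩) = lam z
      rw [h4]
      rfl
    · rw [LinearMap.comp_apply]
      have : O.mkQ c = 0 := by rw [Submodule.mkQ_apply, Submodule.Quotient.mk_eq_zero]; exact hc
      rw [this, map_zero]
  refine ⟨fun x y => if SmG S' [x, y] then Λ (Finsupp.single [x, y] 1) else 0, ?_, ?_⟩
  · -- finite support
    refine ((F' ×ˢ S').image (fun p => (p.1, p.1 * p.2)) ∪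
      (F' ×ˢ S').image (fun p => (p.1 * p.2, p.1))).finite_toSet.subset ?_
    rintro ⟨x, y⟩ hxy
    simp only [Set.mem_ofPred_eq] at hxy
    by_cases hsm : SmG S' [x, y]
    · rw [if_pos hsm] at hxy
      rw [Finset.coe_union]
      by_cases hx : x ∈ F'
      · left
        refine Finset.mem_coe.2 (Finset.mem_image.2 ⟨(x, x⁻¹ * y), Finset.mem_product.2
          ⟨hx, hsm x (by simp) y (by simp)⟩, by simp⟩)
      · by_cases hy : y ∈ F'
        · right
          refine Finset.mem_coe.2 (Finset.mem_image.2 ⟨(y, y⁻¹ * x), Finset.mem_product.2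
            ⟨hy, hsm y (by simp) x (by simp)⟩, by simp⟩)
        · exfalso
          apply hxy
          refine hΛO _ (single_mem_On ⟨⟨rfl, hsm⟩, ?_⟩ 1)
          intro a ha
          rcases List.mem_cons.1 ha with rfl | ha
          · exact hx
          · rw [List.mem_singleton] at ha
            rw [ha]; exact hy
    · rw [if_neg hsm] at hxy
      exact absurd rfl hxy
  · intro x y z hxy hyz hxz
    have hsm : SmG S' [x, y, z] := by
      have e : ∀ a : Γ, a⁻¹ * a ∈ S' := fun a => by rw [inv_mul_cancel]; exact h1S'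
      have e1 := hS' x y hxy
      have e2 := hS' y z hyz
      have e3 := hS' x z hxz
      intro a ha b hb
      simp only [List.mem_cons, List.not_mem_nil, or_false] at ha hb
      rcases ha with rfl | rfl | rfl <;> rcases hb with rfl | rfl | rfl
      · exact e _
      · exact e1.1
      · exact e3.1
      · exact e1.2
      · exact e _
      · exact e2.1
      · exact e3.2
      · exact e2.2
      · exact e _
    have hsub : ∀ a b : Γ, a ∈ [x, y, z] → b ∈ [x, y, z] → SmG S' [a, b] := by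
      intro a b ha hb u hu v hv
      simp only [List.mem_cons, List.not_mem_nil, or_false] at hu hv
      refine hsm u ?_ v ?_
      · rcases hu with rfl | rfl <;> assumption
      · rcases hv with rfl | rfl <;> assumption
    have hbd : bd (Finsupp.single [x, y, z] (1 : ZMod 2)) = bdL (ZMod 2) [x, y, z] := by
      rw [bd_single, one_smul]
    have hZ : bdL (ZMod 2) [x, y, z] ∈ Z := by
      refine ⟨LinearMap.mem_ker.2 (bd_bdL _), ?_⟩
      rw [bdL_three]
      refine Submodule.sub_mem _ (single_mem_On ⟨rfl, hsub _ _ (by simp) (by simp)⟩ 1)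
        (Submodule.sub_mem _ (single_mem_On ⟨rfl, hsub _ _ (by simp) (by simp)⟩ 1)
          (single_mem_On ⟨rfl, hsub _ _ (by simp) (by simp)⟩ 1))
    have h1 : lam ⟨_, hZ⟩ = B (Finsupp.single [x, y, z] 1) :=
      hlam ⟨_, hZ⟩ _ (single_mem_On ⟨rfl, SmG.mono (hSR₁.trans Finset.subset_union_left) hsm⟩ 1) hbd
    have h2 : B (Finsupp.single [x, y, z] 1) = b x y z := by
      simp only [B, Finsupp.linearCombination_single, one_smul, lift3]
    rw [← h2, ← h1, ← hΛZ]
    simp only [hsub x y (by simp) (by simp), hsub y z (by simp) (by simp),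
      hsub x z (by simp) (by simp), if_true, bdL_three, map_sub]
    simp only [sub_eq_add_neg, CharTwo.neg_eq]
    ring

end Vale.Agent.P239.M.Out
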