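import Vale.Agent.P239.S.M_Htp

/-!
Cycles far from a compact set bound far from it (M13).
-/

namespace Vale.Agent.P239.M.Push

open Metric Set Vale.Agent.P239.M

variable {X : Type*} [MetricSpace X]

theorem sm_mono {ε δ : ℝ} (h : δ ≤ ε) {l : List X} (hl : Sm δ l) : Sm ε l :=
  fun x hx y hy => (hl x hx y hy).trans_le h

omit [MetricSpace X] in
theorem in_mono {A B : Set X} (h : A ⊆ B) {l : List X} (hl : In A l) : In B l :=
  fun x hx => h (hl x hx)

omit [MetricSpace X] in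
theorem in_sublist {A : Set X} {l m : List X} (h : m.Sublist l) (hl : In A l) : In A m :=
  fun x hx => hl x (h.subset hx)

theorem sm_sublist {ε : ℝ} {l m : List X} (h : m.Sublist l) (hl : Sm ε l) : Sm ε m :=
  fun x hx y hy => hl x (h.subset hx) y (h.subset hy)

/-- **(M13)** -/
theorem pushS {i : ℕ} (hF : FillS (ZMod 2) X) (hR : RelS X i) : PushS X i := by
  classical
  intro K hK
  obtain ⟨K', N, N', hK', hN, hN', hKK', hK'N, hNN', hrel⟩ := hR K hK
  refine ⟨K', hK', fun A hA => ?_⟩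
  obtain ⟨A1, hA1, hAA1, hfill⟩ := hF A hA
  refine ⟨A1 ∪ N', hA1.union hN', fun ε hε => ?_⟩
  obtain ⟨κ, hκ, hrel⟩ := hrel ε hε
  -- distance between `K'` and the complement of `N`
  obtain ⟨η, hη, hηN⟩ := hK'.exists_thickening_subset_open isOpen_interior hK'N
  set δ := min (min κ ε) η with hδdef
  have hδ : 0 < δ := lt_min (lt_min hκ hε) hη
  obtain ⟨κ1, hκ1, hfill⟩ := hfill δ hδ
  refine ⟨κ1, hκ1, fun z hz hzs => ?_⟩
  obtain ⟨c0, hc0, hc0s⟩ := hfill i z hz (hzs.mono fun l hl => ⟨hl.1, hl.2.1, hl.2.2.1⟩)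
  set v : Ch (ZMod 2) X := c0.filter (In N) with hv
  set c1 : Ch (ZMod 2) X := c0.filter (fun l => ¬ In N l) with hc1
  have hsum : v + c1 = c0 := Finsupp.filter_add_filter_not c0 (In N)
  have hvs : Sup (fun l => (l.length = i + 1 ∧ Sm δ l ∧ In A1 l) ∧ In N l) v := by
    intro l hl
    rw [hv, Finsupp.support_filter, Finset.mem_filter] at hl
    exact ⟨hc0s l hl.1, hl.2⟩
  have hc1s : Sup (fun l => (l.length = i + 1 ∧ Sm δ l ∧ In A1 l) ∧ In K'ᶜ l) c1 := by
    intro l hl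
    rw [hc1, Finsupp.support_filter, Finset.mem_filter] at hl
    refine ⟨hc0s l hl.1, fun x hx hxK => hl.2 fun y hy => interior_subset (hηN ?_)⟩
    rw [mem_thickening_iff]
    exact ⟨x, hxK, ((hc0s l hl.1).2.1 y hy x hx).trans_le (min_le_right _ _)⟩
  have hbd : bd v = z - bd c1 := by
    rw [← hc0, ← hsum, map_add]; abel
  have hbv : Sup (In K'ᶜ) (bd v) := by
    rw [hbd]
    refine Sup.sub (hzs.mono fun l hl => hl.2.2.2) ?_
    exact hc1s.bd fun l hl m hm _ => in_sublist hm hl.2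
  obtain ⟨e, cm, hve, hes, hcm⟩ := hrel v
    (hvs.mono fun l hl => ⟨hl.1.1, sm_mono ((min_le_left _ _).trans (min_le_left _ _)) hl.1.2.1,
      hl.2⟩) hbv
  refine ⟨cm + c1, ?_, ?_⟩
  · have h1 : bd (v + c1) = z := by rw [hsum, hc0]
    rw [hve, map_add, map_add, bd_bd, zero_add] at h1
    rw [map_add, h1]
  · refine Sup.add (hcm.mono fun l hl => ⟨hl.1, hl.2.1, in_mono subset_union_right hl.2.2.1,
      hl.2.2.2⟩) (hc1s.mono fun l hl => ⟨hl.1.1,
        sm_mono ((min_le_left _ _).trans (min_le_right _ _)) hl.1.2.1,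
        in_mono subset_union_left hl.1.2.2, ?_⟩)
    exact in_mono (compl_subset_compl.2 hKK') hl.2

end Vale.Agent.P239.M.Push
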