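import Vale.Agent.P239.S.M_Defs

/-!
Module M, block M12: auxiliary lemmas on list chains (own copies, namespace `Rel`).
-/

namespace Vale.Agent.P239.M.Rel

open Vale.Agent.P239.M

section Gen

variable {k : Type*} [CommRing k] {X Y Z : Type*}

theorem ext_def {M : Type*} [AddCommGroup M] [Module k M] (u : List X → M) (c : Ch k X) :
    ext u c = c.sum fun l r => r • u l := rfl

theorem ext_congr {M : Type*} [AddCommGroup M] [Module k M] {u v : List X → M} {c : Ch k X}
    (h : ∀ l ∈ c.support, u l = v l) : ext u c = ext v c := by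
  rw [ext_def, ext_def]
  exact Finset.sum_congr rfl fun l hl => by simp only [h l hl]

theorem ext_single {M : Type*} [AddCommGroup M] [Module k M] (u : List X → M) (l : List X)
    (r : k) : ext u (Finsupp.single l r) = r • u l := by
  simp [Finsupp.linearCombination_single]

theorem map_ext {M N : Type*} [AddCommGroup M] [Module k M] [AddCommGroup N] [Module k N]
    (f : M →ₗ[k] N) (u : List X → M) (c : Ch k X) : f (ext u c) = ext (fun l => f (u l)) c := by
  rw [ext_def, ext_def, Finsupp.sum, map_sum]
  exact Finset.sum_congr rfl fun l _ => by rw [map_smul]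

theorem ext_ext {M : Type*} [AddCommGroup M] [Module k M] (v : List Y → M) (u : List X → Ch k Y)
    (c : Ch k X) : ext v (ext u c) = ext (fun l => ext v (u l)) c :=
  map_ext (ext v) u c

theorem ext_add_fun {M : Type*} [AddCommGroup M] [Module k M] (u v : List X → M) (c : Ch k X) :
    ext (fun l => u l + v l) c = ext u c + ext v c := by
  rw [ext_def, ext_def, ext_def, ← Finsupp.sum_add]
  exact Finset.sum_congr rfl fun l _ => by simp only [smul_add]

theorem ext_sub_fun {M : Type*} [AddCommGroup M] [Module k M] (u v : List X → M) (c : Ch k X) :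
    ext (fun l => u l - v l) c = ext u c - ext v c := by
  rw [ext_def, ext_def, ext_def, ← Finsupp.sum_sub]
  exact Finset.sum_congr rfl fun l _ => by simp only [smul_sub]

theorem ext_zero_fun {M : Type*} [AddCommGroup M] [Module k M] (c : Ch k X) :
    ext (fun _ : List X => (0 : M)) c = 0 := by
  rw [ext_def]; exact Finset.sum_eq_zero fun l _ => by simp only [smul_zero]

/-- exchanging two sums -/
theorem ext_swap {M : Type*} [AddCommGroup M] [Module k M] (u : List X → List Y → M)
    (c : Ch k X) (d : Ch k Y) :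
    ext (fun l => ext (u l) d) c = ext (fun m => ext (fun l => u l m) c) d := by
  simp only [ext_def, Finsupp.sum, Finset.smul_sum]
  rw [Finset.sum_comm]
  exact Finset.sum_congr rfl fun l _ => Finset.sum_congr rfl fun m _ => smul_comm _ _ _

theorem bd_eq_ext (c : Ch k X) : bd c = ext (bdL k) c := rfl

/-! #### supports -/

theorem sup_zero (P : List X → Prop) : Sup P (0 : Ch k X) := by
  intro l hl; simp at hl

theorem sup_single {P : List X → Prop} {l : List X} (h : P l) (r : k) :
    Sup P (Finsupp.single l r) := by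
  intro m hm
  have := Finsupp.support_single_subset hm
  rw [Finset.mem_singleton] at this
  rw [this]; exact h

theorem sup_add {P : List X → Prop} {c d : Ch k X} (hc : Sup P c) (hd : Sup P d) :
    Sup P (c + d) := by
  classical
  intro l hl
  rcases Finset.mem_union.1 (Finsupp.support_add hl) with h | h
  · exact hc l h
  · exact hd l h

theorem sup_neg {P : List X → Prop} {c : Ch k X} (hc : Sup P c) : Sup P (-c) := by
  intro l hl
  rw [Finsupp.support_neg] at hl
  exact hc l hl

theorem sup_sub {P : List X → Prop} {c d : Ch k X} (hc : Sup P c) (hd : Sup P d) :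
    Sup P (c - d) := by
  rw [sub_eq_add_neg]; exact sup_add hc (sup_neg hd)

theorem sup_smul {P : List X → Prop} {c : Ch k X} (r : k) (hc : Sup P c) : Sup P (r • c) := by
  intro l hl
  exact hc l (Finsupp.support_smul hl)

theorem sup_sum {ι : Type*} {P : List X → Prop} {s : Finset ι} {c : ι → Ch k X}
    (h : ∀ i ∈ s, Sup P (c i)) : Sup P (∑ i ∈ s, c i) := by
  classical
  induction s using Finset.induction_on with
  | empty => rw [Finset.sum_empty]; exact sup_zero P
  | insert a s ha ih =>
    rw [Finset.sum_insert ha]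
    exact sup_add (h a (Finset.mem_insert_self _ _))
      (ih fun i hi => h i (Finset.mem_insert_of_mem hi))

theorem sup_ext {P : List Y → Prop} {u : List X → Ch k Y} {c : Ch k X}
    (h : ∀ l ∈ c.support, Sup P (u l)) : Sup P (ext u c) := by
  rw [ext_def]
  exact sup_sum fun l hl => sup_smul _ (h l hl)

theorem sup_mono {P Q : List X → Prop} {c : Ch k X} (h : ∀ l, P l → Q l) (hc : Sup P c) :
    Sup Q c := fun l hl => h l (hc l hl)

theorem sup_and {P Q : List X → Prop} {c : Ch k X} (hP : Sup P c) (hQ : Sup Q c) :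
    Sup (fun l => P l ∧ Q l) c := fun l hl => ⟨hP l hl, hQ l hl⟩

theorem sup_cone {P : List X → Prop} {x : X} {c : Ch k X} (h : Sup (fun l => P (x :: l)) c) :
    Sup P (cone x c) := by
  classical
  intro l hl
  rw [cone, Finsupp.lmapDomain_apply] at hl
  have := Finsupp.mapDomain_support hl
  rw [Finset.mem_image] at this
  obtain ⟨m, hm, rfl⟩ := this
  exact h m hm

theorem sup_pf {P : List Y → Prop} {f : X → Y} {c : Ch k X} (h : Sup (fun l => P (l.map f)) c) :
    Sup P (pf f c) := by
  classical
  intro l hl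
  rw [pf, Finsupp.lmapDomain_apply] at hl
  have := Finsupp.mapDomain_support hl
  rw [Finset.mem_image] at this
  obtain ⟨m, hm, rfl⟩ := this
  exact h m hm

theorem sup_bdL (l : List X) :
    Sup (fun m => m.Sublist l ∧ m.length + 1 = l.length) (bdL k l) := by
  induction l with
  | nil => rw [bdL]; exact sup_zero _
  | cons x l ih =>
    rw [bdL]
    refine sup_sub (sup_single ⟨List.sublist_cons_self _ _, by simp⟩ 1) (sup_cone ?_)
    intro m hm
    obtain ⟨h1, h2⟩ := ih m hm
    exact ⟨List.Sublist.cons_cons x h1, by simp [h2]⟩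

/-- every list of `bd c` is a face of a list of `c` -/
theorem sup_bd (c : Ch k X) :
    Sup (fun m => ∃ l ∈ c.support, m.Sublist l ∧ m.length + 1 = l.length) (bd c) := by
  rw [bd_eq_ext]
  refine sup_ext fun l hl => ?_
  exact sup_mono (fun m hm => ⟨l, hl, hm⟩) (sup_bdL l)

theorem sup_prL (f g : X → Y) (l : List X) :
    Sup (fun m => m.length = l.length + 1 ∧ ∀ y ∈ m, ∃ x ∈ l, y = f x ∨ y = g x)
      (prL k f g l) := by
  induction l with
  | nil => rw [prL]; exact sup_zero _
  | cons x l ih =>
    rw [prL]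
    have h1 : Sup (fun m => m.length = (x :: l).length + 1 ∧
        ∀ y ∈ m, ∃ z ∈ x :: l, y = f z ∨ y = g z)
        (Finsupp.single (f x :: g x :: l.map g) (1 : k)) := by
      refine sup_single ⟨by simp, ?_⟩ 1
      intro y hy
      simp only [List.mem_cons, List.mem_map] at hy
      rcases hy with rfl | rfl | ⟨z, hz, rfl⟩
      · exact ⟨x, by simp, Or.inl rfl⟩
      · exact ⟨x, by simp, Or.inr rfl⟩
      · exact ⟨z, by simp [hz], Or.inr rfl⟩
    refine sup_sub h1 (sup_cone ?_)
    intro m hm
    obtain ⟨h1, h2⟩ := ih m hm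
    refine ⟨by simp [h1], fun y hy => ?_⟩
    rw [List.mem_cons] at hy
    rcases hy with rfl | hy
    · exact ⟨x, by simp, Or.inl rfl⟩
    · obtain ⟨z, hz, h⟩ := h2 y hy
      exact ⟨z, by simp [hz], h⟩

/-! #### the coning homotopy -/

variable (ξ : List X → X) (Φ : List X → Ch k X)

theorem htp_succ (l : List X) {m : ℕ} (hm : l.length = m + 1) :
    htp ξ Φ l = cone (ξ l) (Finsupp.single l 1 - Φ l - ext (htp ξ Φ) (bdL k l)) := by
  rw [htp, hm, htpN]
  congr 2
  refine ext_congr fun l' hl' => ?_
  have := (sup_bdL l l' hl').2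
  rw [htp]
  congr 1
  omega

theorem htp_nil : htp ξ Φ ([] : List X) = 0 := rfl

variable {ξ Φ}

theorem bd_htp {P : List X → Prop} (hP : ∀ l l', P l → l'.Sublist l → P l')
    (h0 : Φ [] = Finsupp.single [] 1) (hΦ : ∀ l, P l → bd (Φ l) = ext Φ (bdL k l)) :
    ∀ (m : ℕ) (l : List X), l.length = m → P l →
      bd (htp ξ Φ l) + ext (htp ξ Φ) (bdL k l) = Finsupp.single l 1 - Φ l := by
  intro m
  induction m with
  | zero =>
    intro l hl _
    rw [List.length_eq_zero_iff] at hl
    subst hl
    rw [htp_nil, h0, bdL]; simp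
  | succ m ih =>
    intro l hl hPl
    have e1 : bd (ext (htp ξ Φ) (bdL k l)) = bdL k l - ext Φ (bdL k l) := by
      rw [bd_eq_ext, ext_ext]
      have : ext (fun l' => ext (bdL k) (htp ξ Φ l')) (bdL k l) =
          ext (fun l' => Finsupp.single l' 1 - Φ l' - ext (htp ξ Φ) (bdL k l')) (bdL k l) := by
        refine ext_congr fun l' hl' => ?_
        obtain ⟨hs, hlen⟩ := sup_bdL l l' hl'
        have := ih l' (by omega) (hP l l' hPl hs)
        rw [← this, bd_eq_ext]; abel
      rw [this, ext_sub_fun, ext_sub_fun]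
      have e2 : ext (fun l' => Finsupp.single l' (1 : k)) (bdL k l) = bdL k l := by
        rw [ext_def]; simp
      have e3 : ext (fun l' => ext (htp ξ Φ) (bdL k l')) (bdL k l) = 0 := by
        rw [← ext_ext, ← bd_eq_ext, bd_bdL, map_zero]
      rw [e2, e3, sub_zero]
    rw [htp_succ ξ Φ l hl, bd_cone]
    have e4 : bd (Finsupp.single l 1 - Φ l - ext (htp ξ Φ) (bdL k l)) = 0 := by
      rw [map_sub, map_sub, bd_single, one_smul, hΦ l hPl, e1]; abel
    rw [e4, map_zero, sub_zero]; abel

theorem sup_htp {P : List X → Prop} (hP : ∀ l l', P l → l'.Sublist l → P l')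
    {R : List X → Set X} (hR : ∀ l l', l'.Sublist l → R l' ⊆ R l) (hl : ∀ l, ∀ x ∈ l, x ∈ R l)
    (hξ : ∀ l, l ≠ [] → ξ l ∈ R l)
    (hΦ : ∀ l, P l → Sup (fun m => m.length = l.length ∧ ∀ x ∈ m, x ∈ R l) (Φ l)) :
    ∀ (m : ℕ) (l : List X), l.length = m → P l →
      Sup (fun m => m.length = l.length + 1 ∧ ∀ x ∈ m, x ∈ R l) (htp ξ Φ l) := by
  intro m
  induction m with
  | zero =>
    intro l hl _
    rw [List.length_eq_zero_iff] at hl
    subst hl
    rw [htp_nil]; exact sup_zero _
  | succ m ih =>
    intro l hlen hPl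
    have hne : l ≠ [] := by rintro rfl; simp at hlen
    rw [htp_succ ξ Φ l hlen]
    refine sup_cone ?_
    have key : Sup (fun m => m.length = l.length ∧ ∀ x ∈ m, x ∈ R l)
        (Finsupp.single l 1 - Φ l - ext (htp ξ Φ) (bdL k l)) := by
      refine sup_sub (sup_sub (sup_single ⟨rfl, hl l⟩ 1) (hΦ l hPl)) (sup_ext fun l' hl' => ?_)
      obtain ⟨hs, hlen'⟩ := sup_bdL l l' hl'
      refine sup_mono ?_ (ih l' (by omega) (hP l l' hPl hs))
      rintro m ⟨h1, h2⟩
      exact ⟨by omega, fun x hx => hR l l' hs (h2 x hx)⟩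
    refine sup_mono ?_ key
    rintro m ⟨h1, h2⟩
    refine ⟨by simp [h1], fun x hx => ?_⟩
    rw [List.mem_cons] at hx
    rcases hx with rfl | hx
    · exact hξ l hne
    · exact h2 x hx

end Gen

end Vale.Agent.P239.M.Rel
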