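import Vale.Agent.P239.S.M_Rel0

/-!
Module M, block M12: the splitting operator and the cap product (own copies, namespace `Rel`).
-/

namespace Vale.Agent.P239.M.Rel

open Vale.Agent.P239.M

section Sp

variable {X A B : Type*} [AddCommGroup A] [AddCommGroup B]

theorem sp_nil (F : List X → List X → A) : sp F [] = 0 := rfl

theorem sp_cons (F : List X → List X → A) (x : X) (l : List X) :
    sp F (x :: l) = F [x] (x :: l) + sp (fun p s => F (x :: p) s) l := rfl

/-- `p, s` is a splitting of `l` (with common middle vertex). -/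
def Spl (l p s : List X) : Prop :=
  ∃ (a b : List X) (x : X), l = a ++ x :: b ∧ p = a ++ [x] ∧ s = x :: b

theorem sp_congr {F G : List X → List X → A} : ∀ {l : List X},
    (∀ p s, Spl l p s → F p s = G p s) → sp F l = sp G l := by
  intro l
  induction l generalizing F G with
  | nil => intro _; rfl
  | cons x l ih =>
    intro h
    rw [sp_cons, sp_cons, h [x] (x :: l) ⟨[], l, x, rfl, rfl, rfl⟩]
    congr 1
    refine ih fun p s hs => ?_
    obtain ⟨a, b, y, rfl, rfl, rfl⟩ := hs
    exact h _ _ ⟨x :: a, b, y, rfl, rfl, rfl⟩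

theorem sp_add (F G : List X → List X → A) (l : List X) :
    sp (fun p s => F p s + G p s) l = sp F l + sp G l := by
  induction l generalizing F G with
  | nil => simp [sp_nil]
  | cons x l ih => rw [sp_cons, sp_cons, sp_cons, ih]; abel

theorem sp_map (f : A →+ B) (F : List X → List X → A) (l : List X) :
    f (sp F l) = sp (fun p s => f (F p s)) l := by
  induction l generalizing F with
  | nil => rw [sp_nil, sp_nil, map_zero]
  | cons x l ih => rw [sp_cons, sp_cons, map_add, ih]

theorem sp_zero (l : List X) : sp (fun _ _ => (0 : A)) l = 0 := by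
  induction l with
  | nil => rfl
  | cons x l ih => rw [sp_cons, ih, add_zero]

theorem Spl.sublist_left {l p s : List X} (h : Spl l p s) : p.Sublist l := by
  obtain ⟨a, b, x, rfl, rfl, rfl⟩ := h
  exact List.Sublist.append (List.Sublist.refl a)
    (by rw [List.singleton_sublist]; exact List.mem_cons_self)

theorem Spl.sublist_right {l p s : List X} (h : Spl l p s) : s.Sublist l := by
  obtain ⟨a, b, x, rfl, rfl, rfl⟩ := h
  exact List.sublist_append_right _ _

theorem Spl.length {l p s : List X} (h : Spl l p s) : p.length + s.length = l.length + 1 := by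
  obtain ⟨a, b, x, rfl, rfl, rfl⟩ := h
  simp; omega

theorem Spl.mid {l p s : List X} (h : Spl l p s) : ∃ x, x ∈ p ∧ x ∈ s := by
  obtain ⟨a, b, x, rfl, rfl, rfl⟩ := h
  exact ⟨x, by simp, by simp⟩

variable [Module (ZMod 2) A]

theorem two_zero (a : A) : a + a = 0 := by
  have h : ((1 : ZMod 2) + 1) • a = 0 := by
    rw [show (1 : ZMod 2) + 1 = 0 from rfl, zero_smul]
  rwa [add_smul, one_smul] at h

/-- Leibniz rule for the splitting operator. -/
theorem ext_sp_bdL (F : List X → List X → A) (l : List X) :
    ext (sp F) (bdL (ZMod 2) l) =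
      sp (fun p s => ext (fun p' => F p' s) (bdL (ZMod 2) p) +
        ext (fun s' => F p s') (bdL (ZMod 2) s)) l + F [] l + F l [] := by
  induction l generalizing F with
  | nil => rw [bdL, map_zero, sp_nil, zero_add, two_zero]
  | cons x l ih =>
    have hc : ∀ (u : List X → A) (c : Ch (ZMod 2) X),
        ext u (cone x c) = ext (fun l => u (x :: l)) c := by
      intro u c
      induction c using Finsupp.induction_linear with
      | zero => simp
      | add a b ha hb => rw [map_add, map_add, ha, hb, map_add]
      | single l r => rw [cone_single, ext_single, ext_single]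
    have hcons : ∀ (u : List X → A) (m : List X), ext u (bdL (ZMod 2) (x :: m)) =
        u m + ext (fun l => u (x :: l)) (bdL (ZMod 2) m) := by
      intro u m
      rw [bdL, map_sub, ext_single, one_smul, hc, sub_eq_add_neg,
        neg_eq_of_add_eq_zero_left (two_zero _)]
    rw [hcons, sp_cons]
    have e1 : ext (fun l => sp F (x :: l)) (bdL (ZMod 2) l) =
        ext (fun m => F [x] (x :: m)) (bdL (ZMod 2) l) +
          ext (sp fun p s => F (x :: p) s) (bdL (ZMod 2) l) := by
      rw [← ext_add_fun]; rfl
    rw [e1, ih]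
    have e2 : sp (fun p s => ext (fun p' => F p' s) (bdL (ZMod 2) (x :: p)) +
          ext (fun s' => F (x :: p) s') (bdL (ZMod 2) s)) l =
        sp F l + sp (fun p s => ext (fun p' => F (x :: p') s) (bdL (ZMod 2) p) +
          ext (fun s' => F (x :: p) s') (bdL (ZMod 2) s)) l := by
      rw [← sp_add]
      refine sp_congr fun p s _ => ?_
      rw [hcons]; abel
    rw [e2]
    have e3 : ext (fun p' => F p' (x :: l)) (bdL (ZMod 2) [x]) = F [] (x :: l) := by
      rw [hcons, bdL, map_zero, add_zero]
    have e4 : ext (fun s' => F [x] s') (bdL (ZMod 2) (x :: l)) =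
        F [x] l + ext (fun s' => F [x] (x :: s')) (bdL (ZMod 2) l) := hcons _ _
    rw [e3, e4]
    have := two_zero (F [] (x :: l))
    have h2 : F [] (x :: l) + (F [x] l + ext (fun s' => F [x] (x :: s')) (bdL (ZMod 2) l)) +
        (sp F l + sp (fun p s => ext (fun p' => F (x :: p') s) (bdL (ZMod 2) p) +
          ext (fun s' => F (x :: p) s') (bdL (ZMod 2) s)) l) + F [] (x :: l) + F (x :: l) [] =
        (F [] (x :: l) + F [] (x :: l)) + (F [x] l +
          ext (fun s' => F [x] (x :: s')) (bdL (ZMod 2) l) +
        (sp F l + sp (fun p s => ext (fun p' => F (x :: p') s) (bdL (ZMod 2) p) +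
          ext (fun s' => F (x :: p) s') (bdL (ZMod 2) s)) l) + F (x :: l) []) := by abel
    rw [h2, this]
    abel

end Sp

section Cap

variable {X : Type*}

theorem capS_def (θ : List X → ZMod 2) (l : List X) :
    capS θ l = sp (fun p s => Finsupp.single s (θ p)) l := rfl

theorem capS_congr {θ θ' : List X → ZMod 2} {l : List X}
    (h : ∀ p s, Spl l p s → θ p = θ' p) : capS θ l = capS θ' l := by
  rw [capS_def, capS_def]
  exact sp_congr fun p s hs => by rw [h p s hs]

theorem capS_zero (l : List X) : capS (fun _ => 0) l = 0 := by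
  rw [capS_def]
  simp only [Finsupp.single_zero]
  exact sp_zero l

theorem bd_capS (θ : List X → ZMod 2) (l : List X) :
    bd (capS θ l) = ext (capS θ) (bdL (ZMod 2) l) +
      capS (fun p => ext θ (bdL (ZMod 2) p)) l + Finsupp.single l (θ []) +
      Finsupp.single [] (θ l) := by
  have h := ext_sp_bdL (A := Ch (ZMod 2) X) (fun p s => Finsupp.single s (θ p)) l
  have e0 : ext (sp fun p s => Finsupp.single s (θ p)) (bdL (ZMod 2) l) =
    ext (capS θ) (bdL (ZMod 2) l) := rfl
  have e1 : ∀ p s : List X, ext (fun p' => Finsupp.single s (θ p')) (bdL (ZMod 2) p) =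
      (Finsupp.single s (ext θ (bdL (ZMod 2) p)) : Ch (ZMod 2) X) := by
    intro p s
    exact (map_ext (Finsupp.lsingle s) θ _).symm
  have e2 : ∀ p s : List X, ext (fun s' => Finsupp.single s' (θ p)) (bdL (ZMod 2) s) =
      (θ p • bdL (ZMod 2) s : Ch (ZMod 2) X) := by
    intro p s
    rw [ext_def, Finsupp.sum]
    conv_rhs => rw [← Finsupp.sum_single (bdL (ZMod 2) s), Finsupp.sum, Finset.smul_sum]
    refine Finset.sum_congr rfl fun l _ => ?_
    rw [Finsupp.smul_single, Finsupp.smul_single, smul_eq_mul, smul_eq_mul, mul_comm]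
  have e3 : sp (fun p s => ext (fun p' => Finsupp.single s (θ p')) (bdL (ZMod 2) p) +
      ext (fun s' => Finsupp.single s' (θ p)) (bdL (ZMod 2) s)) l =
      capS (fun p => ext θ (bdL (ZMod 2) p)) l + bd (capS θ l) := by
    have e4 : bd (capS θ l) = sp (fun p s => (θ p • bdL (ZMod 2) s : Ch (ZMod 2) X)) l := by
      rw [capS_def]
      have := sp_map (bd (k := ZMod 2) (X := X)).toAddMonoidHom
        (fun p s => Finsupp.single s (θ p)) l
      simp only [LinearMap.toAddMonoidHom_coe] at this
      rw [this]
      exact sp_congr fun p s _ => by rw [bd_single]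
    rw [e4, capS_def, ← sp_add]
    exact sp_congr fun p s _ => by rw [e1, e2]
  rw [e0] at h
  rw [h, e3]
  have := two_zero (capS (fun p => ext θ (bdL (ZMod 2) p)) l)
  have t2 := two_zero (Finsupp.single l (θ []) : Ch (ZMod 2) X)
  have t3 := two_zero (Finsupp.single [] (θ l) : Ch (ZMod 2) X)
  calc bd (capS θ l) = bd (capS θ l) + 0 + 0 + 0 := by simp
    _ = bd (capS θ l) + (capS (fun p => ext θ (bdL (ZMod 2) p)) l +
          capS (fun p => ext θ (bdL (ZMod 2) p)) l) +
          (Finsupp.single l (θ []) + Finsupp.single l (θ [])) +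
          (Finsupp.single [] (θ l) + Finsupp.single [] (θ l)) := by rw [this, t2, t3]
    _ = _ := by abel

/-- `bd` of the cap product of a chain with a cochain. -/
theorem bd_ext_capS (θ : List X → ZMod 2) (c : Ch (ZMod 2) X) (h0 : θ [] = 0) :
    bd (ext (capS θ) c) = ext (capS θ) (bd c) +
      ext (capS fun p => ext θ (bdL (ZMod 2) p)) c + Finsupp.single [] (ext θ c) := by
  rw [map_ext (bd (k := ZMod 2) (X := X)) (capS θ) c, bd_eq_ext c, ext_ext]
  have e : ext (fun l => bd (capS θ l)) c = ext (fun l => (ext (capS θ) (bdL (ZMod 2) l) +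
      capS (fun p => ext θ (bdL (ZMod 2) p)) l) + Finsupp.single [] (θ l)) c := by
    refine ext_congr fun l _ => ?_
    rw [bd_capS, h0, Finsupp.single_zero, add_zero]
  rw [e, ext_add_fun, ext_add_fun]
  congr 1
  exact (map_ext (Finsupp.lsingle []) θ c).symm

theorem ext_sp {Y A : Type*} [AddCommGroup A] [Module (ZMod 2) A]
    (F : List Y → List X → List X → A) (v : Ch (ZMod 2) Y) (l : List X) :
    ext (fun a => sp (F a) l) v = sp (fun p s => ext (fun a => F a p s) v) l := by
  induction l generalizing F with
  | nil => simp only [sp_nil]; exact ext_zero_fun v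
  | cons x l ih =>
    simp only [sp_cons]
    rw [ext_add_fun, ih]

theorem sup_sp {P : List X → Prop} {F : List X → List X → Ch (ZMod 2) X} {l : List X}
    (h : ∀ p s, Spl l p s → Sup P (F p s)) : Sup P (sp F l) := by
  induction l generalizing F with
  | nil => exact sup_zero _
  | cons x l ih =>
    rw [sp_cons]
    refine sup_add (h _ _ ⟨[], l, x, rfl, rfl, rfl⟩) (ih ?_)
    rintro p s ⟨a, b, y, rfl, rfl, rfl⟩
    exact h _ _ ⟨x :: a, b, y, rfl, rfl, rfl⟩

/-- linearity in the cochain -/
theorem ext_capS_ext {Y : Type*} (Θ : List Y → List X → ZMod 2) (v : Ch (ZMod 2) Y)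
    (c : Ch (ZMod 2) X) :
    ext (fun a => ext (capS (Θ a)) c) v = ext (capS fun b => ext (fun a => Θ a b) v) c := by
  rw [ext_swap]
  refine ext_congr fun l _ => ?_
  simp only [capS_def]
  rw [ext_sp]
  refine sp_congr fun p s _ => ?_
  exact (map_ext (Finsupp.lsingle s) (fun a => Θ a p) v).symm

/-- lists of a cap product -/
theorem sup_capS {P : List X → Prop} {θ : List X → ZMod 2} {l : List X}
    (h : ∀ p s, Spl l p s → θ p ≠ 0 → P s) : Sup P (capS θ l) := by
  rw [capS_def]
  refine sup_sp fun p s hs => ?_
  by_cases h0 : θ p = 0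
  · rw [h0, Finsupp.single_zero]; exact sup_zero _
  · exact sup_single (h p s hs h0) _

end Cap

end Vale.Agent.P239.M.Rel
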