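import Vale.Agent.P239.S.M_Rel1

/-!
Module M, block M12: the homotopy operator of a contraction.
-/

namespace Vale.Agent.P239.M.Rel

open Vale.Agent.P239.M Metric Set

section DN

variable {k : Type*} [CommRing k] {X : Type*}

/-- the times -/
noncomputable def tt (M a : ℕ) : unitInterval := Set.projIcc 0 1 zero_le_one ((a : ℝ) / M)

theorem tt_zero (M : ℕ) : tt M 0 = 0 := by
  rw [tt, Nat.cast_zero, zero_div, Set.projIcc_left]; rfl

theorem tt_self {M : ℕ} (hM : 0 < M) : tt M M = 1 := by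
  rw [tt, div_self (by positivity), Set.projIcc_right]; rfl

theorem dist_tt (M a : ℕ) : dist (tt M a) (tt M (a + 1)) ≤ 1 / M := by
  have h := (LipschitzWith.projIcc (zero_le_one' ℝ)).dist_le_mul ((a : ℝ) / M) (((a + 1 : ℕ) : ℝ) / M)
  rw [NNReal.coe_one, one_mul] at h
  refine h.trans ?_
  rw [Real.dist_eq, ← sub_div, Nat.cast_add, Nat.cast_one]
  rw [show (a : ℝ) - (a + 1) = -1 by ring, abs_div, abs_neg, abs_one, abs_of_nonneg (by positivity)]

/-- subdivided homotopy operator -/
noncomputable def DN (H : unitInterval × X → X) (M : ℕ) : Ch k X →ₗ[k] Ch k X :=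
  ∑ a ∈ Finset.range M, pr (fun x => H (tt M a, x)) (fun x => H (tt M (a + 1), x))

theorem pf_id (c : Ch k X) : pf (fun x : X => x) c = c := by
  induction c using Finsupp.induction_linear with
  | zero => simp
  | add a b ha hb => rw [map_add, ha, hb]
  | single l r => rw [pf_single, List.map_id']

theorem bd_DN (H : unitInterval × X → X) {M : ℕ} (hM : 0 < M) (h0 : ∀ x, H (0, x) = x)
    (c : Ch k X) :
    bd (DN H M c) + DN H M (bd c) = pf (fun x => H (1, x)) c - c := by
  have e : ∀ c : Ch k X, DN H M c = ∑ a ∈ Finset.range M,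
      pr (fun x => H (tt M a, x)) (fun x => H (tt M (a + 1), x)) c := by
    intro c
    rw [DN, LinearMap.sum_apply]
  rw [e, e, map_sum, ← Finset.sum_add_distrib]
  simp only [bd_pr]
  rw [Finset.sum_range_sub (fun a => pf (fun x => H (tt M a, x)) c), tt_self hM, tt_zero]
  congr 1
  have : (fun x : X => H (0, x)) = fun x => x := funext h0
  rw [this, pf_id]

theorem sup_DN {P : List X → Prop} (H : unitInterval × X → X) (M : ℕ) (l : List X)
    (h : ∀ a < M, Sup P (prL k (fun x => H (tt M a, x)) (fun x => H (tt M (a + 1), x)) l)) :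
    Sup P (DN H M (Finsupp.single l (1 : k))) := by
  rw [DN, LinearMap.sum_apply]
  refine sup_sum fun a ha => ?_
  rw [pr_single, one_smul]
  exact h a (Finset.mem_range.1 ha)

/-- small lists stay small -/
theorem exists_mesh [MetricSpace X] (H : unitInterval × X → X) (hH : Continuous H) {K : Set X}
    (hK : IsCompact K) {κ : ℝ} (hκ : 0 < κ) :
    ∃ M : ℕ, 0 < M ∧ ∃ δ > 0, ∀ l : List X, In K l → Sm δ l → ∀ a < M,
      Sup (fun m => m.length = l.length + 1 ∧ Sm κ m ∧ In (H '' (univ ×ˢ K)) m)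
        (prL k (fun x => H (tt M a, x)) (fun x => H (tt M (a + 1), x)) l) := by
  have hu : UniformContinuousOn H (univ ×ˢ K) :=
    (isCompact_univ.prod hK).uniformContinuousOn_of_continuous hH.continuousOn
  rw [Metric.uniformContinuousOn_iff] at hu
  obtain ⟨δ, hδ, h⟩ := hu κ hκ
  obtain ⟨M, hM⟩ := exists_nat_gt (1 / δ)
  have hM0 : 0 < M := by
    have : (0 : ℝ) < M := lt_trans (by positivity) hM
    exact_mod_cast this
  refine ⟨M, hM0, δ, hδ, fun l hl hs a _ => ?_⟩
  have hd : dist (tt M a) (tt M (a + 1)) < δ := by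
    refine (dist_tt M a).trans_lt ?_
    rw [div_lt_iff₀ (by positivity)]
    rw [div_lt_iff₀ hδ] at hM
    linarith [mul_comm δ (M : ℝ)]
  refine sup_mono ?_ (sup_prL _ _ l)
  rintro m ⟨h1, h2⟩
  refine ⟨h1, ?_, ?_⟩
  · intro y hy y' hy'
    obtain ⟨x, hx, hyx⟩ := h2 y hy
    obtain ⟨x', hx', hyx'⟩ := h2 y' hy'
    have hm : ∀ t : unitInterval, ∀ x ∈ l, (t, x) ∈ (univ ×ˢ K : Set (unitInterval × X)) :=
      fun t x hx => ⟨mem_univ _, hl x hx⟩
    have hxx := hs x hx x' hx'
    rcases hyx with rfl | rfl <;> rcases hyx' with rfl | rfl <;>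
      refine h _ (hm _ x hx) _ (hm _ x' hx') ?_ <;>
      rw [Prod.dist_eq, max_lt_iff] <;> refine ⟨?_, hxx⟩
    · rw [dist_self]; exact hδ
    · exact hd
    · rw [dist_comm]; exact hd
    · rw [dist_self]; exact hδ
  · intro y hy
    obtain ⟨x, hx, hyx⟩ := h2 y hy
    rcases hyx with rfl | rfl
    · exact ⟨(_, x), ⟨mem_univ _, hl x hx⟩, rfl⟩
    · exact ⟨(_, x), ⟨mem_univ _, hl x hx⟩, rfl⟩

/-- Restriction lemma. -/
theorem mem_bd_of_filter {c : Ch k X} {P : List X → Prop} [DecidablePred P] {l : List X}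
    (hl : l ∈ (bd (c.filter P)).support) {x : X} (hx : x ∈ l)
    (h : ∀ l' ∈ c.support, x ∈ l' → P l') : l ∈ (bd c).support := by
  have e : bd c = bd (c.filter P) + bd (c.filter fun l => ¬ P l) := by
    rw [← map_add, Finsupp.filter_add_filter_not]
  have h0 : (bd (c.filter fun l => ¬ P l)) l = 0 := by
    by_contra hne
    have hm : l ∈ (bd (c.filter fun l => ¬ P l)).support := Finsupp.mem_support_iff.2 hne
    obtain ⟨l', hl', hs, _⟩ := sup_bd _ l hm
    rw [Finsupp.support_filter, Finset.mem_filter] at hl'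
    exact hl'.2 (h l' hl'.1 (hs.subset hx))
  rw [Finsupp.mem_support_iff, e, Finsupp.add_apply, h0, add_zero]
  exact Finsupp.mem_support_iff.1 hl

end DN

end Vale.Agent.P239.M.Rel
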