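import Vale.Agent.P239.S.M_Defs

/-!
Module M1: supports of chains (`Sup` calculus) and the coning homotopy `htp`
(statements as in `M_Skel`; proofs by helper211 and helper653).
-/

namespace Vale.Agent.P239.M

section M1

variable {k : Type*} [CommRing k] {X Y : Type*} {P Q : List X → Prop} {c d : Ch k X}

namespace SupA

variable {M M' : Type*} [AddCommGroup M] [Module k M] [AddCommGroup M'] [Module k M']

theorem ext_single (u : List X → M) (l : List X) (r : k) :
    ext u (Finsupp.single l r) = r • u l := Finsupp.linearCombination_single k r l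

theorem map_ext (φ : M →ₗ[k] M') (u : List X → M) (c : Ch k X) :
    φ (ext u c) = ext (fun l => φ (u l)) c := by
  simp only [ext, Finsupp.linearCombination_apply, Finsupp.sum, map_sum, map_smul]

theorem ext_add (u v : List X → M) (c : Ch k X) :
    ext (fun l => u l + v l) c = ext u c + ext v c := by
  simp only [ext, Finsupp.linearCombination_apply, smul_add, Finsupp.sum_add]

theorem ext_neg (u : List X → M) (c : Ch k X) : ext (fun l => -u l) c = -ext u c := by
  simp only [ext, Finsupp.linearCombination_apply, smul_neg, Finsupp.sum_neg]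

theorem ext_sub (u v : List X → M) (c : Ch k X) :
    ext (fun l => u l - v l) c = ext u c - ext v c := by
  simp only [sub_eq_add_neg, ext_add, ext_neg]

theorem ext_self (c : Ch k X) : ext (fun l => Finsupp.single l (1 : k)) c = c := by
  induction c using Finsupp.induction_linear with
  | zero => simp
  | add a b ha hb => rw [map_add, ha, hb]
  | single l r => rw [ext_single, Finsupp.smul_single, smul_eq_mul, mul_one]

/-- A linear map between chains is the extension of its values on lists. -/
theorem eq_ext' (φ : Ch k X →ₗ[k] Ch k Y) (c : Ch k X) :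
    φ c = ext (fun l => φ (Finsupp.single l 1)) c := by
  induction c using Finsupp.induction_linear with
  | zero => simp
  | add a b ha hb => rw [map_add, map_add, ha, hb]
  | single l r => rw [ext_single, ← map_smul, Finsupp.smul_single, smul_eq_mul, mul_one]

theorem mem_support_ext {u : List Y → Ch k X} {c : Ch k Y} {l : List X}
    (hl : l ∈ (ext u c).support) : ∃ l' ∈ c.support, l ∈ (u l').support := by
  classical
  by_contra h
  push Not at h
  refine Finsupp.mem_support_iff.1 hl ?_
  rw [ext, Finsupp.linearCombination_apply, Finsupp.sum, Finsupp.finsetSum_apply]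
  refine Finset.sum_eq_zero fun l' hl' => ?_
  rw [Finsupp.smul_apply, Finsupp.notMem_support_iff.1 (h l' hl'), smul_zero]

end SupA

open SupA

theorem Sup.mono (h : ∀ l, P l → Q l) (hc : Sup P c) : Sup Q c := fun l hl => h l (hc l hl)

theorem Sup.zero : Sup P (0 : Ch k X) := by intro l hl; simp at hl

theorem Sup.add (hc : Sup P c) (hd : Sup P d) : Sup P (c + d) := by
  classical
  intro l hl
  rcases Finset.mem_union.1 (Finsupp.support_add hl) with h | h
  exacts [hc l h, hd l h]

theorem Sup.sub (hc : Sup P c) (hd : Sup P d) : Sup P (c - d) := by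
  classical
  intro l hl
  rcases Finset.mem_union.1 (Finsupp.support_sub hl) with h | h
  exacts [hc l h, hd l h]

theorem Sup.smul (r : k) (hc : Sup P c) : Sup P (r • c) := fun l hl =>
  hc l (Finsupp.support_smul hl)

theorem Sup.sum {ι : Type*} (s : Finset ι) (f : ι → Ch k X) (h : ∀ i ∈ s, Sup P (f i)) :
    Sup P (∑ i ∈ s, f i) := by
  classical
  induction s using Finset.induction_on with
  | empty => exact Sup.zero
  | insert a s ha ih =>
    rw [Finset.sum_insert ha]
    exact (h a (Finset.mem_insert_self a s)).add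
      (ih fun i hi => h i (Finset.mem_insert_of_mem hi))

theorem Sup.single {l : List X} (r : k) (h : P l) : Sup P (Finsupp.single l r : Ch k X) := by
  intro l' hl'
  rw [Finset.mem_singleton.1 (Finsupp.support_single_subset hl')]
  exact h

theorem Sup.ext {R : List Y → Prop} {u : List X → Ch k Y} (hc : Sup P c)
    (hu : ∀ l, P l → Sup R (u l)) : Sup R (ext u c) := by
  intro l hl
  obtain ⟨l', hl', hl''⟩ := mem_support_ext hl
  exact hu l' (hc l' hl') l hl''

theorem Sup.cone (x : X) (hc : Sup (fun l => P (x :: l)) c) : Sup P (cone x c) := by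
  rw [eq_ext' (M.cone x)]
  exact hc.ext fun l hl => by rw [cone_single]; exact Sup.single 1 hl

theorem Sup.pf {R : List Y → Prop} (f : X → Y) (hc : Sup (fun l => R (l.map f)) c) :
    Sup R (pf f c) := by
  rw [eq_ext' (M.pf f)]
  exact hc.ext fun l hl => by rw [pf_single]; exact Sup.single 1 hl

theorem ext_congr {A : Type*} [AddCommGroup A] [Module k A] {u v : List X → A} (hc : Sup P c)
    (h : ∀ l, P l → u l = v l) : ext u c = ext v c := by
  rw [ext, Finsupp.linearCombination_apply, Finsupp.linearCombination_apply]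
  exact Finset.sum_congr rfl fun l hl => by simp only [h l (hc l hl)]

theorem ext_bdL {A : Type*} [AddCommGroup A] [Module k A] (u : List X → A) (c : Ch k X) :
    ext u (bd c) = ext (fun l => ext u (bdL k l)) c := map_ext (ext u) (bdL k) c

/-- faces -/
theorem sup_bdL (l : List X) :
    Sup (fun l' => l'.Sublist l ∧ l'.length + 1 = l.length) (bdL k l) := by
  induction l with
  | nil => exact Sup.zero
  | cons x l ih =>
    rw [bdL]
    refine (Sup.single 1 ⟨List.sublist_cons_self x l, rfl⟩).sub (Sup.cone x ?_)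
    refine Sup.mono (fun l' hl' => ?_) ih
    exact ⟨hl'.1.cons_cons x, by simp [hl'.2]⟩

theorem Sup.bd (h : ∀ l l', l'.Sublist l → l'.length + 1 = l.length → P l → Q l') (hc : Sup P c) :
    Sup Q (bd c) :=
  hc.ext fun l hl => Sup.mono (fun l' hl' => h l l' hl'.1 hl'.2 hl) (sup_bdL l)

/-- The lists of a prism. -/
theorem sup_prL' (f g : X → Y) (l : List X) :
    Sup (fun l' => ∃ p x s, l = p ++ x :: s ∧ l' = p.map f ++ f x :: g x :: s.map g)
      (prL k f g l) := by
  induction l with
  | nil => exact Sup.zero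
  | cons x l ih =>
    rw [prL]
    refine (Sup.single 1 ⟨[], x, l, rfl, rfl⟩).sub (Sup.cone _ (Sup.mono ?_ ih))
    rintro l' ⟨p, y, s, rfl, rfl⟩
    exact ⟨x :: p, y, s, rfl, rfl⟩

theorem sup_prL (f g : X → Y) (l : List X) :
    Sup (fun l' => l'.length = l.length + 1 ∧ ∀ y ∈ l', ∃ x ∈ l, y = f x ∨ y = g x)
      (prL k f g l) := by
  refine Sup.mono ?_ (sup_prL' f g l)
  rintro l' ⟨p, x, s, rfl, rfl⟩
  refine ⟨by simp; omega, fun y hy => ?_⟩
  simp only [List.mem_append, List.mem_map, List.mem_cons] at hy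
  rcases hy with ⟨z, hz, rfl⟩ | rfl | rfl | ⟨z, hz, rfl⟩
  · exact ⟨z, by simp [hz], Or.inl rfl⟩
  · exact ⟨x, by simp, Or.inl rfl⟩
  · exact ⟨x, by simp, Or.inr rfl⟩
  · exact ⟨z, by simp [hz], Or.inr rfl⟩

/-- restriction and boundary -/
theorem mem_bd_filter [DecidablePred P] {l : List X} (hl : l ∈ (bd (c.filter P)).support) {x : X}
    (hx : x ∈ l) (h : ∀ l' ∈ c.support, x ∈ l' → P l') : l ∈ (bd c).support := by
  by_contra hn
  have h0 : bd (c.filter P) l + bd (c.filter fun l => ¬ P l) l = 0 := by
    rw [← Finsupp.add_apply, ← map_add, Finsupp.filter_add_filter_not]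
    exact Finsupp.notMem_support_iff.1 hn
  have h1 : l ∈ (bd (c.filter fun l => ¬ P l)).support := by
    rw [Finsupp.mem_support_iff]
    intro h2
    rw [h2, add_zero] at h0
    exact Finsupp.mem_support_iff.1 hl h0
  obtain ⟨l', h2, h3⟩ := mem_support_ext h1
  have h4 := sup_bdL (k := k) l' l h3
  rw [Finsupp.support_filter, Finset.mem_filter] at h2
  exact h2.2 (h l' h2.1 (h4.1.subset hx))

theorem htp_nil (ξ : List X → X) (Φ : List X → Ch k X) : htp ξ Φ [] = 0 := rfl

theorem htp_of_ne (ξ : List X → X) (Φ : List X → Ch k X) {l : List X} (hl : l ≠ []) :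
    htp ξ Φ l = cone (ξ l) (Finsupp.single l 1 - Φ l - ext (htp ξ Φ) (bdL k l)) := by
  obtain ⟨x, l, rfl⟩ := List.exists_cons_of_ne_nil hl
  rw [htp, List.length_cons, htpN]
  congr 2
  refine ext_congr (sup_bdL (x :: l)) fun l' hl' => ?_
  have : l'.length = l.length := by have := hl'.2; simpa using this
  rw [htp, this]

theorem bd_htp (ξ : List X → X) (Φ : List X → Ch k X)
    (hP : ∀ l l', l'.Sublist l → P l → P l') (h0 : Φ [] = Finsupp.single [] 1)
    (hΦ : ∀ l, P l → bd (Φ l) = ext Φ (bdL k l)) (l : List X) (hl : P l) :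
    bd (htp ξ Φ l) + ext (htp ξ Φ) (bdL k l) = Finsupp.single l 1 - Φ l := by
  suffices H : ∀ n : ℕ, ∀ l : List X, l.length = n → P l →
      bd (htp ξ Φ l) + ext (htp ξ Φ) (bdL k l) = Finsupp.single l 1 - Φ l from
    H _ l rfl hl
  clear hl l
  intro n
  induction n with
  | zero =>
    intro l hn hl
    obtain rfl := List.eq_nil_of_length_eq_zero hn
    rw [htp_nil, h0, bdL, map_zero, map_zero, add_zero, sub_self]
  | succ n ih =>
    intro l hn hl
    have hne : l ≠ [] := by rintro rfl; simp at hn
    have key : bd (Finsupp.single l 1 - Φ l - ext (htp ξ Φ) (bdL k l)) = 0 := by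
      have hf : Sup (fun l' => l'.length = n ∧ P l') (bdL k l) :=
        Sup.mono (fun l' hl' => ⟨by have := hl'.2; omega, hP l l' hl'.1 hl⟩) (sup_bdL l)
      have h1 : bd (ext (htp ξ Φ) (bdL k l)) = bdL k l - ext Φ (bdL k l) := by
        rw [map_ext]
        have h2 : ext (fun l' => bd (htp ξ Φ l')) (bdL k l) =
            ext (fun l' => Finsupp.single l' 1 - Φ l' - ext (htp ξ Φ) (bdL k l')) (bdL k l) :=
          ext_congr hf fun l' hl' => by rw [← ih l' hl'.1 hl'.2]; abel
        rw [h2, ext_sub, ext_sub, ext_self, ← ext_bdL, bd_bdL, map_zero, sub_zero]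
      rw [map_sub, map_sub, bd_single, one_smul, hΦ l hl, h1]
      abel
    rw [htp_of_ne ξ Φ hne, bd_cone, key, map_zero, sub_zero]
    abel

theorem bd_htp_ext (ξ : List X → X) (Φ : List X → Ch k X)
    (hP : ∀ l l', l'.Sublist l → P l → P l') (h0 : Φ [] = Finsupp.single [] 1)
    (hΦ : ∀ l, P l → bd (Φ l) = ext Φ (bdL k l)) (hc : Sup P c) :
    bd (ext (htp ξ Φ) c) + ext (htp ξ Φ) (bd c) = c - ext Φ c := by
  rw [map_ext, ext_bdL, ← ext_add, ext_congr hc fun l hl => bd_htp ξ Φ hP h0 hΦ l hl, ext_sub,
    ext_self]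

theorem sup_htp (ξ : List X → X) (Φ : List X → Ch k X) (R : List X → Set X)
    (hP : ∀ l l', l'.Sublist l → P l → P l') (hR : ∀ l l', l'.Sublist l → R l' ⊆ R l)
    (hl : ∀ l, P l → ∀ x ∈ l, x ∈ R l) (hξ : ∀ l, l ≠ [] → P l → ξ l ∈ R l)
    (hΦ : ∀ l, P l → Sup (fun l' => l'.length = l.length ∧ In (R l) l') (Φ l)) (l : List X)
    (h : P l) : Sup (fun l' => l'.length = l.length + 1 ∧ In (R l) l') (htp ξ Φ l) := by
  suffices H : ∀ n : ℕ, ∀ l : List X, l.length = n → P l →
      Sup (fun l' => l'.length = l.length + 1 ∧ In (R l) l') (htp ξ Φ l) from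
    H _ l rfl h
  clear h l
  intro n
  induction n with
  | zero =>
    intro l hn _
    obtain rfl := List.eq_nil_of_length_eq_zero hn
    rw [htp_nil]
    exact Sup.zero
  | succ n ih =>
    intro l hn hPl
    have hne : l ≠ [] := by rintro rfl; simp at hn
    rw [htp_of_ne ξ Φ hne]
    have h1 : Sup (fun l' => l'.length = l.length ∧ In (R l) l')
        (Finsupp.single l 1 - Φ l - ext (htp ξ Φ) (bdL k l)) := by
      refine ((Sup.single 1 ⟨rfl, hl l hPl⟩).sub (hΦ l hPl)).sub
        ((sup_bdL l).ext fun l' hl' => ?_)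
      have h2 : l'.length = n := by have := hl'.2; omega
      refine Sup.mono (fun l'' hl'' => ⟨by omega, fun x hx => ?_⟩) (ih l' h2 (hP l l' hl'.1 hPl))
      exact hR l l' hl'.1 (hl''.2 x hx)
    refine Sup.cone _ (Sup.mono (fun l' hl' => ⟨by simp [hl'.1], fun x hx => ?_⟩) h1)
    rcases List.mem_cons.1 hx with rfl | hx
    · exact hξ l hne hPl
    · exact hl'.2 x hx

end M1

end Vale.Agent.P239.M
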